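import Mathlib

set_option autoImplicit false

namespace Vale.Agent.P058

theorem hb_abs {W ι : Type*} [AddCommGroup W] [Module ℝ W] [Nonempty ι] (F : ι → W → ℝ)
    (F_nonneg : ∀ i w, 0 ≤ F i w)
    (F_hom : ∀ i w (c : ℝ), 0 < c → ∃ j, F j (c • w) ≤ c * F i w)
    (F_add : ∀ i j w w', ∃ k, F k (w + w') ≤ F i w + F j w')
    (w₀ : W) (ε₀ : ℝ) (hε : 0 < ε₀) (h : ∀ i, ε₀ ≤ F i w₀) :
    ∃ H : W →ₗ[ℝ] ℝ, (∀ i w, H w ≤ F i w) ∧ ε₀ ≤ H w₀ := by
  let p : W → ℝ := fun w => ⨅ i, F i w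
  have hbdd : ∀ w, BddBelow (Set.range fun i => F i w) := fun w => ⟨0, by
    rintro _ ⟨i, rfl⟩
    exact F_nonneg i w⟩
  have p_le : ∀ i w, p w ≤ F i w := fun i w => ciInf_le (hbdd w) i
  have p_nonneg : ∀ w, 0 ≤ p w := fun w => le_ciInf fun i => F_nonneg i w
  have p_hom1 : ∀ c : ℝ, 0 < c → ∀ w, p (c • w) ≤ c * p w := by
    intro c hc w
    have h1 : c * p w = ⨅ i, c * F i w := by
      rw [Real.mul_iInf_of_nonneg hc.le]
    rw [h1]
    apply le_ciInf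
    intro i
    obtain ⟨j, hj⟩ := F_hom i w c hc
    exact (p_le j _).trans hj
  have p_hom : ∀ c : ℝ, 0 < c → ∀ w, p (c • w) = c * p w := by
    intro c hc w
    apply le_antisymm (p_hom1 c hc w)
    have h1 := p_hom1 c⁻¹ (inv_pos.2 hc) (c • w)
    rw [smul_smul, inv_mul_cancel₀ hc.ne', one_smul] at h1
    calc c * p w ≤ c * (c⁻¹ * p (c • w)) := by gcongr
      _ = p (c • w) := by rw [← mul_assoc, mul_inv_cancel₀ hc.ne', one_mul]
  have p_add : ∀ w w', p (w + w') ≤ p w + p w' := by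
    intro w w'
    apply le_of_forall_pos_le_add
    intro ε hε
    obtain ⟨i, hi⟩ := exists_lt_of_ciInf_lt (show p w < p w + ε / 2 by linarith)
    obtain ⟨j, hj⟩ := exists_lt_of_ciInf_lt (show p w' < p w' + ε / 2 by linarith)
    obtain ⟨k, hk⟩ := F_add i j w w'
    have := p_le k (w + w')
    linarith
  have hp0 : ε₀ ≤ p w₀ := le_ciInf h
  have hw0 : w₀ ≠ 0 := by
    rintro rfl
    have h1 := p_hom 2 two_pos (0 : W)
    rw [smul_zero] at h1
    linarith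
  let f : W →ₗ.[ℝ] ℝ := LinearPMap.mkSpanSingleton w₀ (p w₀) hw0
  have hf : ∀ (c : ℝ) (hc : c • w₀ ∈ f.domain), f ⟨c • w₀, hc⟩ = c * p w₀ := by
    intro c hc
    exact LinearPMap.mkSpanSingleton'_apply w₀ (p w₀) _ c hc
  obtain ⟨H, hH1, hH2⟩ := exists_extension_of_le_sublinear f p p_hom p_add (by
      rintro ⟨x, hx⟩
      obtain ⟨c, rfl⟩ := Submodule.mem_span_singleton.1 hx
      rw [hf c hx]
      show c * p w₀ ≤ p (c • w₀)
      rcases le_or_gt c 0 with hc | hc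
      · have := p_nonneg (c • w₀)
        nlinarith
      · rw [p_hom c hc])
  refine ⟨H, fun i w => (hH2 w).trans (p_le i w), ?_⟩
  have hmem : (1 : ℝ) • w₀ ∈ f.domain :=
    Submodule.smul_mem _ _ (Submodule.mem_span_singleton_self w₀)
  have h1 := hH1 ⟨(1 : ℝ) • w₀, hmem⟩
  rw [hf 1 hmem, one_mul] at h1
  have h2 : H ((1 : ℝ) • w₀) = p w₀ := h1
  rw [one_smul] at h2
  rw [h2]
  exact hp0

end Vale.Agent.P058
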