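import Vale.Agent.P058.Coord

set_option autoImplicit false

namespace Vale.Agent.P058.Alg

open scoped TensorProduct

theorem exists_sep_elem (K : IntermediateField ℚ ℝ) [FiniteDimensional ℚ K] :
    ∃ e : ℝ ⊗[ℚ] ℝ, (∀ x y : K, (x : ℝ) ⊗ₜ[ℚ] (y : ℝ) * e = ((x * y : ℝ) ⊗ₜ[ℚ] (1 : ℝ)) * e) ∧
      Algebra.TensorProduct.lmul' ℚ e = (1 : ℝ) := by
  have hsep : Algebra.FormallyUnramified ℚ K := Algebra.FormallyUnramified.of_isSeparable ℚ K
  have hfin : Algebra.EssFiniteType ℚ K := inferInstance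
  refine ⟨Algebra.TensorProduct.map K.val K.val (Algebra.FormallyUnramified.elem ℚ K), ?_, ?_⟩
  · intro x y
    have h := Algebra.FormallyUnramified.one_tmul_mul_elem (R := ℚ) (S := K) y
    have h' : (x ⊗ₜ[ℚ] y) * Algebra.FormallyUnramified.elem ℚ K =
        ((x * y) ⊗ₜ[ℚ] 1) * Algebra.FormallyUnramified.elem ℚ K := by
      have e1 : x ⊗ₜ[ℚ] y = (x ⊗ₜ[ℚ] (1 : K)) * ((1 : K) ⊗ₜ[ℚ] y) := by
        rw [Algebra.TensorProduct.tmul_mul_tmul, one_mul, mul_one]
      rw [e1, mul_assoc, h, ← mul_assoc, Algebra.TensorProduct.tmul_mul_tmul, one_mul]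
    have h2 := congrArg (Algebra.TensorProduct.map K.val K.val) h'
    rw [map_mul, map_mul, Algebra.TensorProduct.map_tmul, Algebra.TensorProduct.map_tmul] at h2
    simpa using h2
  · have h := Algebra.FormallyUnramified.lmul_elem (R := ℚ) (S := K)
    have h2 : ∀ z : K ⊗[ℚ] K, Algebra.TensorProduct.lmul' ℚ
        (Algebra.TensorProduct.map K.val K.val z) =
        (K.val (Algebra.TensorProduct.lmul' ℚ z) : ℝ) := by
      intro z
      induction z with
      | zero => simp
      | tmul x y => simp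
      | add x y hx hy => rw [map_add, map_add, map_add, map_add, hx, hy]
    rw [h2, h, map_one]

theorem qspherical_of_mem_field {d : ℕ} (A : Set (EuclideanSpace ℝ (Fin d)))
    (hs : IsSpherical A) (K : IntermediateField ℚ ℝ) [FiniteDimensional ℚ K]
    (hK : ∀ a ∈ A, ∀ i, a i ∈ K) : QSpherical A := by
  classical
  obtain ⟨e, he, he1⟩ := exists_sep_elem K
  obtain ⟨z, ρ, hz⟩ := hs
  obtain ⟨π, hπ⟩ := LinearMap.exists_leftInverse_of_injective
    (Algebra.linearMap K ℝ) (LinearMap.ker_eq_bot.2 (algebraMap K ℝ).injective)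
  have hπ' : ∀ x : K, π (x : ℝ) = x := fun x => LinearMap.congr_fun hπ x
  have hsph : ∀ a ∈ A, ∑ i, a i * a i + ∑ i, (-2 * z i) * a i + (∑ i, z i * z i - ρ ^ 2) = 0 := by
    intro a ha
    have h := hz a ha
    have h2 : dist a z ^ 2 = ρ ^ 2 := by rw [h]
    rw [EuclideanSpace.dist_eq, Real.sq_sqrt (Finset.sum_nonneg fun _ _ => sq_nonneg _)] at h2
    rw [← h2, ← Finset.sum_add_distrib, ← Finset.sum_sub_distrib, ← Finset.sum_add_distrib]
    apply Finset.sum_eq_zero
    intro i _
    rw [Real.dist_eq, sq_abs]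
    ring
  let T0 : Option (Fin d) → Option (Fin d) → K := fun k l => match k, l with
    | none, none => π (∑ i, z i * z i - ρ ^ 2)
    | none, some i => π (-2 * z i)
    | some _, none => 0
    | some i, some j => if i = j then 1 else 0
  have hT0 : ∀ a ∈ A, ∑ k, ∑ l, hat a k * hat a l * (T0 k l : ℝ) = 0 := by
    intro a ha
    have h := congrArg π (hsph a ha)
    rw [map_add, map_add, map_sum π (fun i => (-2 * z i) * a i), map_zero] at h
    have h1 : π (∑ i, a i * a i) = ∑ i, (⟨a i, hK a ha i⟩ : K) * ⟨a i, hK a ha i⟩ := by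
      have : (∑ i, a i * a i : ℝ) =
          ((∑ i, (⟨a i, hK a ha i⟩ : K) * ⟨a i, hK a ha i⟩ : K) : ℝ) := by
        push_cast
        rfl
      rw [this, hπ']
    have h2 : ∀ i, π ((-2 * z i) * a i) = π (-2 * z i) * ⟨a i, hK a ha i⟩ := by
      intro i
      have : (-2 * z i) * a i = (⟨a i, hK a ha i⟩ : K) • (-2 * z i) := by
        rw [mul_comm]
        rfl
      rw [this, map_smul, smul_eq_mul, mul_comm]
    rw [h1] at h
    simp only [h2] at h
    have h3 := congrArg (fun x : K => (x : ℝ)) h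
    push_cast at h3
    rw [Fintype.sum_option]
    simp only [Fintype.sum_option, hat, T0]
    simp only [one_mul, mul_one, ZeroMemClass.coe_zero, mul_zero, zero_add]
    have h4 : ∀ i : Fin d, ∑ j, a i * a j * (((if i = j then (1 : K) else 0) : K) : ℝ) =
        a i * a i := by
      intro i
      rw [Finset.sum_eq_single i]
      · simp
      · intro j _ hj
        simp [Ne.symm hj]
      · simp
    simp only [h4]
    have h5 : ∑ x : Fin d, a x * ((π (-2 * z x) : K) : ℝ) =
        ∑ x : Fin d, ((π (-2 * z x) : K) : ℝ) * a x :=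
      Finset.sum_congr rfl fun _ _ => mul_comm _ _
    rw [h5]
    linarith
  apply qspherical_of_coord (fun k l => ((T0 k l : ℝ) ⊗ₜ[ℚ] (1 : ℝ)) * e)
  · intro a ha
    have hmem : ∀ k, hat a k ∈ K := by
      intro k
      cases k with
      | none => exact one_mem K
      | some i => exact hK a ha i
    have h1 : ∀ k l, (hat a k ⊗ₜ[ℚ] hat a l : ℝ ⊗[ℚ] ℝ) * (((T0 k l : ℝ) ⊗ₜ[ℚ] (1 : ℝ)) * e) =
        ((hat a k * hat a l * (T0 k l : ℝ)) ⊗ₜ[ℚ] (1 : ℝ)) * e := by
      intro k l
      have := he ⟨hat a k, hmem k⟩ ⟨hat a l, hmem l⟩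
      simp only at this
      rw [mul_left_comm, this, ← mul_assoc, Algebra.TensorProduct.tmul_mul_tmul, mul_one]
      congr 2
      ring
    simp only [h1]
    simp only [← Finset.sum_mul, ← TensorProduct.sum_tmul]
    rw [hT0 a ha, TensorProduct.zero_tmul, zero_mul]
  · intro i j
    rw [map_mul, he1, Algebra.TensorProduct.lmul'_apply_tmul, mul_one, mul_one]
    by_cases hij : i = j
    · simp [T0, hij]
    · simp [T0, hij]

theorem qspherical_of_algebraic {d : ℕ} (A : Set (EuclideanSpace ℝ (Fin d))) (hA : A.Finite)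
    (hs : IsSpherical A) (halg : ∀ a ∈ A, ∀ i, IsAlgebraic ℚ (a i)) : QSpherical A := by
  let S : Set ℝ := ⋃ a ∈ A, Set.range (fun i => a i)
  have hS : S.Finite := hA.biUnion fun a _ => Set.finite_range _
  have : Finite S := hS
  have hint : ∀ x ∈ S, IsIntegral ℚ x := by
    intro x hx
    simp only [S, Set.mem_iUnion, Set.mem_range] at hx
    obtain ⟨a, ha, i, rfl⟩ := hx
    exact (halg a ha i).isIntegral
  have hfd : FiniteDimensional ℚ (IntermediateField.adjoin ℚ S) :=
    IntermediateField.finiteDimensional_adjoin hint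
  apply qspherical_of_mem_field A hs (IntermediateField.adjoin ℚ S)
  intro a ha i
  apply IntermediateField.subset_adjoin
  simp only [S, Set.mem_iUnion, Set.mem_range]
  exact ⟨a, ha, i, rfl⟩

end Vale.Agent.P058.Alg
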