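import Vale.Agent.P058.Defs

set_option autoImplicit false

namespace Vale.Agent.P058

noncomputable def ev {d : ℕ} (a : EuclideanSpace ℝ (Fin d))
    (v : ℝ × EuclideanSpace ℝ (Fin d)) : ℝ := v.1 + inner ℝ v.2 a

def IntCombo {d : ℕ} (A : Finset (EuclideanSpace ℝ (Fin d)))
    (ω : (ℝ × EuclideanSpace ℝ (Fin d)) →₀ ℤ) (n : ℕ) : Prop :=
  1 ≤ n ∧ (∀ a ∈ A, ω.mapDomain (ev a) = 0) ∧
    ∀ x, ω.sum (fun v c => (c : ℝ) * inner ℝ v.2 x ^ 2) = n * ‖x‖ ^ 2

def Dif {G : Type*} [Add G] (l : G) (h : G → ℝ) : G → ℝ := fun x => h (x + l) - h x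

def Killed {G : Type*} [Add G] : ℕ → (G → ℝ) → Prop
  | 0, h => h = 0
  | n + 1, h => ∀ l, Killed n (Dif l h)

section

variable {G : Type*} [AddCommGroup G]

theorem Dif_add (l : G) (h k : G → ℝ) : Dif l (h + k) = Dif l h + Dif l k := by
  funext x
  simp only [Dif, Pi.add_apply]
  ring

theorem Dif_smul (l : G) (c : ℝ) (h : G → ℝ) : Dif l (c • h) = c • Dif l h := by
  funext x
  simp only [Dif, Pi.smul_apply, smul_eq_mul]
  ring

theorem Dif_zero (l : G) : Dif l (0 : G → ℝ) = 0 := by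
  funext x
  simp [Dif]

theorem Dif_comm (l m : G) (h : G → ℝ) : Dif l (Dif m h) = Dif m (Dif l h) := by
  funext x
  simp only [Dif]
  rw [add_right_comm x l m]
  ring

theorem Killed.zero : ∀ n, Killed n (0 : G → ℝ)
  | 0 => rfl
  | n + 1 => fun l => by
    rw [Dif_zero]
    exact Killed.zero n

theorem Killed.add : ∀ {n : ℕ} {h k : G → ℝ}, Killed n h → Killed n k → Killed n (h + k)
  | 0, h, k, hh, hk => by
    have h1 : h = 0 := hh
    have h2 : k = 0 := hk
    subst h1 h2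
    exact add_zero (0 : G → ℝ)
  | n + 1, h, k, hh, hk => fun l => by
    rw [Dif_add]
    exact Killed.add (hh l) (hk l)

theorem Killed.smul (c : ℝ) : ∀ {n : ℕ} {h : G → ℝ}, Killed n h → Killed n (c • h)
  | 0, h, hh => by
    have h1 : h = 0 := hh
    subst h1
    exact smul_zero c
  | n + 1, h, hh => fun l => by
    rw [Dif_smul]
    exact Killed.smul c (hh l)

theorem Killed.dif : ∀ {n : ℕ} {h : G → ℝ} (l : G), Killed n h → Killed n (Dif l h)
  | 0, h, l, hh => by
    have h1 : h = 0 := hh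
    subst h1
    exact Dif_zero l
  | n + 1, h, l, hh => fun m => by
    rw [Dif_comm]
    exact Killed.dif l (hh m)

theorem Killed.succ : ∀ {n : ℕ} {h : G → ℝ}, Killed n h → Killed (n + 1) h
  | 0, h, hh => fun l => by
    have h1 : h = 0 := hh
    subst h1
    exact Dif_zero l
  | n + 1, h, hh => fun l => Killed.succ (hh l)

theorem Killed.mono {n m : ℕ} (hnm : n ≤ m) {h : G → ℝ} (hh : Killed n h) : Killed m h := by
  induction hnm with
  | refl => exact hh
  | step _ ih => exact ih.succ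

theorem Killed.sub {n : ℕ} {h k : G → ℝ} (hh : Killed n h) (hk : Killed n k) :
    Killed n (h - k) := by
  have : h - k = h + (-1 : ℝ) • k := by
    funext x
    simp [sub_eq_add_neg]
  rw [this]
  exact hh.add (hk.smul _)

def Dbl (h : G → ℝ) : G → ℝ := fun x => h (x + x)

theorem Dif_Dbl (l : G) (h : G → ℝ) :
    Dif l (Dbl h) = (2 : ℝ) • Dbl (Dif l h) + Dbl (Dif l (Dif l h)) := by
  funext x
  simp only [Dif, Dbl, Pi.add_apply, Pi.smul_apply, smul_eq_mul]
  rw [show x + l + (x + l) = x + x + l + l by abel]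
  ring

theorem Killed.dbl : ∀ {n : ℕ} {h : G → ℝ}, Killed n h → Killed n (Dbl h)
  | 0, h, hh => by
    have h1 : h = 0 := hh
    subst h1
    rfl
  | n + 1, h, hh => fun l => by
    rw [Dif_Dbl]
    exact ((Killed.dbl (hh l)).smul 2).add (Killed.dbl ((hh l).dif l))

theorem Killed.dbl_sub : ∀ {n : ℕ} {h : G → ℝ}, Killed (n + 1) h →
    Killed n (Dbl h - (2 : ℝ) ^ n • h)
  | 0, h, hh => by
    have h1 : ∀ l, Dif l h = 0 := hh
    show Dbl h - (2 : ℝ) ^ 0 • h = 0
    funext x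
    have := congrFun (h1 x) x
    simp only [Dif, Pi.zero_apply] at this
    simp [Dbl, this]
  | n + 1, h, hh => fun l => by
    have e : Dif l (Dbl h - (2 : ℝ) ^ (n + 1) • h) =
        (2 : ℝ) • (Dbl (Dif l h) - (2 : ℝ) ^ n • Dif l h) + Dbl (Dif l (Dif l h)) := by
      have h1 : Dif l (Dbl h - (2 : ℝ) ^ (n + 1) • h) =
          Dif l (Dbl h) - (2 : ℝ) ^ (n + 1) • Dif l h := by
        funext x
        simp only [Dif, Pi.sub_apply, Pi.smul_apply, smul_eq_mul]
        ring
      rw [h1, Dif_Dbl, pow_succ]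
      funext x
      simp only [Pi.sub_apply, Pi.add_apply, Pi.smul_apply, smul_eq_mul]
      ring
    rw [e]
    exact ((Killed.dbl_sub (hh l)).smul 2).add (Killed.dbl (hh l l))

end

end Vale.Agent.P058
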