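import Vale.Agent.P058.Defs

set_option autoImplicit false

namespace Vale.Agent.P058.Alg

open scoped TensorProduct

noncomputable def hat {d : ℕ} (a : EuclideanSpace ℝ (Fin d)) : Option (Fin d) → ℝ
  | none => 1
  | some i => a i

noncomputable def ehatS {d : ℕ} : Option (Fin d) → ℝ
  | none => 1
  | some _ => 0

noncomputable def ehatP {d : ℕ} : Option (Fin d) → EuclideanSpace ℝ (Fin d)
  | none => 0
  | some i => EuclideanSpace.single i 1

theorem ev_ehat {d : ℕ} (a : EuclideanSpace ℝ (Fin d)) (x : ℝ) (k : Option (Fin d)) :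
    x * ehatS k + inner ℝ (x • ehatP k) a = x * hat a k := by
  cases k with
  | none => simp [ehatS, ehatP, hat]
  | some i =>
    simp only [ehatS, ehatP, hat, mul_zero, zero_add, inner_smul_left, conj_trivial]
    rw [EuclideanSpace.inner_single_left]
    simp

theorem QSpherical.of_fintype {d : ℕ} {A : Set (EuclideanSpace ℝ (Fin d))} {ι : Type*}
    [Fintype ι] (s t : ι → ℝ) (p q : ι → EuclideanSpace ℝ (Fin d))
    (h0 : ∀ a ∈ A, ∑ i, (s i + inner ℝ (p i) a) ⊗ₜ[ℚ] (t i + inner ℝ (q i) a) =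
      (0 : ℝ ⊗[ℚ] ℝ))
    (h1 : ∀ x y, ∑ i, inner ℝ (p i) x * inner ℝ (q i) y = inner ℝ x y) : QSpherical A := by
  refine ⟨Fintype.card ι, fun i => s ((Fintype.equivFin ι).symm i),
    fun i => t ((Fintype.equivFin ι).symm i), fun i => p ((Fintype.equivFin ι).symm i),
    fun i => q ((Fintype.equivFin ι).symm i), ?_, ?_⟩
  · intro a ha
    rw [← h0 a ha]
    exact Equiv.sum_comp (Fintype.equivFin ι).symm
      (fun i => (s i + inner ℝ (p i) a) ⊗ₜ[ℚ] (t i + inner ℝ (q i) a))
  · intro x y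
    rw [← h1 x y]
    exact Equiv.sum_comp (Fintype.equivFin ι).symm
      (fun i => inner ℝ (p i) x * inner ℝ (q i) y)

theorem inner_eq_sum {d : ℕ} (x y : EuclideanSpace ℝ (Fin d)) :
    inner ℝ x y = ∑ i, x i * y i := by
  rw [PiLp.inner_apply]
  apply Finset.sum_congr rfl
  intro i _
  simp [mul_comm]

theorem qspherical_of_coord {d : ℕ} {A : Set (EuclideanSpace ℝ (Fin d))}
    (T : Option (Fin d) → Option (Fin d) → ℝ ⊗[ℚ] ℝ)
    (h0 : ∀ a ∈ A, ∑ k, ∑ l, (hat a k ⊗ₜ[ℚ] hat a l : ℝ ⊗[ℚ] ℝ) * T k l = 0)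
    (h1 : ∀ i j, Algebra.TensorProduct.lmul' ℚ (T (some i) (some j)) =
      if i = j then (1 : ℝ) else 0) : QSpherical A := by
  classical
  have hS := fun k l => TensorProduct.exists_finset (T k l)
  choose S hS using hS
  apply QSpherical.of_fintype (ι := Σ x : Option (Fin d) × Option (Fin d), {m // m ∈ S x.1 x.2})
    (fun i => i.2.1.1 * ehatS i.1.1) (fun i => i.2.1.2 * ehatS i.1.2)
    (fun i => i.2.1.1 • ehatP i.1.1) (fun i => i.2.1.2 • ehatP i.1.2)
  · intro a ha
    rw [← h0 a ha]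
    simp only [ev_ehat]
    rw [Fintype.sum_sigma, Fintype.sum_prod_type]
    apply Finset.sum_congr rfl
    intro k _
    apply Finset.sum_congr rfl
    intro l _
    simp only
    rw [Finset.sum_coe_sort (S k l)
      (fun m : ℝ × ℝ => (m.1 * hat a k) ⊗ₜ[ℚ] (m.2 * hat a l)), hS k l, Finset.mul_sum]
    apply Finset.sum_congr rfl
    intro m _
    rw [Algebra.TensorProduct.tmul_mul_tmul, mul_comm m.1, mul_comm m.2]
  · intro x y
    have key : ∀ (k : Option (Fin d)) (c : ℝ) (z : EuclideanSpace ℝ (Fin d)),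
        inner ℝ (c • ehatP k) z = c * (hat z k - ehatS k) := by
      intro k c z
      have := ev_ehat z c k
      rw [mul_sub]
      linarith
    simp only [key]
    rw [Fintype.sum_sigma, Fintype.sum_prod_type]
    have h2 : ∀ k l, ∑ m : {m // m ∈ S k l}, m.1.1 * (hat x k - ehatS k) *
        (m.1.2 * (hat y l - ehatS l)) =
        (Algebra.TensorProduct.lmul' ℚ (T k l) : ℝ) *
          ((hat x k - ehatS k) * (hat y l - ehatS l)) := by
      intro k l
      rw [Finset.sum_coe_sort (S k l)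
        (fun m : ℝ × ℝ => m.1 * (hat x k - ehatS k) * (m.2 * (hat y l - ehatS l)))]
      rw [hS k l, map_sum, Finset.sum_mul]
      apply Finset.sum_congr rfl
      intro m _
      rw [Algebra.TensorProduct.lmul'_apply_tmul]
      ring
    simp only [h2]
    rw [Fintype.sum_option]
    simp only [Fintype.sum_option, hat, ehatS, sub_self, zero_mul, mul_zero, sub_zero,
      Finset.sum_const_zero, zero_add, h1]
    rw [inner_eq_sum]
    apply Finset.sum_congr rfl
    intro i _
    simp

end Vale.Agent.P058.Alg
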