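import Mathlib

set_option autoImplicit false

namespace Vale.Agent.P058

open scoped TensorProduct

def IsRamsey {d : ℕ} (A : Set (EuclideanSpace ℝ (Fin d))) : Prop :=
  ∀ r : ℕ, 2 ≤ r → ∃ D : ℕ, 1 ≤ D ∧ ∀ c : EuclideanSpace ℝ (Fin D) → Fin r,
    ∃ f : A → EuclideanSpace ℝ (Fin D), Isometry f ∧ ∃ i : Fin r, ∀ a : A, c (f a) = i

def IsTransitive {n : ℕ} (X : Set (EuclideanSpace ℝ (Fin n))) : Prop :=
  ∀ x ∈ X, ∀ y ∈ X, ∃ g : EuclideanSpace ℝ (Fin n) ≃ᵢ EuclideanSpace ℝ (Fin n),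
    g '' X = X ∧ g x = y

def IsSubtransitive {d : ℕ} (A : Set (EuclideanSpace ℝ (Fin d))) : Prop :=
  ∃ (n : ℕ) (X : Set (EuclideanSpace ℝ (Fin n))), X.Finite ∧ IsTransitive X ∧
    ∃ f : A → EuclideanSpace ℝ (Fin n), Isometry f ∧ ∀ a : A, f a ∈ X

def IsSpherical {d : ℕ} (A : Set (EuclideanSpace ℝ (Fin d))) : Prop :=
  ∃ (z : EuclideanSpace ℝ (Fin d)) (ρ : ℝ), ∀ a ∈ A, dist a z = ρ

def QSpherical {d : ℕ} (A : Set (EuclideanSpace ℝ (Fin d))) : Prop :=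
  ∃ (n : ℕ) (s t : Fin n → ℝ) (p q : Fin n → EuclideanSpace ℝ (Fin d)),
    (∀ a ∈ A, ∑ i, (s i + inner ℝ (p i) a) ⊗ₜ[ℚ] (t i + inner ℝ (q i) a) =
      (0 : ℝ ⊗[ℚ] ℝ)) ∧
    ∀ x y, ∑ i, inner ℝ (p i) x * inner ℝ (q i) y = inner ℝ x y

end Vale.Agent.P058
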