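import Vale.Agent.P058.Ultra

set_option autoImplicit false

namespace Vale.Agent.P058

open Equiv

noncomputable def SD {n : ℕ} {X : Set (EuclideanSpace ℝ (Fin n))} (x₀ : X) (N : ℕ) (u v : FreeMonoid X) : ℝ :=
  ∑ i ∈ Finset.range N, dist ((u.toList.getD i x₀ : X)) (v.toList.getD i x₀ : X) ^ 2

theorem RW.geom {n : ℕ} {X : Set (EuclideanSpace ℝ (Fin n))} (x₀ : X) {K : Set (X → X)}
    (hK : ∀ k ∈ K, ∀ x y : X, dist (k x) (k y) = dist x y) {m : ℕ} {w : X → FreeMonoid X}
    (hw : RW K m w) : ∃ N : ℕ, (∀ x, (w x).toList.length = N) ∧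
      ∀ x y, SD x₀ N (w x) (w y) = m * dist x y ^ 2 := by
  induction hw with
  | const v => exact ⟨v.toList.length, fun _ => rfl, fun x y => by simp [SD]⟩
  | col hk =>
    refine ⟨1, fun _ => rfl, fun x y => ?_⟩
    simp [SD, FreeMonoid.toList_of, hK _ hk x y]
  | @mul m n' u v _ _ ih1 ih2 =>
    obtain ⟨N1, h1, h1'⟩ := ih1
    obtain ⟨N2, h2, h2'⟩ := ih2
    refine ⟨N1 + N2, fun x => by simp [FreeMonoid.toList_mul, h1, h2], fun x y => ?_⟩
    have e1 := h1' x y
    have e2 := h2' x y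
    unfold SD at e1 e2 ⊢
    rw [Finset.sum_range_add]
    push_cast
    rw [add_mul, ← e1, ← e2]
    congr 1
    · apply Finset.sum_congr rfl
      intro i hi
      have hi' := Finset.mem_range.1 hi
      rw [FreeMonoid.toList_mul, FreeMonoid.toList_mul, List.getD_append _ _ _ _ (by rw [h1]; exact hi'),
        List.getD_append _ _ _ _ (by rw [h1]; exact hi')]
    · apply Finset.sum_congr rfl
      intro i hi
      rw [FreeMonoid.toList_mul, FreeMonoid.toList_mul, List.getD_append_right _ _ _ _ (by rw [h1]; omega),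
        List.getD_append_right _ _ _ _ (by rw [h1]; omega), h1, h1, Nat.add_sub_cancel_left]

noncomputable def vec {n : ℕ} {X : Set (EuclideanSpace ℝ (Fin n))} (x₀ : X) (s : ℝ) (N : ℕ)
    (w : FreeMonoid X) : EuclideanSpace ℝ (Option (Fin N × Fin n)) :=
  WithLp.toLp 2 (fun o => o.elim 0 (fun p =>
    s * ((w.toList.getD p.1 x₀ : X) : EuclideanSpace ℝ (Fin n)) p.2))

theorem dist_vec {n : ℕ} {X : Set (EuclideanSpace ℝ (Fin n))} (x₀ : X) (s : ℝ) (N : ℕ)
    (u v : FreeMonoid X) : dist (vec x₀ s N u) (vec x₀ s N v) ^ 2 = s ^ 2 * SD x₀ N u v := by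
  rw [EuclideanSpace.dist_eq, Real.sq_sqrt (Finset.sum_nonneg fun _ _ => sq_nonneg _)]
  rw [Fintype.sum_option, Fintype.sum_prod_type]
  unfold SD
  rw [← Fin.sum_univ_eq_sum_range
    (fun i => dist ((u.toList.getD i x₀ : X)) (v.toList.getD i x₀ : X) ^ 2), Finset.mul_sum]
  simp only [vec, Option.elim, dist_self]
  rw [zero_pow two_ne_zero, zero_add]
  apply Finset.sum_congr rfl
  intro i _
  rw [Subtype.dist_eq, EuclideanSpace.dist_eq,
    Real.sq_sqrt (Finset.sum_nonneg fun _ _ => sq_nonneg _), Finset.mul_sum]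
  apply Finset.sum_congr rfl
  intro j _
  rw [Real.dist_eq, Real.dist_eq, ← mul_sub, abs_mul, mul_pow, sq_abs, sq_abs]

end Vale.Agent.P058
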