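import Mathlib

set_option autoImplicit false

namespace Vale.Agent.P058

open Finset

theorem color_contra {n : ℕ} (hn : 0 < n) (a b : Fin n → ℝ) (ha : ∑ j, a j = 1)
    (hb : ∑ j, b j = 0)
    (h : ∀ j, ((⌊(n : ℝ) * a j⌋ : ℤ) : ZMod (2 * n)) = ((⌊(n : ℝ) * b j⌋ : ℤ) : ZMod (2 * n))) :
    False := by
  have h1 : ∀ j, ∃ z : ℤ, ⌊(n : ℝ) * a j⌋ - ⌊(n : ℝ) * b j⌋ = 2 * n * z := by
    intro j
    have := (ZMod.intCast_eq_intCast_iff_dvd_sub _ _ _).1 (h j).symm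
    obtain ⟨z, hz⟩ := this
    refine ⟨z, ?_⟩
    rw [hz]
    push_cast
    ring
  choose z hz using h1
  have h2 : ∀ j, (n : ℝ) * a j - n * b j =
      2 * n * (z j : ℝ) + (Int.fract ((n : ℝ) * a j) - Int.fract ((n : ℝ) * b j)) := by
    intro j
    have e1 := Int.floor_add_fract ((n : ℝ) * a j)
    have e2 := Int.floor_add_fract ((n : ℝ) * b j)
    have e3 : ((⌊(n : ℝ) * a j⌋ : ℤ) : ℝ) - ((⌊(n : ℝ) * b j⌋ : ℤ) : ℝ) = 2 * n * (z j : ℝ) := by
      exact_mod_cast hz j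
    linarith
  have h3 : (n : ℝ) = 2 * n * (∑ j, (z j : ℝ)) +
      ∑ j, (Int.fract ((n : ℝ) * a j) - Int.fract ((n : ℝ) * b j)) := by
    have e1 : ∑ j, ((n : ℝ) * a j - n * b j) = n := by
      rw [Finset.sum_sub_distrib, ← Finset.mul_sum, ← Finset.mul_sum, ha, hb]
      ring
    have e2 : ∑ j, ((n : ℝ) * a j - n * b j) = 2 * n * (∑ j, (z j : ℝ)) +
        ∑ j, (Int.fract ((n : ℝ) * a j) - Int.fract ((n : ℝ) * b j)) := by
      rw [Finset.sum_congr rfl fun j _ => h2 j, Finset.sum_add_distrib, ← Finset.mul_sum]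
    exact e1.symm.trans e2
  have hn0 : (0 : ℝ) < n := by exact_mod_cast hn
  have : Nonempty (Fin n) := ⟨⟨0, hn⟩⟩
  have h4 : ∑ j : Fin n, (Int.fract ((n : ℝ) * a j) - Int.fract ((n : ℝ) * b j)) <
      ∑ _j : Fin n, (1 : ℝ) := by
    refine Finset.sum_lt_sum_of_nonempty Finset.univ_nonempty fun j _ => ?_
    have e1 := Int.fract_lt_one ((n : ℝ) * a j)
    have e2 := Int.fract_nonneg ((n : ℝ) * b j)
    linarith
  have h5 : ∑ _j : Fin n, (-1 : ℝ) <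
      ∑ j : Fin n, (Int.fract ((n : ℝ) * a j) - Int.fract ((n : ℝ) * b j)) := by
    refine Finset.sum_lt_sum_of_nonempty Finset.univ_nonempty fun j _ => ?_
    have e1 := Int.fract_lt_one ((n : ℝ) * b j)
    have e2 := Int.fract_nonneg ((n : ℝ) * a j)
    linarith
  simp only [Finset.sum_const, Finset.card_univ, Fintype.card_fin, nsmul_eq_mul, mul_one,
    mul_neg] at h4 h5
  have h6 : (∑ j, (z j : ℝ)) = ((∑ j, z j : ℤ) : ℝ) := by push_cast; rfl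
  rw [h6] at h3
  set Z : ℤ := ∑ j, z j with hZ
  rcases le_or_gt Z 0 with hZ0 | hZ0
  · have : (Z : ℝ) ≤ 0 := by exact_mod_cast hZ0
    nlinarith
  · have : (1 : ℝ) ≤ (Z : ℝ) := by exact_mod_cast hZ0
    nlinarith

end Vale.Agent.P058
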