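import Mathlib

set_option autoImplicit false

namespace Vale.Agent.P058

open KaehlerDifferential

theorem exists_der_of_basis {ι : Type} {x : ι → ℝ} (hx : IsTranscendenceBasis ℚ x) :
    ∃ δ : Derivation ℚ ℝ ℝ, ∀ i, δ (x i) = 1 := by
  let : Algebra (MvPolynomial ι ℚ) ℝ := (MvPolynomial.aeval x).toRingHom.toAlgebra
  have hmap : ∀ p : MvPolynomial ι ℚ, algebraMap (MvPolynomial ι ℚ) ℝ p =
      MvPolynomial.aeval x p := fun p => rfl
  have : IsScalarTower ℚ (MvPolynomial ι ℚ) ℝ :=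
    IsScalarTower.of_algebraMap_eq fun r => by
      rw [hmap, AlgHom.commutes]
  have : FaithfulSMul (MvPolynomial ι ℚ) ℝ :=
    (faithfulSMul_iff_algebraMap_injective _ _).2 hx.1
  let : Algebra (FractionRing (MvPolynomial ι ℚ)) ℝ := FractionRing.liftAlgebra _ _
  have : Algebra.FormallyEtale (MvPolynomial ι ℚ) (FractionRing (MvPolynomial ι ℚ)) :=
    Algebra.FormallyEtale.of_isLocalization (nonZeroDivisors _)
  have hAlg : Algebra.IsAlgebraic (MvPolynomial ι ℚ) ℝ := by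
    have h1 := hx.isAlgebraic
    refine Algebra.IsAlgebraic.of_ringHom_of_comp_eq
      (S := Algebra.adjoin ℚ (Set.range x)) (B := ℝ) hx.1.aevalEquiv (RingHom.id ℝ)
      hx.1.aevalEquiv.surjective (fun a b h => h) ?_
    refine RingHom.ext fun p => ?_
    exact hx.1.algebraMap_aevalEquiv p
  have : Algebra.IsAlgebraic (FractionRing (MvPolynomial ι ℚ)) ℝ :=
    IsFractionRing.comap_isAlgebraic_iff.1 hAlg
  have : Algebra.FormallyEtale (FractionRing (MvPolynomial ι ℚ)) ℝ :=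
    Algebra.FormallyEtale.of_isSeparable _ _
  have : Algebra.FormallyEtale (MvPolynomial ι ℚ) ℝ :=
    Algebra.FormallyEtale.comp _ (FractionRing (MvPolynomial ι ℚ)) _
  have hb := KaehlerDifferential.isBaseChange_of_formallyEtale ℚ (MvPolynomial ι ℚ) ℝ
  let d : Derivation ℚ (MvPolynomial ι ℚ) ℝ := MvPolynomial.mkDerivation ℚ (fun _ => (1 : ℝ))
  let g : Ω[MvPolynomial ι ℚ⁄ℚ] →ₗ[MvPolynomial ι ℚ] ℝ := d.liftKaehlerDifferential
  let G : Ω[ℝ⁄ℚ] →ₗ[ℝ] ℝ := hb.lift g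
  refine ⟨G.compDer (KaehlerDifferential.D ℚ ℝ), fun i => ?_⟩
  have h1 : x i = algebraMap (MvPolynomial ι ℚ) ℝ (MvPolynomial.X i) := by
    rw [hmap, MvPolynomial.aeval_X]
  change G (KaehlerDifferential.D ℚ ℝ (x i)) = 1
  rw [h1, ← KaehlerDifferential.map_D ℚ ℚ]
  have h2 := hb.lift_eq g (KaehlerDifferential.D ℚ (MvPolynomial ι ℚ) (MvPolynomial.X i))
  refine h2.trans ?_
  change d.liftKaehlerDifferential _ = 1
  rw [Derivation.liftKaehlerDifferential_comp_D]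
  exact MvPolynomial.mkDerivation_X ℚ _ i

theorem exists_der : ∃ (δ : Derivation ℚ ℝ ℝ) (t : ℝ), |t| < 1 ∧ δ t ≠ 0 := by
  obtain ⟨ι, x, hx⟩ := exists_isTranscendenceBasis' ℚ ℝ
  have hne : Nonempty ι := by
    rw [hx.nonempty_iff_transcendental]
    have h1 : Transcendental ℤ (liouvilleNumber (2 : ℕ)) := transcendental_liouvilleNumber le_rfl
    have h2 : Transcendental ℚ (liouvilleNumber (2 : ℕ)) := by
      intro h
      exact h1 ((IsFractionRing.isAlgebraic_iff ℤ ℚ ℝ).2 h)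
    exact ⟨⟨_, h2⟩⟩
  obtain ⟨i⟩ := hne
  obtain ⟨δ, hδ⟩ := exists_der_of_basis hx
  obtain ⟨m, hm⟩ := exists_nat_gt |x i|
  have hm0 : (0 : ℝ) < m := lt_of_le_of_lt (abs_nonneg _) hm
  refine ⟨δ, (1 / (m : ℚ) : ℚ) • x i, ?_, ?_⟩
  · rw [Rat.smul_def]
    push_cast
    rw [abs_mul, abs_of_pos (by positivity), one_div, inv_mul_lt_iff₀ hm0]
    linarith
  · rw [Derivation.map_smul, hδ, Rat.smul_def]
    push_cast
    positivity

end Vale.Agent.P058
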