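import Vale.Agent.P058.GrahamIso

set_option autoImplicit false

namespace Vale.Agent.P058

open Finset

theorem der_mul (δ : Derivation ℚ ℝ ℝ) (a b : ℝ) : δ (a * b) = a * δ b + b * δ a := by
  rw [Derivation.leibniz, smul_eq_mul, smul_eq_mul]

theorem der_rcs (δ : Derivation ℚ ℝ ℝ) {t s ω : ℝ} (ht : δ t = -(s * ω)) (hs : δ s = t * ω)
    (j : ℕ) : δ (rc t s j) = -(j * rs t s j * ω) ∧ δ (rs t s j) = j * rc t s j * ω := by
  induction j with
  | zero =>
    rw [rc_zero, rs_zero, Derivation.map_one_eq_zero, map_zero]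
    simp
  | succ j ih =>
    rw [rc_succ, rs_succ, map_sub, map_add, der_mul, der_mul, der_mul, der_mul, ih.1, ih.2, ht, hs]
    push_cast
    constructor <;> ring

theorem der_s (δ : Derivation ℚ ℝ ℝ) {t s : ℝ} (h : t ^ 2 + s ^ 2 = 1) (hs : 0 < s) :
    ∃ ω : ℝ, δ t = -(s * ω) ∧ δ s = t * ω := by
  refine ⟨-(δ t / s), by field_simp, ?_⟩
  have h1 : δ (t * t + s * s) = 0 := by
    have : t * t + s * s = 1 := by rw [← h]; ring
    rw [this, Derivation.map_one_eq_zero]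
  rw [map_add, der_mul, der_mul] at h1
  have h2 : s * δ s = -(t * δ t) := by linarith
  field_simp
  linarith

theorem psi_formula {D : ℕ} (δ : Derivation ℚ ℝ ℝ) {t s ω : ℝ}
    (ht : δ t = -(s * ω)) (hs : δ s = t * ω) (u p q : Fin D → ℝ)
    (hpp : ∑ i, p i * p i = 1) (hqq : ∑ i, q i * q i = 1) (hpq : ∑ i, p i * q i = 0)
    (h : t ^ 2 + s ^ 2 = 1) :
    ∃ A B C D' E E' K L : ℝ, ∀ j : ℕ,
      ∑ i, (δ (u i + rc t s j * p i + rs t s j * q i)) ^ 2 =
      A + B * j + C * rc t s j + D' * rs t s j + E * (j * rc t s j) +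
      E' * (j * rs t s j) + K * (rc t s j ^ 2 - rs t s j ^ 2) + L * (2 * rc t s j * rs t s j) +
      ω ^ 2 * (j : ℝ) ^ 2 := by
  have hpP : ∑ i, p i * δ (p i) = 0 := by
    have h1 : δ (∑ i, p i * p i) = 0 := by rw [hpp, Derivation.map_one_eq_zero]
    rw [map_sum] at h1
    have h2 : ∑ i, δ (p i * p i) = 2 * ∑ i, p i * δ (p i) := by
      rw [Finset.mul_sum]
      exact Finset.sum_congr rfl fun i _ => by rw [der_mul]; ring
    linarith
  have hqQ : ∑ i, q i * δ (q i) = 0 := by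
    have h1 : δ (∑ i, q i * q i) = 0 := by rw [hqq, Derivation.map_one_eq_zero]
    rw [map_sum] at h1
    have h2 : ∑ i, δ (q i * q i) = 2 * ∑ i, q i * δ (q i) := by
      rw [Finset.mul_sum]
      exact Finset.sum_congr rfl fun i _ => by rw [der_mul]; ring
    linarith
  have hpQ : ∑ i, p i * δ (q i) = -∑ i, q i * δ (p i) := by
    have h1 : δ (∑ i, p i * q i) = 0 := by rw [hpq, map_zero]
    rw [map_sum] at h1
    have h2 : ∑ i, δ (p i * q i) = ∑ i, p i * δ (q i) + ∑ i, q i * δ (p i) := by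
      rw [← Finset.sum_add_distrib]
      exact Finset.sum_congr rfl fun i _ => by rw [der_mul]
    linarith
  set UU := ∑ i, δ (u i) ^ 2 with hUU
  set PP := ∑ i, δ (p i) ^ 2 with hPP
  set QQ := ∑ i, δ (q i) ^ 2 with hQQ
  set UP := ∑ i, δ (u i) * δ (p i) with hUP
  set UQ := ∑ i, δ (u i) * δ (q i) with hUQ
  set PQ := ∑ i, δ (p i) * δ (q i) with hPQ
  set pU := ∑ i, p i * δ (u i) with hpU
  set qU := ∑ i, q i * δ (u i) with hqU
  set qP := ∑ i, q i * δ (p i) with hqP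
  refine ⟨UU + PP / 2 + QQ / 2, 2 * ω * qP, 2 * UP, 2 * UQ, 2 * ω * qU, -(2 * ω * pU),
    (PP - QQ) / 2, PQ, fun j => ?_⟩
  have hder := der_rcs δ ht hs j
  have hcs := rcs_sq h j
  set c := rc t s j with hc
  set z := rs t s j with hz
  have e1 : ∀ i, (δ (u i + c * p i + z * q i)) ^ 2 =
      δ (u i) ^ 2 + c ^ 2 * δ (p i) ^ 2 + z ^ 2 * δ (q i) ^ 2 + (2 * c) * (δ (u i) * δ (p i)) +
      (2 * z) * (δ (u i) * δ (q i)) + (2 * c * z) * (δ (p i) * δ (q i)) +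
      ((j : ℝ) * z * ω) ^ 2 * (p i * p i) + ((j : ℝ) * c * ω) ^ 2 * (q i * q i) -
      (2 * (j : ℝ) ^ 2 * ω ^ 2 * c * z) * (p i * q i) -
      (2 * j * z * ω) * (p i * δ (u i)) + (2 * j * c * ω) * (q i * δ (u i)) -
      (2 * j * z * ω * c) * (p i * δ (p i)) + (2 * j * c * ω * c) * (q i * δ (p i)) -
      (2 * j * z * ω * z) * (p i * δ (q i)) + (2 * j * c * ω * z) * (q i * δ (q i)) := by
    intro i
    rw [map_add, map_add, der_mul, der_mul, hder.1, hder.2]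
    ring
  rw [Finset.sum_congr rfl fun i _ => e1 i]
  simp only [Finset.sum_add_distrib, Finset.sum_sub_distrib, ← Finset.mul_sum]
  rw [← hUU, ← hPP, ← hQQ, ← hUP, ← hUQ, ← hPQ, ← hpU, ← hqU, ← hqP, hpP, hqQ, hpQ, hpp, hqq, hpq]
  linear_combination (PP / 2 + QQ / 2 + (j : ℝ) ^ 2 * ω ^ 2 + 2 * ω * qP * j) * hcs

end Vale.Agent.P058
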