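import Vale.Agent.P058.Defs
import Vale.Agent.P058.GrahamDer
import Vale.Agent.P058.GrahamCol
import Vale.Agent.P058.GrahamPsi

set_option autoImplicit false

namespace Vale.Agent.P058

open Finset

theorem exists_spherical_not_ramsey : ∃ A : Set (EuclideanSpace ℝ (Fin 2)),
    A.Finite ∧ A.Nonempty ∧ IsSpherical A ∧ ¬ IsRamsey A := by
  obtain ⟨δ, t, ht1, hδt⟩ := exists_der
  have ht2 : t ^ 2 < 1 := (sq_lt_one_iff_abs_lt_one t).2 ht1
  obtain ⟨s, hs0, hts⟩ : ∃ s : ℝ, 0 < s ∧ t ^ 2 + s ^ 2 = 1 :=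
    ⟨Real.sqrt (1 - t ^ 2), Real.sqrt_pos.2 (by linarith), by
      rw [Real.sq_sqrt (by linarith)]; ring⟩
  obtain ⟨ω, hω1, hω2⟩ := der_s δ hts hs0
  have hω0 : ω ≠ 0 := by
    intro h0
    apply hδt
    rw [hω1, h0]
    ring
  have ht3 : t < 1 := (abs_lt.1 ht1).2
  obtain ⟨τ, hτ⟩ : ∃ τ : ℝ, τ = ω ^ 2 * (32 * (1 - t) ^ 2 * (1 - t ^ 2)) := ⟨_, rfl⟩
  have hτ0 : τ ≠ 0 := by
    rw [hτ]
    have h1 : (1 - t) ≠ 0 := by linarith
    have h2 : (1 - t ^ 2) ≠ 0 := by linarith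
    positivity
  refine ⟨Set.range (fun j : Fin 9 => xpt t s j), Set.finite_range _, Set.range_nonempty _, ?_, ?_⟩
  · refine ⟨0, 1, ?_⟩
    rintro _ ⟨j, rfl⟩
    have h1 := rcs_sq hts j
    have h2 : ‖xpt t s j‖ ^ 2 = 1 := by
      rw [← real_inner_self_eq_norm_sq, xpt, inner_two]
      linarith
    simp only
    rw [dist_zero_right]
    exact (pow_eq_one_iff_of_nonneg (norm_nonneg _) two_ne_zero).1 h2
  · intro hR
    have hcard : 2 ≤ Fintype.card (Fin 9 → ZMod (2 * 9)) := by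
      rw [Fintype.card_fun, ZMod.card, Fintype.card_fin]
      norm_num
    obtain ⟨D, _, hD⟩ := hR (Fintype.card (Fin 9 → ZMod (2 * 9))) hcard
    obtain ⟨f, hf, i₀, hi₀⟩ := hD (fun x => Fintype.equivFin (Fin 9 → ZMod (2 * 9))
      (fun j => ((⌊((9 : ℕ) : ℝ) * (gam t j * (∑ i, (δ (x i)) ^ 2) / τ)⌋ : ℤ) : ZMod (2 * 9))))
    obtain ⟨y, hy⟩ : ∃ y : Fin 9 → EuclideanSpace ℝ (Fin D),
      y = fun j : Fin 9 => f ⟨xpt t s j, ⟨j, rfl⟩⟩ := ⟨_, rfl⟩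
    have hydist : ∀ i j : Fin 9, dist (xpt t s i) (xpt t s j) = dist (y i) (y j) := by
      intro i j
      rw [hy]
      exact (hf.dist_eq ⟨xpt t s i, ⟨i, rfl⟩⟩ ⟨xpt t s j, ⟨j, rfl⟩⟩).symm
    have hyc : ∀ l j : Fin 9,
        ((⌊((9 : ℕ) : ℝ) * (gam t j * (∑ i, (δ (y l i)) ^ 2) / τ)⌋ : ℤ) : ZMod (2 * 9)) =
        ((⌊((9 : ℕ) : ℝ) * (gam t j * (∑ i, (δ (y 0 i)) ^ 2) / τ)⌋ : ℤ) : ZMod (2 * 9)) := by
      intro l j
      have h1 := (hi₀ ⟨xpt t s l, ⟨l, rfl⟩⟩).trans (hi₀ ⟨xpt t s (0 : Fin 9), ⟨0, rfl⟩⟩).symm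
      have h2 := (Fintype.equivFin (Fin 9 → ZMod (2 * 9))).injective h1
      have h3 := congrFun h2 j
      rw [hy]
      exact h3
    obtain ⟨u, p, q, hpp, hqq, hpq, hrep⟩ := xpt_rep hts hs0 y hydist
    rw [PiLp.inner_apply] at hpp hqq hpq
    obtain ⟨A, B, C, D', E, E', K, L, hF⟩ := psi_formula δ hω1 hω2 (fun i => u i) (fun i => p i)
      (fun i => q i) (by simpa [sq] using hpp) (by simpa [sq] using hqq)
      (by rw [← hpq]; exact Finset.sum_congr rfl fun i _ => by simp [mul_comm]) hts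
    have hyF : ∀ l : Fin 9, ∑ i, (δ (y l i)) ^ 2 = A + B * (l : ℕ) + C * rc t s l +
        D' * rs t s l + E * ((l : ℕ) * rc t s l) +
      E' * ((l : ℕ) * rs t s l) + K * (rc t s l ^ 2 - rs t s l ^ 2) +
      L * (2 * rc t s l * rs t s l) + ω ^ 2 * ((l : ℕ) : ℝ) ^ 2 := by
      intro l
      rw [← hF l, hrep l]
      rfl
    obtain ⟨F, hFd⟩ : ∃ F : ℕ → ℝ, F = fun j => if h : j < 9 then
      ∑ i, (δ (y ⟨j, h⟩ i)) ^ 2 else 0 := ⟨_, rfl⟩
    have hFl : ∀ l : Fin 9, F l = ∑ i, (δ (y l i)) ^ 2 := by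
      intro l
      rw [hFd]
      simp only
      rw [dif_pos l.2]
    have hmain := gam_main hts F A B C D' E E' K L (ω ^ 2) (by
      intro j hj
      have h1 := hFl ⟨j, hj⟩
      rw [hyF ⟨j, hj⟩] at h1
      exact h1)
    rw [← hτ] at hmain
    refine color_contra (n := 9) (by norm_num)
      (fun j => gam t j * (∑ i, (δ (y j i)) ^ 2) / τ)
      (fun j => gam t j * (∑ i, (δ (y 0 i)) ^ 2) / τ) ?_ ?_ (fun j => hyc j j)
    · rw [← Finset.sum_div]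
      have h1 : ∑ j : Fin 9, gam t j * (∑ i, (δ (y j i)) ^ 2) = τ := by
        rw [← hmain, ← Fin.sum_univ_eq_sum_range (fun j => gam t j * F j) 9]
        exact Finset.sum_congr rfl fun j _ => by rw [hFl j]
      rw [h1, div_self hτ0]
    · rw [← Finset.sum_div]
      have h1 : ∑ j : Fin 9, gam t j * (∑ i, (δ (y 0 i)) ^ 2) = 0 := by
        have h2 := gam_one t
        rw [← Fin.sum_univ_eq_sum_range (fun j => gam t j * 1) 9] at h2
        simp only [mul_one] at h2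
        rw [← Finset.sum_mul, h2, zero_mul]
      rw [h1, zero_div]

end Vale.Agent.P058
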