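import Vale.Agent.P058.GrahamSeq

set_option autoImplicit false

namespace Vale.Agent.P058

open Finset

section comb

variable {n : ℕ} {E F : Type*} [NormedAddCommGroup E] [InnerProductSpace ℝ E]
  [NormedAddCommGroup F] [InnerProductSpace ℝ F]

theorem inner_comb (x : Fin n → E) (y : Fin n → F) (h : ∀ i j, dist (x i) (x j) = dist (y i) (y j))
    (w w' : Fin n → ℝ) (hw : ∑ i, w i = 0) (hw' : ∑ i, w' i = 0) :
    inner ℝ (Fintype.linearCombination ℝ x w) (Fintype.linearCombination ℝ x w') =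
      inner ℝ (Fintype.linearCombination ℝ y w) (Fintype.linearCombination ℝ y w') := by
  rw [Fintype.linearCombination_apply, Fintype.linearCombination_apply,
    Fintype.linearCombination_apply, Fintype.linearCombination_apply,
    inner_sum_smul_sum_smul_of_sum_eq_zero x hw x hw',
    inner_sum_smul_sum_smul_of_sum_eq_zero y hw y hw']
  congr 2
  refine Finset.sum_congr rfl fun i _ => Finset.sum_congr rfl fun j _ => ?_
  rw [← dist_eq_norm, ← dist_eq_norm, h i j]

theorem lc_sum (w : Fin n → ℝ) :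
    Fintype.linearCombination ℝ (fun _ : Fin n => (1 : ℝ)) w = ∑ i, w i := by
  rw [Fintype.linearCombination_apply]
  simp

theorem lc_single (x : Fin n → E) (k : Fin n) :
    Fintype.linearCombination ℝ x (Pi.single k 1) = x k := by
  rw [Fintype.linearCombination_apply_single, one_smul]

end comb

noncomputable def xpt (t s : ℝ) (j : ℕ) : EuclideanSpace ℝ (Fin 2) :=
  !₂[rc t s j, rs t s j]

theorem weights (t s : ℝ) (h : t ^ 2 + s ^ 2 = 1) (ht : t < 1) (hs : 0 < s) :
    ∃ wu wp wq : Fin 9 → ℝ,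
      (∑ i, wu i = 1) ∧ (∑ i, wp i = 0) ∧ (∑ i, wq i = 0) ∧
      Fintype.linearCombination ℝ (fun j : Fin 9 => xpt t s j) wu = 0 ∧
      Fintype.linearCombination ℝ (fun j : Fin 9 => xpt t s j) wp = !₂[(1 : ℝ), 0] ∧
      Fintype.linearCombination ℝ (fun j : Fin 9 => xpt t s j) wq = !₂[(0 : ℝ), 1] := by
  have ht' : 2 - 2 * t ≠ 0 := by linarith
  obtain ⟨wu, hwu⟩ : ∃ wu : Fin 9 → ℝ, wu = (2 - 2 * t)⁻¹ •
    (Pi.single 0 1 + Pi.single 2 1 - (2 * t) • Pi.single 1 1) := ⟨_, rfl⟩
  obtain ⟨wp, hwp⟩ : ∃ wp : Fin 9 → ℝ, wp = Pi.single 0 1 - wu := ⟨_, rfl⟩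
  obtain ⟨wq, hwq⟩ : ∃ wq : Fin 9 → ℝ, wq = s⁻¹ • (Pi.single 1 1 - wu - t • wp) := ⟨_, rfl⟩
  have s1 : ∀ k : Fin 9, Fintype.linearCombination ℝ (fun _ : Fin 9 => (1 : ℝ))
    (Pi.single k 1) = 1 := fun k => lc_single _ k
  have x1 : ∀ k : Fin 9, Fintype.linearCombination ℝ (fun j : Fin 9 => xpt t s j)
    (Pi.single k 1) = xpt t s k := fun k => lc_single _ k
  have su : Fintype.linearCombination ℝ (fun _ : Fin 9 => (1 : ℝ)) wu = 1 := by
    rw [hwu, map_smul, map_sub, map_add, map_smul, s1, s1, s1, smul_eq_mul, smul_eq_mul]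
    have : (1 : ℝ) + 1 - 2 * t * 1 = 2 - 2 * t := by ring
    rw [this, inv_mul_cancel₀ ht']
  have sp : Fintype.linearCombination ℝ (fun _ : Fin 9 => (1 : ℝ)) wp = 0 := by
    rw [hwp, map_sub, s1, su, sub_self]
  have sq' : Fintype.linearCombination ℝ (fun _ : Fin 9 => (1 : ℝ)) wq = 0 := by
    rw [hwq, map_smul, map_sub, map_sub, map_smul, s1, su, sp, smul_zero, sub_self, sub_zero,
      smul_zero]
  have xu : Fintype.linearCombination ℝ (fun j : Fin 9 => xpt t s j) wu = 0 := by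
    rw [hwu, map_smul, map_sub, map_add, map_smul, x1, x1, x1]
    have h1 := rc_rec h 0
    have h2 := rs_rec h 0
    rw [zero_add] at h1 h2
    have : xpt t s ((0 : Fin 9) : ℕ) + xpt t s ((2 : Fin 9) : ℕ) -
        (2 * t) • xpt t s ((1 : Fin 9) : ℕ) = 0 := by
      have e2 : ((2 : Fin 9) : ℕ) = 2 := rfl
      have e1 : ((1 : Fin 9) : ℕ) = 1 := rfl
      have e0 : ((0 : Fin 9) : ℕ) = 0 := rfl
      rw [e0, e1, e2]
      ext i
      fin_cases i
      · change rc t s 0 + rc t s 2 - 2 * t * rc t s 1 = 0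
        rw [h1]; ring
      · change rs t s 0 + rs t s 2 - 2 * t * rs t s 1 = 0
        rw [h2]; ring
    rw [this, smul_zero]
  have xp : Fintype.linearCombination ℝ (fun j : Fin 9 => xpt t s j) wp = !₂[(1 : ℝ), 0] := by
    rw [hwp, map_sub, x1, xu, sub_zero]
    rfl
  have xq : Fintype.linearCombination ℝ (fun j : Fin 9 => xpt t s j) wq = !₂[(0 : ℝ), 1] := by
    rw [hwq, map_smul, map_sub, map_sub, map_smul, x1, xu, xp, sub_zero]
    ext i
    fin_cases i
    · change s⁻¹ * (rc t s 1 - t * 1) = 0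
      rw [rc_one]; ring
    · change s⁻¹ * (rs t s 1 - t * 0) = 1
      rw [rs_one, mul_zero, sub_zero, inv_mul_cancel₀ hs.ne']
  exact ⟨wu, wp, wq, by rw [← lc_sum]; exact su, by rw [← lc_sum]; exact sp,
    by rw [← lc_sum]; exact sq', xu, xp, xq⟩

theorem inner_two (a b c d : ℝ) : inner ℝ (!₂[a, b] : EuclideanSpace ℝ (Fin 2)) !₂[c, d] =
    a * c + b * d := by
  rw [PiLp.inner_apply, Fin.sum_univ_two]
  simp [mul_comm]

theorem xpt_rep {D : ℕ} {t s : ℝ} (h : t ^ 2 + s ^ 2 = 1) (hs : 0 < s)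
    (y : Fin 9 → EuclideanSpace ℝ (Fin D))
    (hy : ∀ i j : Fin 9, dist (xpt t s i) (xpt t s j) = dist (y i) (y j)) :
    ∃ u p q : EuclideanSpace ℝ (Fin D), inner ℝ p p = (1 : ℝ) ∧ inner ℝ q q = (1 : ℝ) ∧
      inner ℝ p q = (0 : ℝ) ∧ ∀ j : Fin 9, y j = u + rc t s j • p + rs t s j • q := by
  have ht : t < 1 := by nlinarith
  obtain ⟨wu, wp, wq, su, sp, sq', xu, xp, xq⟩ := weights t s h ht hs
  refine ⟨Fintype.linearCombination ℝ y wu, Fintype.linearCombination ℝ y wp,
    Fintype.linearCombination ℝ y wq, ?_, ?_, ?_, ?_⟩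
  · rw [← inner_comb (fun j : Fin 9 => xpt t s j) y hy wp wp sp sp, xp, inner_two]
    norm_num
  · rw [← inner_comb (fun j : Fin 9 => xpt t s j) y hy wq wq sq' sq', xq, inner_two]
    norm_num
  · rw [← inner_comb (fun j : Fin 9 => xpt t s j) y hy wp wq sp sq', xp, xq, inner_two]
    norm_num
  · intro j
    obtain ⟨w, hw⟩ : ∃ w : Fin 9 → ℝ, w = Pi.single j 1 - wu - rc t s j • wp - rs t s j • wq :=
      ⟨_, rfl⟩
    have sw : ∑ i, w i = 0 := by
      rw [← lc_sum, hw, map_sub, map_sub, map_sub, map_smul, map_smul, lc_single, lc_sum, lc_sum,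
        lc_sum, su, sp, sq']
      simp
    have xw : Fintype.linearCombination ℝ (fun j : Fin 9 => xpt t s j) w = 0 := by
      rw [hw, map_sub, map_sub, map_sub, map_smul, map_smul, lc_single, xu, xp, xq]
      ext i
      fin_cases i
      · change rc t s j - 0 - rc t s j * 1 - rs t s j * 0 = 0
        ring
      · change rs t s j - 0 - rc t s j * 0 - rs t s j * 1 = 0
        ring
    have h1 := inner_comb (fun j : Fin 9 => xpt t s j) y hy w w sw sw
    rw [xw, inner_zero_left] at h1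
    have h3 := inner_self_eq_zero.1 h1.symm
    rw [hw, map_sub, map_sub, map_sub, map_smul, map_smul, lc_single] at h3
    have h4 : y j = (y j - Fintype.linearCombination ℝ y wu -
        rc t s j • Fintype.linearCombination ℝ y wp -
        rs t s j • Fintype.linearCombination ℝ y wq) +
      (Fintype.linearCombination ℝ y wu + rc t s j • Fintype.linearCombination ℝ y wp +
        rs t s j • Fintype.linearCombination ℝ y wq) := by abel
    rw [h3, zero_add] at h4
    exact h4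

end Vale.Agent.P058
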