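import Mathlib

set_option autoImplicit false

namespace Vale.Agent.P058

open Finset

def rotSeq (t s : ℝ) : ℕ → ℝ × ℝ
  | 0 => (1, 0)
  | j + 1 => (t * (rotSeq t s j).1 - s * (rotSeq t s j).2,
      s * (rotSeq t s j).1 + t * (rotSeq t s j).2)

def rc (t s : ℝ) (j : ℕ) : ℝ := (rotSeq t s j).1

def rs (t s : ℝ) (j : ℕ) : ℝ := (rotSeq t s j).2

theorem rc_zero (t s : ℝ) : rc t s 0 = 1 := rfl

theorem rs_zero (t s : ℝ) : rs t s 0 = 0 := rfl

theorem rc_succ (t s : ℝ) (j : ℕ) : rc t s (j + 1) = t * rc t s j - s * rs t s j := rfl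

theorem rs_succ (t s : ℝ) (j : ℕ) : rs t s (j + 1) = s * rc t s j + t * rs t s j := rfl

theorem rc_one (t s : ℝ) : rc t s 1 = t := by
  rw [rc_succ, rc_zero, rs_zero]; ring

theorem rs_one (t s : ℝ) : rs t s 1 = s := by
  rw [rs_succ, rc_zero, rs_zero]; ring

variable {t s : ℝ}

theorem rcs_sq (h : t ^ 2 + s ^ 2 = 1) (j : ℕ) : rc t s j ^ 2 + rs t s j ^ 2 = 1 := by
  induction j with
  | zero => rw [rc_zero, rs_zero]; ring
  | succ j ih =>
    rw [rc_succ, rs_succ]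
    linear_combination (t ^ 2 + s ^ 2) * ih + h

theorem rc_rec (h : t ^ 2 + s ^ 2 = 1) (j : ℕ) :
    rc t s (j + 2) = 2 * t * rc t s (j + 1) - rc t s j := by
  rw [rc_succ t s (j + 1), rc_succ, rs_succ]
  linear_combination (-rc t s j) * h

theorem rs_rec (h : t ^ 2 + s ^ 2 = 1) (j : ℕ) :
    rs t s (j + 2) = 2 * t * rs t s (j + 1) - rs t s j := by
  rw [rs_succ t s (j + 1), rc_succ, rs_succ]
  linear_combination (-rs t s j) * h

theorem rc_dbl (h : t ^ 2 + s ^ 2 = 1) (j : ℕ) :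
    rc (2 * t ^ 2 - 1) (2 * s * t) j = rc t s j ^ 2 - rs t s j ^ 2 ∧
      rs (2 * t ^ 2 - 1) (2 * s * t) j = 2 * rc t s j * rs t s j := by
  induction j with
  | zero => simp only [rc_zero, rs_zero]; norm_num
  | succ j ih =>
    rw [rc_succ (2 * t ^ 2 - 1) (2 * s * t) j, rs_succ (2 * t ^ 2 - 1) (2 * s * t) j, ih.1, ih.2,
      rc_succ t s j, rs_succ t s j]
    constructor
    · linear_combination (rc t s j ^ 2 - rs t s j ^ 2) * h
    · linear_combination (2 * rc t s j * rs t s j) * h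

theorem dbl_sq (h : t ^ 2 + s ^ 2 = 1) : (2 * t ^ 2 - 1) ^ 2 + (2 * s * t) ^ 2 = 1 := by
  linear_combination (4 * t ^ 2) * h

def Lop (a : ℝ) (f : ℕ → ℝ) : ℕ → ℝ := fun j => f (j + 2) - 2 * a * f (j + 1) + f j

theorem Lop_comm (a b : ℝ) (f : ℕ → ℝ) : Lop a (Lop b f) = Lop b (Lop a f) := by
  funext j
  simp only [Lop]
  ring

theorem Lop_zero (a : ℝ) : Lop a (fun _ => 0) = fun _ => 0 := by
  funext j
  simp [Lop]

def gam (t : ℝ) : ℕ → ℝ
  | 0 => 1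
  | 1 => -(4 * t + 4 * t ^ 2)
  | 2 => (4 * t ^ 2 + 2) + (4 * t) * (4 * t ^ 2) + (8 * t ^ 2 - 2)
  | 3 => -(4 * t + 4 * t ^ 2 + (4 * t) * (8 * t ^ 2 - 2) + (4 * t ^ 2 + 2) * (4 * t ^ 2))
  | 4 => 2 + 2 * (4 * t) * (4 * t ^ 2) + (4 * t ^ 2 + 2) * (8 * t ^ 2 - 2)
  | 5 => -(4 * t + 4 * t ^ 2 + (4 * t) * (8 * t ^ 2 - 2) + (4 * t ^ 2 + 2) * (4 * t ^ 2))
  | 6 => (4 * t ^ 2 + 2) + (4 * t) * (4 * t ^ 2) + (8 * t ^ 2 - 2)
  | 7 => -(4 * t + 4 * t ^ 2)
  | 8 => 1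
  | _ => 0

theorem gam_sum (t : ℝ) (f : ℕ → ℝ) :
    ∑ j ∈ range 9, gam t j * f j = Lop 1 (Lop t (Lop t (Lop (2 * t ^ 2 - 1) f))) 0 := by
  simp only [Finset.sum_range_succ, Finset.sum_range_zero, gam, Lop]
  ring

theorem gam_one (t : ℝ) : ∑ j ∈ range 9, gam t j * 1 = 0 := by
  simp only [Finset.sum_range_succ, Finset.sum_range_zero, gam]
  ring

theorem gam_id (t : ℝ) : ∑ j ∈ range 9, gam t j * (j : ℝ) = 0 := by
  simp only [Finset.sum_range_succ, Finset.sum_range_zero, gam]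
  push_cast
  ring

theorem gam_sq (t : ℝ) : ∑ j ∈ range 9, gam t j * (j : ℝ) ^ 2 =
    32 * (1 - t) ^ 2 * (1 - t ^ 2) := by
  simp only [Finset.sum_range_succ, Finset.sum_range_zero, gam]
  push_cast
  ring

theorem Lop_rec {a : ℝ} {f : ℕ → ℝ} (h : ∀ j, f (j + 2) = 2 * a * f (j + 1) - f j) :
    Lop a f = fun _ => 0 := by
  funext j
  simp only [Lop]
  rw [h j]
  ring

theorem gam_t (t : ℝ) {f : ℕ → ℝ} (h : Lop t (Lop t f) = fun _ => 0) :
    ∑ j ∈ range 9, gam t j * f j = 0 := by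
  rw [gam_sum, Lop_comm t (2 * t ^ 2 - 1) f, Lop_comm t (2 * t ^ 2 - 1) (Lop t f), h, Lop_zero,
    Lop_zero]

theorem gam_u (t : ℝ) {f : ℕ → ℝ} (h : Lop (2 * t ^ 2 - 1) f = fun _ => 0) :
    ∑ j ∈ range 9, gam t j * f j = 0 := by
  rw [gam_sum, h, Lop_zero, Lop_zero, Lop_zero]

theorem gam_rc (h : t ^ 2 + s ^ 2 = 1) : ∑ j ∈ range 9, gam t j * rc t s j = 0 := by
  refine gam_t t (f := rc t s) ?_
  rw [Lop_rec (rc_rec h), Lop_zero]

theorem gam_rs (h : t ^ 2 + s ^ 2 = 1) : ∑ j ∈ range 9, gam t j * rs t s j = 0 := by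
  refine gam_t t (f := rs t s) ?_
  rw [Lop_rec (rs_rec h), Lop_zero]

theorem gam_jrc (h : t ^ 2 + s ^ 2 = 1) : ∑ j ∈ range 9, gam t j * (j * rc t s j) = 0 := by
  refine gam_t t (f := fun j => (j : ℝ) * rc t s j) ?_
  have e : Lop t (fun j => (j : ℝ) * rc t s j) =
      fun j => 2 * rc t s (j + 2) - 2 * t * rc t s (j + 1) := by
    funext j
    simp only [Lop]
    push_cast
    linear_combination (j : ℝ) * rc_rec h j
  rw [e]
  funext j
  simp only [Lop]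
  linear_combination 2 * rc_rec h (j + 2) - 2 * t * rc_rec h (j + 1)

theorem gam_jrs (h : t ^ 2 + s ^ 2 = 1) : ∑ j ∈ range 9, gam t j * (j * rs t s j) = 0 := by
  refine gam_t t (f := fun j => (j : ℝ) * rs t s j) ?_
  have e : Lop t (fun j => (j : ℝ) * rs t s j) =
      fun j => 2 * rs t s (j + 2) - 2 * t * rs t s (j + 1) := by
    funext j
    simp only [Lop]
    push_cast
    linear_combination (j : ℝ) * rs_rec h j
  rw [e]
  funext j
  simp only [Lop]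
  linear_combination 2 * rs_rec h (j + 2) - 2 * t * rs_rec h (j + 1)

theorem gam_C (h : t ^ 2 + s ^ 2 = 1) :
    ∑ j ∈ range 9, gam t j * (rc t s j ^ 2 - rs t s j ^ 2) = 0 := by
  have h1 := gam_u t (Lop_rec (rc_rec (dbl_sq h)))
  rw [← h1]
  exact Finset.sum_congr rfl fun j _ => by rw [(rc_dbl h j).1]

theorem gam_S (h : t ^ 2 + s ^ 2 = 1) :
    ∑ j ∈ range 9, gam t j * (2 * rc t s j * rs t s j) = 0 := by
  have h1 := gam_u t (Lop_rec (rs_rec (dbl_sq h)))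
  rw [← h1]
  exact Finset.sum_congr rfl fun j _ => by rw [(rc_dbl h j).2]

theorem gam_main (h : t ^ 2 + s ^ 2 = 1) (F : ℕ → ℝ) (A B C D E E' K L W : ℝ)
    (hF : ∀ j < 9, F j = A + B * j + C * rc t s j + D * rs t s j + E * (j * rc t s j) +
      E' * (j * rs t s j) + K * (rc t s j ^ 2 - rs t s j ^ 2) + L * (2 * rc t s j * rs t s j) +
      W * (j : ℝ) ^ 2) :
    ∑ j ∈ range 9, gam t j * F j = W * (32 * (1 - t) ^ 2 * (1 - t ^ 2)) := by
  have h1 : ∑ j ∈ range 9, gam t j * F j = A * (∑ j ∈ range 9, gam t j * 1) +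
      B * (∑ j ∈ range 9, gam t j * (j : ℝ)) + C * (∑ j ∈ range 9, gam t j * rc t s j) +
      D * (∑ j ∈ range 9, gam t j * rs t s j) +
      E * (∑ j ∈ range 9, gam t j * (j * rc t s j)) +
      E' * (∑ j ∈ range 9, gam t j * (j * rs t s j)) +
      K * (∑ j ∈ range 9, gam t j * (rc t s j ^ 2 - rs t s j ^ 2)) +
      L * (∑ j ∈ range 9, gam t j * (2 * rc t s j * rs t s j)) +
      W * (∑ j ∈ range 9, gam t j * (j : ℝ) ^ 2) := by
    simp only [Finset.mul_sum, ← Finset.sum_add_distrib]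
    refine Finset.sum_congr rfl fun j hj => ?_
    rw [hF j (Finset.mem_range.1 hj)]
    ring
  rw [h1, gam_one, gam_id, gam_rc h, gam_rs h, gam_jrc h, gam_jrs h, gam_C h, gam_S h, gam_sq]
  ring

end Vale.Agent.P058
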