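import Vale.Agent.P058.Base

set_option autoImplicit false

namespace Vale.Agent.P058

section alg

variable {G : Type*} [AddCommGroup G]

def TT (r : ℕ) (h : G → ℝ) : G → ℝ := Dbl h - (2 : ℝ) ^ r • h

def PP : ℕ → (G → ℝ) → (G → ℝ)
  | 0, h => h
  | n + 1, h => PP n (TT n h)

theorem Dbl_add (h k : G → ℝ) : Dbl (h + k) = Dbl h + Dbl k := rfl

theorem Dbl_smul (c : ℝ) (h : G → ℝ) : Dbl (c • h) = c • Dbl h := rfl

theorem TT_add (r : ℕ) (h k : G → ℝ) : TT r (h + k) = TT r h + TT r k := by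
  funext x
  simp only [TT, Dbl, Pi.add_apply, Pi.sub_apply, Pi.smul_apply, smul_eq_mul]
  ring

theorem TT_smul (r : ℕ) (c : ℝ) (h : G → ℝ) : TT r (c • h) = c • TT r h := by
  funext x
  simp only [TT, Dbl, Pi.sub_apply, Pi.smul_apply, smul_eq_mul]
  ring

theorem TT_Dbl (r : ℕ) (h : G → ℝ) : TT r (Dbl h) = Dbl (TT r h) := rfl

theorem PP_add : ∀ (n : ℕ) (h k : G → ℝ), PP n (h + k) = PP n h + PP n k
  | 0, _, _ => rfl
  | n + 1, h, k => by
    show PP n (TT n (h + k)) = PP n (TT n h) + PP n (TT n k)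
    rw [TT_add, PP_add n]

theorem PP_smul : ∀ (n : ℕ) (c : ℝ) (h : G → ℝ), PP n (c • h) = c • PP n h
  | 0, _, _ => rfl
  | n + 1, c, h => by
    show PP n (TT n (c • h)) = c • PP n (TT n h)
    rw [TT_smul, PP_smul n]

theorem PP_Dbl : ∀ (n : ℕ) (h : G → ℝ), PP n (Dbl h) = Dbl (PP n h)
  | 0, _ => rfl
  | n + 1, h => by
    show PP n (TT n (Dbl h)) = Dbl (PP n (TT n h))
    rw [TT_Dbl, PP_Dbl n]

theorem PP_zero_fun (n : ℕ) : PP n (0 : G → ℝ) = 0 := by
  have := PP_smul n (0 : ℝ) (0 : G → ℝ)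
  simpa using this

theorem Killed.pp_eq_zero : ∀ {n : ℕ} {h : G → ℝ}, Killed n h → PP n h = 0
  | 0, _, hh => hh
  | n + 1, h, hh => Killed.pp_eq_zero (h := TT n h) hh.dbl_sub

theorem Killed.tt {n : ℕ} (r : ℕ) {h : G → ℝ} (hh : Killed n h) : Killed n (TT r h) :=
  hh.dbl.sub (hh.smul _)

theorem Killed.pp {n : ℕ} : ∀ (m : ℕ) {h : G → ℝ}, Killed n h → Killed n (PP m h)
  | 0, _, hh => hh
  | m + 1, _, hh => Killed.pp m (hh.tt m)

theorem Killed.dbl_pp {n : ℕ} {h : G → ℝ} (hh : Killed (n + 1) h) :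
    Dbl (PP n h) = (2 : ℝ) ^ n • PP n h := by
  have h1 : PP n (Dbl h - (2 : ℝ) ^ n • h) = 0 := hh.pp_eq_zero
  have h2 : Dbl h - (2 : ℝ) ^ n • h = Dbl h + (-(2 : ℝ) ^ n) • h := by
    rw [neg_smul, sub_eq_add_neg]
  rw [h2, PP_add, PP_smul, PP_Dbl, neg_smul] at h1
  exact add_neg_eq_zero.1 h1

noncomputable def cc (n : ℕ) : ℕ → ℝ
  | 0 => 1
  | m + 1 => ((2 : ℝ) ^ n - (2 : ℝ) ^ m) * cc n m

theorem cc_ne_zero (n : ℕ) : ∀ m, m ≤ n → cc n m ≠ 0
  | 0, _ => one_ne_zero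
  | m + 1, hm => by
    apply mul_ne_zero _ (cc_ne_zero n m (by omega))
    rw [sub_ne_zero]
    intro h
    have := pow_right_injective₀ (a := (2 : ℝ)) (by norm_num) (by norm_num) h
    omega

theorem Killed.pp_sub {n : ℕ} {h : G → ℝ} (hh : Killed (n + 1) h) :
    ∀ m, Killed n (PP m h - cc n m • h)
  | 0 => by
    have : PP 0 h - cc n 0 • h = 0 := by
      simp [PP, cc]
    rw [this]
    exact Killed.zero n
  | m + 1 => by
    have e1 : TT m h =
        (Dbl h - (2 : ℝ) ^ n • h) + ((2 : ℝ) ^ n - (2 : ℝ) ^ m) • h := by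
      funext x
      simp only [TT, Pi.sub_apply, Pi.add_apply, Pi.smul_apply, smul_eq_mul]
      ring
    have e2 : PP (m + 1) h - cc n (m + 1) • h =
        PP m (Dbl h - (2 : ℝ) ^ n • h) +
          ((2 : ℝ) ^ n - (2 : ℝ) ^ m) • (PP m h - cc n m • h) := by
      show PP m (TT m h) - cc n (m + 1) • h = _
      rw [e1, PP_add, PP_smul, cc, smul_sub, smul_smul]
      abel
    rw [e2]
    exact (hh.dbl_sub.pp m).add ((hh.pp_sub m).smul _)

end alg

section growth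

variable {E : Type*} [NormedAddCommGroup E] [NormedSpace ℝ E]

def Gr (h : E → ℝ) : Prop := ∃ C : ℝ, 0 ≤ C ∧ ∀ p, |h p| ≤ C * ‖p‖ ^ 2

theorem Gr.tt {h : E → ℝ} (hh : Gr h) (r : ℕ) : Gr (TT r h) := by
  obtain ⟨C, hC, H⟩ := hh
  refine ⟨C * 4 + 2 ^ r * C, by positivity, fun p => ?_⟩
  have h1 := H (p + p)
  have h2 := H p
  have h3 : ‖p + p‖ = 2 * ‖p‖ := by
    rw [← two_smul ℝ p, norm_smul]
    norm_num
  rw [h3] at h1
  show |h (p + p) - (2 : ℝ) ^ r * h p| ≤ _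
  calc |h (p + p) - (2 : ℝ) ^ r * h p| ≤ |h (p + p)| + |(2 : ℝ) ^ r * h p| := abs_sub _ _
    _ = |h (p + p)| + (2 : ℝ) ^ r * |h p| := by
        rw [abs_mul, abs_of_nonneg (show (0 : ℝ) ≤ 2 ^ r by positivity)]
    _ ≤ C * (2 * ‖p‖) ^ 2 + 2 ^ r * (C * ‖p‖ ^ 2) := by gcongr
    _ = _ := by ring

theorem Gr.pp : ∀ (n : ℕ) {h : E → ℝ}, Gr h → Gr (PP n h)
  | 0, _, hh => hh
  | n + 1, _, hh => Gr.pp n (hh.tt n)

theorem Gr.eq_zero {h : E → ℝ} (hh : Gr h) {n : ℕ} (hn : 3 ≤ n)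
    (hd : Dbl h = (2 : ℝ) ^ n • h) : h = 0 := by
  obtain ⟨C, hC, H⟩ := hh
  have hd' : ∀ p, h (p + p) = (2 : ℝ) ^ n * h p := fun p => congrFun hd p
  have hj : ∀ (j : ℕ) (p : E), h ((2 : ℝ) ^ j • p) = ((2 : ℝ) ^ n) ^ j * h p := by
    intro j
    induction j with
    | zero => intro p; simp
    | succ j ih =>
      intro p
      have : (2 : ℝ) ^ (j + 1) • p = (2 : ℝ) ^ j • p + (2 : ℝ) ^ j • p := by
        rw [← add_smul]
        congr 1
        ring
      rw [this, hd', ih]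
      ring
  funext p
  by_contra hp
  have hp' : 0 < |h p| := abs_pos.2 hp
  have hb : ∀ j : ℕ, (2 : ℝ) ^ j * |h p| ≤ C * ‖p‖ ^ 2 := by
    intro j
    have h1 := H ((2 : ℝ) ^ j • p)
    rw [hj, abs_mul, norm_smul, abs_of_nonneg (by positivity), Real.norm_of_nonneg (by positivity)]
      at h1
    have h2 : (8 : ℝ) ^ j ≤ ((2 : ℝ) ^ n) ^ j := by
      apply pow_le_pow_left₀ (by norm_num)
      calc (8 : ℝ) = 2 ^ 3 := by norm_num
        _ ≤ 2 ^ n := pow_le_pow_right₀ (by norm_num) hn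
    have h3 : (8 : ℝ) ^ j * |h p| ≤ C * ((2 : ℝ) ^ j * ‖p‖) ^ 2 :=
      (mul_le_mul_of_nonneg_right h2 (abs_nonneg _)).trans h1
    have h4 : (8 : ℝ) ^ j = (4 : ℝ) ^ j * 2 ^ j := by rw [← mul_pow]; norm_num
    have h5 : ((2 : ℝ) ^ j * ‖p‖) ^ 2 = (4 : ℝ) ^ j * ‖p‖ ^ 2 := by
      rw [mul_pow, ← pow_mul, mul_comm j 2, pow_mul]
      norm_num
    rw [h4, h5] at h3
    have h6 : (0 : ℝ) < 4 ^ j := by positivity
    have h7 : (4 : ℝ) ^ j * ((2 : ℝ) ^ j * |h p|) ≤ (4 : ℝ) ^ j * (C * ‖p‖ ^ 2) := by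
      calc _ = (4 : ℝ) ^ j * 2 ^ j * |h p| := by ring
        _ ≤ _ := h3
        _ = _ := by ring
    exact le_of_mul_le_mul_left h7 h6
  obtain ⟨j, hj'⟩ := pow_unbounded_of_one_lt (C * ‖p‖ ^ 2 / |h p|) (one_lt_two (α := ℝ))
  rw [div_lt_iff₀ hp'] at hj'
  exact absurd (hb j) (not_le.2 hj')

theorem Gr.killed_three {h : E → ℝ} (hh : Gr h) : ∀ {K : ℕ}, Killed K h → Killed 3 h := by
  intro K
  induction K with
  | zero => intro hk; exact hk.mono (by norm_num)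
  | succ n ih =>
    intro hk
    by_cases hn : n + 1 ≤ 3
    · exact hk.mono hn
    · have hn' : 3 ≤ n := by omega
      apply ih
      have h1 : PP n h = 0 := (hh.pp n).eq_zero hn' hk.dbl_pp
      have h2 := hk.pp_sub n
      rw [h1, zero_sub] at h2
      have h3 := h2.smul (-(cc n n)⁻¹)
      have h4 : (-(cc n n)⁻¹) • -(cc n n • h) = h := by
        rw [smul_neg, neg_smul, neg_neg, smul_smul, inv_mul_cancel₀ (cc_ne_zero n n le_rfl),
          one_smul]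
      rwa [h4] at h3

theorem Gr.eq_zero_of_two {h : E → ℝ} (hh : Gr h) (hd : Dbl h = (2 : ℝ) • h) : h = 0 := by
  obtain ⟨C, hC, H⟩ := hh
  have hd' : ∀ p, h (p + p) = (2 : ℝ) * h p := fun p => congrFun hd p
  have hj : ∀ (j : ℕ) (p : E), h p = (2 : ℝ) ^ j * h (((2 : ℝ) ^ j)⁻¹ • p) := by
    intro j
    induction j with
    | zero => intro p; simp
    | succ j ih =>
      intro p
      have e : ((2 : ℝ) ^ j)⁻¹ • p = ((2 : ℝ) ^ (j + 1))⁻¹ • p + ((2 : ℝ) ^ (j + 1))⁻¹ • p := by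
        rw [← add_smul]
        congr 1
        rw [pow_succ]
        field_simp
        norm_num
      rw [ih p, e, hd']
      ring
  funext p
  by_contra hp
  have hp' : 0 < |h p| := abs_pos.2 hp
  have hb : ∀ j : ℕ, (2 : ℝ) ^ j * |h p| ≤ C * ‖p‖ ^ 2 := by
    intro j
    have h1 := H (((2 : ℝ) ^ j)⁻¹ • p)
    have h0 : (0 : ℝ) < 2 ^ j := by positivity
    rw [norm_smul, Real.norm_of_nonneg (by positivity)] at h1
    have h2 : |h p| = (2 : ℝ) ^ j * |h (((2 : ℝ) ^ j)⁻¹ • p)| := by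
      conv_lhs => rw [hj j p]
      rw [abs_mul, abs_of_nonneg h0.le]
    rw [h2]
    calc (2 : ℝ) ^ j * ((2 : ℝ) ^ j * |h (((2 : ℝ) ^ j)⁻¹ • p)|)
        ≤ (2 : ℝ) ^ j * ((2 : ℝ) ^ j * (C * (((2 : ℝ) ^ j)⁻¹ * ‖p‖) ^ 2)) := by gcongr
      _ = C * ‖p‖ ^ 2 := by
        field_simp
  obtain ⟨j, hj'⟩ := pow_unbounded_of_one_lt (C * ‖p‖ ^ 2 / |h p|) (one_lt_two (α := ℝ))
  rw [div_lt_iff₀ hp'] at hj'
  exact absurd (hb j) (not_le.2 hj')

theorem additive_real_linear (f : E → ℝ) (hadd : ∀ p q, f (p + q) = f p + f q)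
    (C : ℝ) (hC : ∀ p, |f p| ≤ C * (1 + ‖p‖ ^ 2)) (c : ℝ) (p : E) : f (c • p) = c * f p := by
  have hC0 : 0 ≤ C := by
    have := hC 0
    have h2 := abs_nonneg (f 0)
    rw [norm_zero] at this
    nlinarith
  let F : E →+ ℝ := AddMonoidHom.mk' f hadd
  let g : ℝ →+ ℝ := AddMonoidHom.mk' (fun c => f (c • p) - c * f p) (by
    intro a b
    rw [add_smul, hadd]
    ring)
  have g1 : g 1 = 0 := by simp [g]
  have gz : ∀ z : ℤ, g z = 0 := by
    intro z
    have : (z : ℝ) = z • (1 : ℝ) := by simp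
    rw [this, map_zsmul, g1, smul_zero]
  have gb : ∀ c, |g c| ≤ C * (1 + ‖p‖ ^ 2) + |f p| := by
    intro c
    have h1 : g c = g (Int.fract c) := by
      conv_lhs => rw [← Int.floor_add_fract c]
      rw [map_add, gz, zero_add]
    rw [h1]
    have hf0 := Int.fract_nonneg c
    have hf1 := (Int.fract_lt_one c).le
    show |f (Int.fract c • p) - Int.fract c * f p| ≤ _
    refine (abs_sub _ _).trans ?_
    have h2 := hC (Int.fract c • p)
    rw [norm_smul, Real.norm_of_nonneg hf0] at h2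
    have h3 : (Int.fract c * ‖p‖) ^ 2 ≤ ‖p‖ ^ 2 := by
      apply pow_le_pow_left₀ (by positivity)
      exact mul_le_of_le_one_left (norm_nonneg _) hf1
    have h4 : |Int.fract c * f p| ≤ |f p| := by
      rw [abs_mul, abs_of_nonneg hf0]
      exact mul_le_of_le_one_left (abs_nonneg _) hf1
    have h5 : C * (1 + (Int.fract c * ‖p‖) ^ 2) ≤ C * (1 + ‖p‖ ^ 2) := by gcongr
    linarith
  have g0 : g c = 0 := by
    by_contra hne
    have hpos : 0 < |g c| := abs_pos.2 hne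
    obtain ⟨N, hN⟩ := exists_nat_gt ((C * (1 + ‖p‖ ^ 2) + |f p|) / |g c|)
    rw [div_lt_iff₀ hpos] at hN
    have h1 := gb (N • c)
    rw [map_nsmul, nsmul_eq_mul, abs_mul, Nat.abs_cast] at h1
    linarith
  have : f (c • p) - c * f p = 0 := g0
  linarith

theorem quadratic_of_killed {h : E → ℝ} {K : ℕ} (hK : Killed K h)
    (hb : ∀ p, |h p| ≤ ‖p‖ ^ 2) :
    ∃ B : E →ₗ[ℝ] E →ₗ[ℝ] ℝ, ∀ p, h p = B p p := by
  have hGr : Gr h := ⟨1, zero_le_one, fun p => by rw [one_mul]; exact hb p⟩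
  have h3 := hGr.killed_three hK
  have h00 : h 0 = 0 := by
    have := hb 0
    simpa using this
  have hD3 : ∀ x y z : E, h (x + y + z) - h (x + y) - h (x + z) - h (y + z)
      + h x + h y + h z = 0 := by
    intro x y z
    have h1 : Dif z (Dif y (Dif x h)) = 0 := h3 x y z
    have h2 := congrFun h1 0
    simp only [Dif, zero_add, Pi.zero_apply] at h2
    rw [h00] at h2
    have e1 : z + y + x = x + y + z := by abel
    have e2 : z + x = x + z := by abel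
    have e3 : y + x = x + y := by abel
    have e4 : z + y = y + z := by abel
    rw [e1, e2, e3, e4] at h2
    linarith
  have hdbl : ∀ p, h (p + p) = 4 * h p := by
    have h4 : Killed 2 (TT 2 h) := h3.dbl_sub
    have h5 : TT 2 h 0 = 0 := by
      simp [TT, Dbl, h00]
    have h6 : Dbl (TT 2 h) = (2 : ℝ) • TT 2 h := by
      funext p
      have h7 : Dif p (Dif p (TT 2 h)) = 0 := h4 p p
      have h8 := congrFun h7 0
      simp only [Dif, zero_add, Pi.zero_apply, h5] at h8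
      simp only [Dbl, Pi.smul_apply, smul_eq_mul]
      linarith
    have h9 := (hGr.tt 2).eq_zero_of_two h6
    intro p
    have h10 := congrFun h9 p
    simp only [TT, Dbl, Pi.sub_apply, Pi.smul_apply, smul_eq_mul, Pi.zero_apply] at h10
    linarith
  let b : E → E → ℝ := fun p q => (h (p + q) - h p - h q) / 2
  have badd1 : ∀ p p' q, b (p + p') q = b p q + b p' q := by
    intro p p' q
    have := hD3 p p' q
    simp only [b]
    linarith
  have bsymm : ∀ p q, b p q = b q p := by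
    intro p q
    simp only [b]
    rw [add_comm p q]
    ring
  have badd2 : ∀ p q q', b p (q + q') = b p q + b p q' := by
    intro p q q'
    rw [bsymm, badd1, bsymm q, bsymm q']
  have bb : ∀ q p, |b p q| ≤ (2 * (1 + ‖q‖ ^ 2)) * (1 + ‖p‖ ^ 2) := by
    intro q p
    have h1 := hb (p + q)
    have h2 := hb p
    have h4 := hb q
    have h5 : ‖p + q‖ ^ 2 ≤ (‖p‖ + ‖q‖) ^ 2 :=
      pow_le_pow_left₀ (norm_nonneg _) (norm_add_le _ _) 2
    have h6 := abs_le.1 h1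
    have h7 := abs_le.1 h2
    have h8 := abs_le.1 h4
    have h9 := norm_nonneg p
    have h10 := norm_nonneg q
    have h11 : 0 ≤ ‖p‖ ^ 2 * ‖q‖ ^ 2 := by positivity
    simp only [b]
    rw [abs_le]
    constructor <;> nlinarith [sq_nonneg (‖p‖ - ‖q‖)]
  have bsmul1 : ∀ (c : ℝ) p q, b (c • p) q = c * b p q := by
    intro c p q
    exact additive_real_linear (fun p => b p q) (fun p p' => badd1 p p' q) _ (bb q) c p
  have bsmul2 : ∀ (c : ℝ) p q, b p (c • q) = c * b p q := by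
    intro c p q
    rw [bsymm, bsmul1, bsymm]
  refine ⟨LinearMap.mk₂ ℝ b badd1 bsmul1 badd2 bsmul2, ?_⟩
  intro p
  show h p = (h (p + p) - h p - h p) / 2
  rw [hdbl]
  ring

end growth

end Vale.Agent.P058
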