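import Vale.Agent.P058.Defs

set_option autoImplicit false

namespace Vale.Agent.P058

open scoped TensorProduct

namespace Nec

variable {d : ℕ}

/-- affine evaluation -/
noncomputable def evn (a : EuclideanSpace ℝ (Fin d))
    (v : ℝ × EuclideanSpace ℝ (Fin d)) : ℝ := v.1 + inner ℝ v.2 a

noncomputable def form (p q : EuclideanSpace ℝ (Fin d)) :
    EuclideanSpace ℝ (Fin d) →ₗ[ℝ] EuclideanSpace ℝ (Fin d) →ₗ[ℝ] ℝ :=
  (innerₛₗ ℝ p).smulRight (innerₛₗ ℝ q)

theorem form_apply (p q x y : EuclideanSpace ℝ (Fin d)) :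
    form p q x y = inner ℝ p x * inner ℝ q y := by
  simp [form]

/-- duality step -/
theorem duality (A : Set (EuclideanSpace ℝ (Fin d))) [Fintype A] (hA : ¬ QSpherical A) :
    ∃ (Q : (EuclideanSpace ℝ (Fin d) →ₗ[ℝ] EuclideanSpace ℝ (Fin d) →ₗ[ℝ] ℝ) →ₗ[ℝ] ℝ)
      (γ : A → ℝ → ℝ), Q (innerₗ _) = 1 ∧ (∀ a x y, γ a (x + y) = γ a x + γ a y) ∧
      ∀ u w : ℝ × EuclideanSpace ℝ (Fin d),
        ∑ a : A, evn a.1 u * γ a (evn a.1 w) = Q (form u.2 w.2) := by
  classical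
  obtain ⟨v, hv⟩ : ∃ v : (ℝ × EuclideanSpace ℝ (Fin d)) × (ℝ × EuclideanSpace ℝ (Fin d)) →
      (A → ℝ ⊗[ℚ] ℝ) × (EuclideanSpace ℝ (Fin d) →ₗ[ℝ] EuclideanSpace ℝ (Fin d) →ₗ[ℝ] ℝ),
      v = fun z => (fun a => evn a.1 z.1 ⊗ₜ[ℚ] evn a.1 z.2, form z.1.2 z.2.2) := ⟨_, rfl⟩
  have hnot : ((0 : A → ℝ ⊗[ℚ] ℝ), innerₗ (EuclideanSpace ℝ (Fin d))) ∉
      Submodule.span ℝ (Set.range v) := by
    intro hmem
    rw [Finsupp.mem_span_range_iff_exists_finsupp] at hmem
    obtain ⟨c, hc⟩ := hmem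
    apply hA
    obtain ⟨e⟩ : Nonempty (Fin c.support.card ≃ c.support) :=
      ⟨(Fintype.equivFinOfCardEq (by simp)).symm⟩
    refine ⟨c.support.card, fun i => c (e i).1 * (e i).1.1.1, fun i => (e i).1.2.1,
      fun i => c (e i).1 • (e i).1.1.2, fun i => (e i).1.2.2, ?_, ?_⟩
    · intro a ha
      have h1 := congrFun (congrArg Prod.fst hc) ⟨a, ha⟩
      rw [Finsupp.sum, Prod.fst_sum, Finset.sum_apply] at h1
      have h2 : ∑ i : Fin c.support.card, (c (e i).1 * (e i).1.1.1 +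
          inner ℝ (c (e i).1 • (e i).1.1.2) a) ⊗ₜ[ℚ] ((e i).1.2.1 + inner ℝ (e i).1.2.2 a) =
          ∑ z : c.support, (c z.1 * evn a z.1.1) ⊗ₜ[ℚ] (evn a z.1.2) := by
        rw [← e.sum_comp]
        apply Finset.sum_congr rfl
        intro i _
        unfold evn
        rw [inner_smul_left, mul_add]
        rfl
      rw [h2, Finset.sum_coe_sort c.support
        (fun z => (c z * evn a z.1) ⊗ₜ[ℚ] (evn a z.2))]
      refine Eq.trans ?_ h1
      apply Finset.sum_congr rfl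
      intro z _
      rw [hv]
      simp [TensorProduct.smul_tmul']
    · intro x y
      have h1 := congrArg (fun B : EuclideanSpace ℝ (Fin d) →ₗ[ℝ] EuclideanSpace ℝ (Fin d) →ₗ[ℝ] ℝ
        => B x y) (congrArg Prod.snd hc)
      have h3 : (innerₗ (EuclideanSpace ℝ (Fin d))) x y = inner ℝ x y := rfl
      simp only at h1
      rw [h3] at h1
      rw [← h1, Finsupp.sum, Prod.snd_sum]
      have h2 : ∑ i : Fin c.support.card, inner ℝ (c (e i).1 • (e i).1.1.2) x *
          inner ℝ (e i).1.2.2 y =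
          ∑ z : c.support, c z.1 * (inner ℝ z.1.1.2 x * inner ℝ z.1.2.2 y) := by
        rw [← e.sum_comp]
        apply Finset.sum_congr rfl
        intro i _
        rw [inner_smul_left]
        simp
        ring
      rw [h2, Finset.sum_coe_sort c.support
        (fun z => c z * (inner ℝ z.1.2 x * inner ℝ z.2.2 y))]
      rw [LinearMap.sum_apply, LinearMap.sum_apply]
      apply Finset.sum_congr rfl
      intro z _
      rw [hv]
      simp [form_apply]
  obtain ⟨Λ, hΛ1, hΛ2⟩ := Submodule.exists_dual_map_eq_bot_of_notMem (R := ℝ)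
    (M := (A → ℝ ⊗[ℚ] ℝ) ×
      (EuclideanSpace ℝ (Fin d) →ₗ[ℝ] EuclideanSpace ℝ (Fin d) →ₗ[ℝ] ℝ))
    (p := Submodule.span ℝ (Set.range v)) hnot inferInstance
  obtain ⟨κ, hκ⟩ : ∃ κ, κ = Λ (0, innerₗ (EuclideanSpace ℝ (Fin d))) := ⟨_, rfl⟩
  rw [← hκ] at hΛ1
  have hΛv : ∀ z, Λ (v z) = 0 := by
    intro z
    have h1 : Λ (v z) ∈ (Submodule.span ℝ (Set.range v)).map Λ :=
      Submodule.mem_map_of_mem (Submodule.subset_span ⟨z, rfl⟩)
    rw [hΛ2] at h1
    simpa using h1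
  refine ⟨κ⁻¹ • (Λ ∘ₗ LinearMap.inr ℝ _ _), fun a x => -κ⁻¹ * Λ (Pi.single a (1 ⊗ₜ[ℚ] x), 0),
    ?_, ?_, ?_⟩
  · simp only [LinearMap.smul_apply, LinearMap.comp_apply, LinearMap.inr_apply, smul_eq_mul]
    rw [← hκ]
    exact inv_mul_cancel₀ hΛ1
  · intro a x y
    have h1 : ((Pi.single a ((1 : ℝ) ⊗ₜ[ℚ] (x + y)), 0) : (A → ℝ ⊗[ℚ] ℝ) ×
        (EuclideanSpace ℝ (Fin d) →ₗ[ℝ] EuclideanSpace ℝ (Fin d) →ₗ[ℝ] ℝ)) =
        (Pi.single a ((1 : ℝ) ⊗ₜ[ℚ] x), 0) + (Pi.single a ((1 : ℝ) ⊗ₜ[ℚ] y), 0) := by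
      rw [TensorProduct.tmul_add, Pi.single_add, Prod.mk_add_mk, add_zero]
    dsimp only
    rw [h1, map_add]
    ring
  · intro u w
    have h1 := hΛv (u, w)
    have h2 : v (u, w) = (∑ a : A, evn a.1 u • ((Pi.single a ((1 : ℝ) ⊗ₜ[ℚ] evn a.1 w), 0) :
        (A → ℝ ⊗[ℚ] ℝ) ×
        (EuclideanSpace ℝ (Fin d) →ₗ[ℝ] EuclideanSpace ℝ (Fin d) →ₗ[ℝ] ℝ))) +
        (0, form u.2 w.2) := by
      rw [hv]
      apply Prod.ext
      · funext a
        simp only [Prod.fst_add, Prod.fst_sum, Prod.smul_fst, add_zero]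
        rw [Finset.sum_apply, Finset.sum_eq_single a]
        · rw [Pi.smul_apply, Pi.single_eq_same, TensorProduct.smul_tmul', smul_eq_mul, mul_one]
        · intro b _ hb
          rw [Pi.smul_apply, Pi.single_eq_of_ne (Ne.symm hb), smul_zero]
        · intro h
          exact absurd (Finset.mem_univ a) h
      · simp [Prod.snd_sum]
    rw [h2, map_add, map_sum] at h1
    simp only [map_smul, smul_eq_mul] at h1
    simp only [LinearMap.smul_apply, LinearMap.comp_apply, LinearMap.inr_apply, smul_eq_mul]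
    have h3 : Λ (0, form u.2 w.2) =
        -∑ a : A, evn a.1 u * Λ (Pi.single a ((1 : ℝ) ⊗ₜ[ℚ] evn a.1 w), 0) := by linarith
    rw [h3, mul_neg, Finset.mul_sum, ← Finset.sum_neg_distrib]
    apply Finset.sum_congr rfl
    intro a _
    ring

/-- Riesz representation -/
theorem riesz (φ : EuclideanSpace ℝ (Fin d) →ₗ[ℝ] ℝ) :
    ∃ r : EuclideanSpace ℝ (Fin d), ∀ x, inner ℝ r x = φ x := by
  refine ⟨(InnerProductSpace.toDual ℝ _).symm (LinearMap.toContinuousLinearMap φ), fun x => ?_⟩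
  rw [InnerProductSpace.toDual_symm_apply]
  rfl

theorem left_expand (B : EuclideanSpace ℝ (Fin d) →ₗ[ℝ] EuclideanSpace ℝ (Fin d) →ₗ[ℝ] ℝ) :
    ∃ r e : Fin d → EuclideanSpace ℝ (Fin d), B = ∑ j, form (r j) (e j) ∧
      ∀ j x, inner ℝ (r j) x = B x (e j) := by
  obtain ⟨b, hb⟩ : ∃ b : OrthonormalBasis (Fin d) ℝ (EuclideanSpace ℝ (Fin d)), True :=
    ⟨EuclideanSpace.basisFun (Fin d) ℝ, trivial⟩
  choose r hr using fun j => riesz (B.flip (b j))
  refine ⟨r, fun j => b j, ?_, fun j x => by rw [hr]; rfl⟩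
  apply LinearMap.ext
  intro x
  apply LinearMap.ext
  intro y
  have h1 : B x y = ∑ j, inner ℝ (b j) y * B x (b j) := by
    conv_lhs => rw [← b.sum_repr' y]
    rw [map_sum]
    apply Finset.sum_congr rfl
    intro j _
    rw [map_smul, smul_eq_mul]
  rw [h1, LinearMap.sum_apply, LinearMap.sum_apply]
  apply Finset.sum_congr rfl
  intro j _
  rw [form_apply, hr]
  rw [LinearMap.flip_apply]
  ring

theorem right_expand (B : EuclideanSpace ℝ (Fin d) →ₗ[ℝ] EuclideanSpace ℝ (Fin d) →ₗ[ℝ] ℝ) :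
    ∃ r e : Fin d → EuclideanSpace ℝ (Fin d), B = ∑ j, form (e j) (r j) ∧
      ∀ j y, inner ℝ (r j) y = B (e j) y := by
  obtain ⟨b, hb⟩ : ∃ b : OrthonormalBasis (Fin d) ℝ (EuclideanSpace ℝ (Fin d)), True :=
    ⟨EuclideanSpace.basisFun (Fin d) ℝ, trivial⟩
  choose r hr using fun j => riesz (B (b j))
  refine ⟨r, fun j => b j, ?_, fun j x => by rw [hr]⟩
  apply LinearMap.ext
  intro x
  apply LinearMap.ext
  intro y
  have h1 : B x y = ∑ j, inner ℝ (b j) x * B (b j) y := by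
    conv_lhs => rw [← b.sum_repr' x]
    rw [map_sum, LinearMap.sum_apply]
    apply Finset.sum_congr rfl
    intro j _
    rw [map_smul, LinearMap.smul_apply, smul_eq_mul]
  rw [h1, LinearMap.sum_apply, LinearMap.sum_apply]
  apply Finset.sum_congr rfl
  intro j _
  rw [form_apply, hr]

/-- `Q` depends only on the restriction of a form to the direction space. -/
theorem Q_eq_zero (A : Set (EuclideanSpace ℝ (Fin d))) [Fintype A]
    (Q : (EuclideanSpace ℝ (Fin d) →ₗ[ℝ] EuclideanSpace ℝ (Fin d) →ₗ[ℝ] ℝ) →ₗ[ℝ] ℝ)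
    (γ : A → ℝ → ℝ) (hγ : ∀ a x y, γ a (x + y) = γ a x + γ a y)
    (hQ : ∀ u w : ℝ × EuclideanSpace ℝ (Fin d),
        ∑ a : A, evn a.1 u * γ a (evn a.1 w) = Q (form u.2 w.2))
    (a₀ : EuclideanSpace ℝ (Fin d))
    (B : EuclideanSpace ℝ (Fin d) →ₗ[ℝ] EuclideanSpace ℝ (Fin d) →ₗ[ℝ] ℝ)
    (hB : ∀ a ∈ A, ∀ b ∈ A, B (a - a₀) (b - a₀) = 0) : Q B = 0 := by
  have hγ0 : ∀ a, γ a 0 = 0 := by
    intro a
    have := hγ a 0 0
    rw [add_zero] at this
    linarith
  have hleft : ∀ p q : EuclideanSpace ℝ (Fin d), (∀ a ∈ A, inner ℝ p (a - a₀) = 0) →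
      Q (form p q) = 0 := by
    intro p q hp
    rw [← hQ (-inner ℝ p a₀, p) (0, q)]
    apply Finset.sum_eq_zero
    intro a _
    have h1 := hp a.1 a.2
    rw [inner_sub_right] at h1
    have h2 : evn a.1 (-inner ℝ p a₀, p) = 0 := by
      unfold evn
      dsimp only
      linarith
    rw [h2, zero_mul]
  have hright : ∀ p q : EuclideanSpace ℝ (Fin d), (∀ a ∈ A, inner ℝ q (a - a₀) = 0) →
      Q (form p q) = 0 := by
    intro p q hp
    rw [← hQ (0, p) (-inner ℝ q a₀, q)]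
    apply Finset.sum_eq_zero
    intro a _
    have h1 := hp a.1 a.2
    rw [inner_sub_right] at h1
    have h2 : evn a.1 (-inner ℝ q a₀, q) = 0 := by
      unfold evn
      dsimp only
      linarith
    rw [h2, hγ0, mul_zero]
  obtain ⟨W, hW⟩ : ∃ W : Submodule ℝ (EuclideanSpace ℝ (Fin d)),
      W = Submodule.span ℝ ((fun a => a - a₀) '' A) := ⟨_, rfl⟩
  have hAW : ∀ a ∈ A, a - a₀ ∈ W := by
    intro a ha
    rw [hW]
    exact Submodule.subset_span ⟨a, ha, rfl⟩
  have hBW : ∀ x ∈ W, ∀ y ∈ W, B x y = 0 := by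
    intro x hx y hy
    rw [hW] at hx hy
    induction hx using Submodule.span_induction with
    | mem x hx =>
      obtain ⟨a, ha, rfl⟩ := hx
      induction hy using Submodule.span_induction with
      | mem y hy =>
        obtain ⟨b, hb, rfl⟩ := hy
        exact hB a ha b hb
      | zero => exact map_zero _
      | add y z _ _ h1 h2 => rw [map_add, h1, h2, add_zero]
      | smul c y _ h1 => rw [map_smul, h1, smul_zero]
    | zero => rw [map_zero, LinearMap.zero_apply]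
    | add x z _ _ h1 h2 => rw [map_add, LinearMap.add_apply, h1, h2, add_zero]
    | smul c x _ h1 => rw [map_smul, LinearMap.smul_apply, h1, smul_zero]
  obtain ⟨P, hP⟩ : ∃ P : EuclideanSpace ℝ (Fin d) →ₗ[ℝ] EuclideanSpace ℝ (Fin d),
      P = (W.starProjection : EuclideanSpace ℝ (Fin d) →L[ℝ] EuclideanSpace ℝ (Fin d)) := ⟨_, rfl⟩
  have hPW : ∀ x, P x ∈ W := by
    intro x
    rw [hP]
    exact Submodule.starProjection_apply_mem W x
  have hPid : ∀ x ∈ W, P x = x := by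
    intro x hx
    rw [hP]
    exact Submodule.starProjection_eq_self_iff.mpr hx
  obtain ⟨B1, hB1⟩ : ∃ B1, B1 = B ∘ₗ (LinearMap.id - P) := ⟨_, rfl⟩
  obtain ⟨B2, hB2⟩ : ∃ B2, B2 = (B ∘ₗ P).compl₂ (LinearMap.id - P) := ⟨_, rfl⟩
  have hsum : B = B1 + B2 := by
    apply LinearMap.ext
    intro x
    apply LinearMap.ext
    intro y
    have h1 : B (P x) (P y) = 0 := hBW _ (hPW x) _ (hPW y)
    have e1 : B1 x y = B x y - B (P x) y := by
      rw [hB1]
      simp
    have e2 : B2 x y = B (P x) y - B (P x) (P y) := by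
      rw [hB2]
      simp
    rw [LinearMap.add_apply, LinearMap.add_apply, e1, e2, h1]
    ring
  have hQ1 : Q B1 = 0 := by
    obtain ⟨r, e, h1, h2⟩ := left_expand B1
    rw [h1, map_sum]
    apply Finset.sum_eq_zero
    intro j _
    apply hleft
    intro a ha
    rw [h2, hB1]
    simp [hPid _ (hAW a ha)]
  have hQ2 : Q B2 = 0 := by
    obtain ⟨r, e, h1, h2⟩ := right_expand B2
    rw [h1, map_sum]
    apply Finset.sum_eq_zero
    intro j _
    apply hright
    intro a ha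
    rw [h2, hB2]
    simp [hPid _ (hAW a ha)]
  rw [hsum, map_add, hQ1, hQ2, add_zero]

/-- coordinates of an isometric copy are affine functions on `A` -/
theorem coords {D : ℕ} (A : Set (EuclideanSpace ℝ (Fin d))) [Fintype A]
    (f : A → EuclideanSpace ℝ (Fin D)) (hf : Isometry f) (a₀ : A) :
    (∀ a b : A, inner ℝ (f a - f a₀) (f b - f a₀) = inner ℝ (a.1 - a₀.1) (b.1 - a₀.1)) ∧
    ∀ i : Fin D, ∃ p : EuclideanSpace ℝ (Fin d), ∀ a : A,
      inner ℝ p (a.1 - a₀.1) = (f a - f a₀) i := by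
  have hinner : ∀ a b : A,
      inner ℝ (f a - f a₀) (f b - f a₀) = inner ℝ (a.1 - a₀.1) (b.1 - a₀.1) := by
    intro a b
    have hd : ∀ a b : A, ‖f a - f b‖ = ‖a.1 - b.1‖ := by
      intro a b
      have h := hf.dist_eq a b
      rw [dist_eq_norm] at h
      rw [h, Subtype.dist_eq, dist_eq_norm]
    rw [real_inner_eq_norm_mul_self_add_norm_mul_self_sub_norm_sub_mul_self_div_two,
      real_inner_eq_norm_mul_self_add_norm_mul_self_sub_norm_sub_mul_self_div_two,
      sub_sub_sub_cancel_right, sub_sub_sub_cancel_right, hd, hd, hd]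
  refine ⟨hinner, fun i => ?_⟩
  obtain ⟨K, hK⟩ : ∃ K : (A → ℝ) →ₗ[ℝ] ℝ, ∀ c, K c = ∑ a, c a * (f a - f a₀) i :=
    ⟨{ toFun := fun c => ∑ a, c a * (f a - f a₀) i
       map_add' := by
        intro c c'
        rw [← Finset.sum_add_distrib]
        apply Finset.sum_congr rfl
        intro a _
        rw [Pi.add_apply]
        ring
       map_smul' := by
        intro r c
        rw [RingHom.id_apply, smul_eq_mul, Finset.mul_sum]
        apply Finset.sum_congr rfl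
        intro a _
        rw [Pi.smul_apply, smul_eq_mul]
        ring }, fun c => rfl⟩
  obtain ⟨L, hL⟩ : ∃ L : Fin d → (A → ℝ) →ₗ[ℝ] ℝ, ∀ j c, L j c = ∑ a, c a * (a.1 - a₀.1) j :=
    ⟨fun j => { toFun := fun c => ∑ a, c a * (a.1 - a₀.1) j
                map_add' := by
                  intro c c'
                  rw [← Finset.sum_add_distrib]
                  apply Finset.sum_congr rfl
                  intro a _
                  rw [Pi.add_apply]
                  ring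
                map_smul' := by
                  intro r c
                  rw [RingHom.id_apply, smul_eq_mul, Finset.mul_sum]
                  apply Finset.sum_congr rfl
                  intro a _
                  rw [Pi.smul_apply, smul_eq_mul]
                  ring }, fun j c => rfl⟩
  have hker : ⨅ j, LinearMap.ker (L j) ≤ LinearMap.ker K := by
    intro c hc
    rw [Submodule.mem_iInf] at hc
    rw [LinearMap.mem_ker]
    have h1 : ∑ a : A, c a • (a.1 - a₀.1) = 0 := by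
      ext j
      have h2 := hc j
      rw [LinearMap.mem_ker, hL] at h2
      simpa using h2
    have h3 : ‖∑ a : A, c a • (f a - f a₀)‖ ^ 2 = 0 := by
      rw [← real_inner_self_eq_norm_sq, sum_inner]
      have h4 : ∀ a : A, inner ℝ (c a • (f a - f a₀)) (∑ b : A, c b • (f b - f a₀)) =
          inner ℝ (c a • (a.1 - a₀.1)) (∑ b : A, c b • (b.1 - a₀.1)) := by
        intro a
        rw [inner_sum, inner_sum]
        apply Finset.sum_congr rfl
        intro b _
        rw [inner_smul_left, inner_smul_left, inner_smul_right, inner_smul_right, hinner]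
      rw [Finset.sum_congr rfl (fun a _ => h4 a), h1]
      simp
    have h5 : ∑ a : A, c a • (f a - f a₀) = 0 := by
      have := pow_eq_zero_iff (two_ne_zero) |>.mp h3
      exact norm_eq_zero.mp this
    rw [hK]
    have h6 := congrArg (fun v : EuclideanSpace ℝ (Fin D) => v i) h5
    simpa using h6
  have hspan := mem_span_of_iInf_ker_le_ker hker
  rw [Submodule.mem_span_range_iff_exists_fun] at hspan
  obtain ⟨α, hα⟩ := hspan
  classical
  refine ⟨∑ j, α j • EuclideanSpace.single j (1 : ℝ), fun a => ?_⟩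
  have h1 := congrArg (fun φ : (A → ℝ) →ₗ[ℝ] ℝ => φ (Pi.single a 1)) hα
  simp only [LinearMap.sum_apply, LinearMap.smul_apply, hL, hK, smul_eq_mul] at h1
  have h2 : ∀ g : A → ℝ, ∑ b : A, (Pi.single a (1 : ℝ) : A → ℝ) b * g b = g a := by
    intro g
    rw [Finset.sum_eq_single a]
    · rw [Pi.single_eq_same, one_mul]
    · intro b _ hb
      rw [Pi.single_eq_of_ne hb, zero_mul]
    · intro h
      exact absurd (Finset.mem_univ a) h
  rw [h2 (fun b => (f b - f a₀) i)] at h1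
  rw [← h1, sum_inner]
  apply Finset.sum_congr rfl
  intro j _
  rw [h2 (fun b => (b.1 - a₀.1) j), inner_smul_left, EuclideanSpace.inner_single_left]
  simp

end Nec

open Nec in
theorem necessity {d : ℕ} (A : Set (EuclideanSpace ℝ (Fin d))) (hA : A.Finite)
    (h : IsRamsey A) : QSpherical A := by
  classical
  by_contra hnot
  have := hA.fintype
  obtain ⟨Q, γ, hQ1, hγ, hQ⟩ := duality A hnot
  rcases isEmpty_or_nonempty A with hemp | ⟨⟨a₀⟩⟩
  · have h0 := Q_eq_zero A Q γ hγ hQ 0 (innerₗ _) (fun a ha => (hemp.false ⟨a, ha⟩).elim)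
    rw [hQ1] at h0
    exact one_ne_zero h0
  obtain ⟨k, hk⟩ : ∃ k, k = Fintype.card A := ⟨_, rfl⟩
  have hk1 : 1 ≤ k := by
    rw [hk]
    exact Fintype.card_pos_iff.mpr ⟨a₀⟩
  have : NeZero (2 * k) := ⟨by omega⟩
  obtain ⟨r, hr⟩ : ∃ r, r = Fintype.card (A → ZMod (2 * k)) := ⟨_, rfl⟩
  have hr2 : 2 ≤ r := by
    rw [hr, Fintype.card_fun, ZMod.card, ← hk]
    calc 2 ≤ 2 * k := by omega
      _ = (2 * k) ^ 1 := (pow_one _).symm
      _ ≤ (2 * k) ^ k := Nat.pow_le_pow_right (by omega) hk1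
  obtain ⟨D, _, hD⟩ := h r hr2
  obtain ⟨e⟩ : Nonempty ((A → ZMod (2 * k)) ≃ Fin r) := ⟨Fintype.equivFinOfCardEq hr.symm⟩
  obtain ⟨Ψ, hΨ⟩ : ∃ Ψ : A → EuclideanSpace ℝ (Fin D) → ℝ,
      Ψ = fun a x => ∑ i, x i * γ a (x i) := ⟨_, rfl⟩
  obtain ⟨f, hf, i, hi⟩ := hD (fun x => e (fun a => ((⌊(k : ℝ) * Ψ a x⌋ : ℤ) : ZMod (2 * k))))
  -- `∑ a, Ψ a x = 0`
  have hsum0 : ∀ x, ∑ a, Ψ a x = 0 := by
    intro x
    rw [hΨ]
    dsimp only
    rw [Finset.sum_comm]
    apply Finset.sum_eq_zero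
    intro j _
    rw [← Finset.mul_sum]
    have h1 := hQ (1, 0) (x j, 0)
    have h2 : form (0 : EuclideanSpace ℝ (Fin d)) (0 : EuclideanSpace ℝ (Fin d)) = 0 := by
      apply LinearMap.ext
      intro x
      apply LinearMap.ext
      intro y
      simp [form_apply]
    dsimp only at h1
    rw [h2, map_zero] at h1
    have h3 : ∑ a : A, γ a (x j) = 0 := by
      rw [← h1]
      apply Finset.sum_congr rfl
      intro a _
      simp [evn]
    rw [h3, mul_zero]
  -- `∑ a, Ψ a (f a) = 1`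
  have hsum1 : ∑ a, Ψ a (f a) = 1 := by
    obtain ⟨hin, hco⟩ := coords A f hf a₀
    choose p hp using hco
    have hfa : ∀ a : A, ∀ j, f a j = evn a.1 (f a₀ j - inner ℝ (p j) a₀.1, p j) := by
      intro a j
      have h1 := hp j a
      rw [inner_sub_right] at h1
      have h2 : (f a - f a₀) j = f a j - f a₀ j := rfl
      rw [h2] at h1
      unfold evn
      dsimp only
      linarith
    have h1 : ∑ a, Ψ a (f a) = Q (∑ j, form (p j) (p j)) := by
      rw [map_sum, hΨ]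
      dsimp only
      rw [Finset.sum_comm]
      apply Finset.sum_congr rfl
      intro j _
      have h2 := hQ (f a₀ j - inner ℝ (p j) a₀.1, p j) (f a₀ j - inner ℝ (p j) a₀.1, p j)
      dsimp only at h2
      rw [← h2]
      apply Finset.sum_congr rfl
      intro a _
      rw [← hfa a j]
    have h3 : Q ((∑ j, form (p j) (p j)) + (-1 : ℝ) • innerₗ _) = 0 := by
      apply Q_eq_zero A Q γ hγ hQ a₀.1
      intro a ha b hb
      rw [LinearMap.add_apply, LinearMap.add_apply, LinearMap.sum_apply, LinearMap.sum_apply,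
        LinearMap.smul_apply, LinearMap.smul_apply]
      have h4 : (innerₗ (EuclideanSpace ℝ (Fin d))) (a - a₀.1) (b - a₀.1) =
        inner ℝ (a - a₀.1) (b - a₀.1) := rfl
      rw [h4, ← hin ⟨a, ha⟩ ⟨b, hb⟩, smul_eq_mul, neg_one_mul, ← sub_eq_add_neg, sub_eq_zero,
        PiLp.inner_apply]
      apply Finset.sum_congr rfl
      intro j _
      rw [form_apply, hp j ⟨a, ha⟩, hp j ⟨b, hb⟩]
      simp
      ring
    rw [map_add, map_smul, hQ1, smul_eq_mul] at h3
    rw [h1]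
    linarith
  -- colours
  have hcol : ∀ a b : A, ∃ z : ℤ, ⌊(k : ℝ) * Ψ a (f b)⌋ = ⌊(k : ℝ) * Ψ a (f a₀)⌋ + (2 * k : ℕ) * z := by
    intro a b
    have h1 : (fun a => ((⌊(k : ℝ) * Ψ a (f b)⌋ : ℤ) : ZMod (2 * k))) =
        (fun a => ((⌊(k : ℝ) * Ψ a (f a₀)⌋ : ℤ) : ZMod (2 * k))) := by
      apply e.injective
      rw [hi b, hi a₀]
    have h2 := congrFun h1 a
    rw [ZMod.intCast_eq_intCast_iff] at h2
    have h3 := h2.symm.dvd
    obtain ⟨z, hz⟩ := h3
    exact ⟨z, by linarith⟩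
  choose z hz using hcol
  have h1 : ∑ a : A, ((k : ℝ) * Ψ a (f a) - (k : ℝ) * Ψ a (f a₀)) = k := by
    rw [Finset.sum_sub_distrib, ← Finset.mul_sum, ← Finset.mul_sum, hsum1, hsum0]
    ring
  have h2 : ∀ a : A, |((k : ℝ) * Ψ a (f a) - (k : ℝ) * Ψ a (f a₀)) - (2 * k : ℕ) * z a a| < 1 := by
    intro a
    have h3 := hz a a
    have h4 := Int.floor_le ((k : ℝ) * Ψ a (f a))
    have h5 := Int.lt_floor_add_one ((k : ℝ) * Ψ a (f a))
    have h6 := Int.floor_le ((k : ℝ) * Ψ a (f a₀))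
    have h7 := Int.lt_floor_add_one ((k : ℝ) * Ψ a (f a₀))
    have h8 : ((⌊(k : ℝ) * Ψ a (f a)⌋ : ℤ) : ℝ) =
        ((⌊(k : ℝ) * Ψ a (f a₀)⌋ : ℤ) : ℝ) + ((2 * k : ℕ) : ℝ) * (z a a : ℝ) := by
      rw [h3]
      push_cast
      ring
    rw [abs_lt]
    constructor <;> linarith
  have h3 : |(k : ℝ) - ((2 * k : ℕ) : ℝ) * ((∑ a : A, z a a : ℤ) : ℝ)| < k := by
    calc |(k : ℝ) - ((2 * k : ℕ) : ℝ) * ((∑ a : A, z a a : ℤ) : ℝ)| =
        |∑ a : A, (((k : ℝ) * Ψ a (f a) - (k : ℝ) * Ψ a (f a₀)) - (2 * k : ℕ) * z a a)| := by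
          rw [Finset.sum_sub_distrib, h1, ← Finset.mul_sum]
          push_cast
          ring_nf
      _ ≤ ∑ a : A, |((k : ℝ) * Ψ a (f a) - (k : ℝ) * Ψ a (f a₀)) - (2 * k : ℕ) * z a a| :=
          Finset.abs_sum_le_sum_abs _ _
      _ < ∑ a : A, (1 : ℝ) := Finset.sum_lt_sum_of_nonempty ⟨a₀, Finset.mem_univ _⟩
          (fun a _ => h2 a)
      _ = k := by
          rw [hk]
          simp
  obtain ⟨Z, hZ⟩ : ∃ Z : ℤ, Z = ∑ a : A, z a a := ⟨_, rfl⟩
  rw [← hZ] at h3
  have h4 : |(k : ℤ) - ((2 * k : ℕ) : ℤ) * Z| < k := by exact_mod_cast h3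
  rw [abs_lt] at h4
  have hkz : (1 : ℤ) ≤ k := by exact_mod_cast hk1
  push_cast at h4
  rcases le_or_gt Z 0 with hZ0 | hZ0
  · nlinarith
  · have : 1 ≤ Z := hZ0
    nlinarith

end Vale.Agent.P058
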