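import Vale.Agent.P058.Defs

set_option autoImplicit false

namespace Vale.Agent.P058.Penta

open scoped TensorProduct

section tensor

noncomputable def EE (x y : ℝ) : ℝ ⊗[ℚ] ℝ :=
  x ⊗ₜ[ℚ] (y / 2) + (√2 * x) ⊗ₜ[ℚ] (√2 * y / 4)

theorem EE_add_left (x x' y : ℝ) : EE (x + x') y = EE x y + EE x' y := by
  unfold EE
  rw [mul_add, TensorProduct.add_tmul, TensorProduct.add_tmul]
  abel

theorem EE_add_right (x y y' : ℝ) : EE x (y + y') = EE x y + EE x y' := by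
  unfold EE
  rw [mul_add, add_div, add_div, TensorProduct.tmul_add, TensorProduct.tmul_add]
  abel

theorem EE_sqrt (x y : ℝ) : EE (√2 * x) y = EE x (√2 * y) := by
  unfold EE
  have h0 : √2 * √2 = 2 := Real.mul_self_sqrt (by norm_num)
  have h1 : √2 * (√2 * y) / 4 = y / 2 := by
    rw [← mul_assoc, h0]
    ring
  have h3 : √2 * (√2 * x) = (2 : ℚ) • x := by
    rw [← mul_assoc, h0, Rat.smul_def]
    norm_num
  have h4 : √2 * y / 2 = (2 : ℚ) • (√2 * y / 4) := by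
    rw [Rat.smul_def]
    push_cast
    ring
  rw [h1, h3, h4, TensorProduct.smul_tmul, add_comm]

theorem EE_int_mul (a : ℤ) (x y : ℝ) : EE ((a : ℝ) * x) y = EE x ((a : ℝ) * y) := by
  unfold EE
  have h1 : (a : ℝ) * x = a • x := by rw [zsmul_eq_mul]
  have h2 : √2 * ((a : ℝ) * x) = a • (√2 * x) := by
    rw [zsmul_eq_mul]
    ring
  have h3 : (a : ℝ) * y / 2 = a • (y / 2) := by
    rw [zsmul_eq_mul]
    ring
  have h4 : √2 * ((a : ℝ) * y) / 4 = a • (√2 * y / 4) := by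
    rw [zsmul_eq_mul]
    ring
  rw [h2, h1, h3, h4, TensorProduct.smul_tmul, TensorProduct.smul_tmul]

theorem EE_one (a b : ℤ) (y : ℝ) :
    EE ((a : ℝ) + (b : ℝ) * √2) y = EE 1 (((a : ℝ) + (b : ℝ) * √2) * y) := by
  have h1 : ((a : ℝ) + (b : ℝ) * √2) = (a : ℝ) * 1 + (b : ℝ) * (√2 * 1) := by ring
  rw [h1, EE_add_left, EE_int_mul, EE_int_mul, EE_sqrt, ← EE_add_right]
  congr 1
  ring

theorem EE_zero (x : ℝ) : EE x 0 = 0 := by
  unfold EE
  simp

theorem EE_neg (x y : ℝ) : EE x (-y) = - EE x y := by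
  have h := EE_add_right x y (-y)
  rw [add_neg_cancel, EE_zero] at h
  exact (neg_eq_of_add_eq_zero_right h.symm).symm

end tensor

section points

noncomputable def ss : ℝ := √(2 * √2 - 2)

def ca : Fin 5 → ℤ := ![1, -1, 5, -25, 113]
def cb : Fin 5 → ℤ := ![0, 1, -4, 17, -80]
def ua : Fin 5 → ℤ := ![0, 1, -2, 11, -52]
def ub : Fin 5 → ℤ := ![0, 0, 2, -8, 36]

noncomputable def cc (j : Fin 5) : ℝ := (ca j : ℝ) + (cb j : ℝ) * √2
noncomputable def uu (j : Fin 5) : ℝ := (ua j : ℝ) + (ub j : ℝ) * √2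

theorem sqrt2_sq : √2 * √2 = (2 : ℝ) := Real.mul_self_sqrt (by norm_num)

theorem one_lt_sqrt2 : (1 : ℝ) < √2 := by
  rw [show (1 : ℝ) = √1 by simp]
  exact Real.sqrt_lt_sqrt (by norm_num) (by norm_num)

theorem ss_sq : ss * ss = 2 * √2 - 2 :=
  Real.mul_self_sqrt (by linarith [one_lt_sqrt2])

theorem ss_pos : 0 < ss := Real.sqrt_pos.mpr (by linarith [one_lt_sqrt2])

theorem circle (j : Fin 5) : cc j * cc j + (2 * √2 - 2) * (uu j * uu j) = 1 := by
  have h := sqrt2_sq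
  unfold cc uu
  fin_cases j <;> simp [ca, cb, ua, ub]
  · linear_combination h
  · linear_combination (-8 + 8 * √2 : ℝ) * h
  · linear_combination (-191 + 128 * √2 : ℝ) * h
  · linear_combination (-3680 + 2592 * √2 : ℝ) * h

noncomputable def pt (j : Fin 5) : EuclideanSpace ℝ (Fin 2) := !₂[cc j, ss * uu j]

theorem qspherical_pt : QSpherical (Set.range pt) := by
  refine ⟨6, ![0, 0, 0, 0, 1, √2], ![0, 0, 0, 0, -(1 / 2), -(√2 / 4)],
    ![!₂[1, 0], !₂[√2, 0], !₂[0, ss⁻¹], !₂[0, √2 * ss⁻¹], 0, 0],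
    ![!₂[1 / 2, 0], !₂[√2 / 4, 0], !₂[0, ss / 2], !₂[0, √2 * ss / 4], 0, 0], ?_, ?_⟩
  · rintro a ⟨j, rfl⟩
    have hs := ss_pos.ne'
    simp only [Fin.sum_univ_succ, Fin.sum_univ_zero, pt, PiLp.inner_apply]
    simp
    have e1 : cc j * 2⁻¹ = cc j / 2 := by ring
    have e2 : cc j * √2 = √2 * cc j := by ring
    have e3 : cc j * (√2 / 4) = √2 * cc j / 4 := by ring
    have e4 : ss * uu j * ss⁻¹ = uu j := by field_simp
    have e5 : ss * uu j * (ss / 2) = (2 * √2 - 2) * uu j / 2 := by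
      rw [← ss_sq]
      ring
    have e6 : ss * uu j * (√2 * ss⁻¹) = √2 * uu j := by field_simp
    have e7 : ss * uu j * (√2 * ss / 4) = √2 * ((2 * √2 - 2) * uu j) / 4 := by
      rw [← ss_sq]
      ring
    have e8 : (-2⁻¹ : ℝ) = -1 / 2 := by ring
    have e9 : -(√2 / 4) = √2 * (-1) / 4 := by ring
    have e10 : √2 ⊗ₜ[ℚ] (√2 * (-1) / 4) = (√2 * 1) ⊗ₜ[ℚ] (√2 * (-1) / 4) := by rw [mul_one]
    rw [e1, e2, e3, e4, e5, e6, e7, e8, e9, e10]
    have hE : EE (cc j) (cc j) + EE (uu j) ((2 * √2 - 2) * uu j) + EE 1 (-1) = 0 := by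
      have h1 : EE (cc j) (cc j) = EE 1 (cc j * cc j) := EE_one _ _ _
      have h2 : EE (uu j) ((2 * √2 - 2) * uu j) = EE 1 (uu j * ((2 * √2 - 2) * uu j)) :=
        EE_one _ _ _
      rw [h1, h2, ← EE_add_right, ← EE_add_right]
      have h3 : cc j * cc j + uu j * ((2 * √2 - 2) * uu j) + -1 = 0 := by
        have := circle j
        linarith
      rw [h3, EE_zero]
    unfold EE at hE
    rw [← hE]
    abel
  · intro x y
    have hs := ss_pos.ne'
    simp only [Fin.sum_univ_succ, Fin.sum_univ_zero, PiLp.inner_apply]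
    simp
    field_simp
    rw [Real.sq_sqrt (by norm_num)]
    ring

end points

section copies

variable {V W : Type*} [NormedAddCommGroup V] [InnerProductSpace ℝ V]
  [NormedAddCommGroup W] [InnerProductSpace ℝ W]

theorem inner_sub_dist (a b c d : V) :
    inner ℝ (a - b) (c - d) = (dist a d ^ 2 + dist b c ^ 2 - dist a c ^ 2 - dist b d ^ 2) / 2 := by
  simp only [dist_eq_norm]
  have h1 : a - d = (a - b) + (b - d) := by abel
  have h2 : a - c = (a - b) + (b - c) := by abel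
  have h3 : c - d = (b - d) - (b - c) := by abel
  rw [h1, h2, h3, inner_sub_right, norm_add_sq_real, norm_add_sq_real]
  ring

theorem copy_rel (P : Fin 4 → V) (y : Fin 4 → W) (hd : ∀ i j, dist (y i) (y j) = dist (P i) (P j))
    (c : ℝ) (hP : P 3 - P 0 = c • (P 2 - P 1)) : y 3 - y 0 = c • (y 2 - y 1) := by
  have h1 : ∀ i j k l, inner ℝ (y i - y j) (y k - y l) = inner ℝ (P i - P j) (P k - P l) := by
    intro i j k l
    rw [inner_sub_dist, inner_sub_dist, hd, hd, hd, hd]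
  have h2 : ‖(y 3 - y 0) - c • (y 2 - y 1)‖ ^ 2 = ‖(P 3 - P 0) - c • (P 2 - P 1)‖ ^ 2 := by
    have h4 : ‖y 3 - y 0‖ ^ 2 = ‖P 3 - P 0‖ ^ 2 := by
      rw [← real_inner_self_eq_norm_sq, ← real_inner_self_eq_norm_sq, h1]
    have h5 : ‖y 2 - y 1‖ ^ 2 = ‖P 2 - P 1‖ ^ 2 := by
      rw [← real_inner_self_eq_norm_sq, ← real_inner_self_eq_norm_sq, h1]
    rw [norm_sub_sq_real (y 3 - y 0), norm_sub_sq_real (P 3 - P 0), inner_smul_right,
      inner_smul_right, norm_smul, norm_smul, h1, mul_pow, mul_pow, h4, h5]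
  rw [hP, sub_self, norm_zero] at h2
  have h3 : (y 3 - y 0) - c • (y 2 - y 1) = 0 := by
    rw [← norm_eq_zero]
    nlinarith [norm_nonneg ((y 3 - y 0) - c • (y 2 - y 1))]
  exact sub_eq_zero.mp h3

end copies

section conj

noncomputable def gg (ψ : ℝ →ₗ[ℚ] ℚ) (x : ℝ) : ℝ := (ψ x : ℝ) - (ψ (√2 * x) : ℝ) / √2

theorem gg_sub (ψ : ℝ →ₗ[ℚ] ℚ) (x y : ℝ) : gg ψ (x - y) = gg ψ x - gg ψ y := by
  unfold gg
  rw [mul_sub, map_sub, map_sub]
  push_cast
  ring

theorem gg_conj (ψ : ℝ →ₗ[ℚ] ℚ) (x : ℝ) :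
    gg ψ ((2 * √2 - 1) * x) = (-2 * √2 - 1) * gg ψ x := by
  unfold gg
  have h := sqrt2_sq
  have h1 : (2 * √2 - 1) * x = (2 : ℚ) • (√2 * x) - x := by
    rw [Rat.smul_def]
    push_cast
    ring
  have h2 : √2 * ((2 * √2 - 1) * x) = (4 : ℚ) • x - √2 * x := by
    rw [Rat.smul_def]
    push_cast
    linear_combination (2 * x) * h
  rw [h2, h1, map_sub, map_sub, map_smul, map_smul, smul_eq_mul, smul_eq_mul]
  push_cast
  have h3 : √2 ≠ 0 := by positivity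
  field_simp
  linear_combination (2 * (ψ x : ℝ)) * h

theorem gg_zero (r : ℝ) (h : ∀ ψ : ℝ →ₗ[ℚ] ℚ, gg ψ r = 0) : r = 0 := by
  rw [← Module.forall_dual_apply_eq_zero_iff ℚ r]
  intro ψ
  have h1 := h ψ
  unfold gg at h1
  have h3 : √2 ≠ 0 := by positivity
  by_contra h0
  have h4 : (ψ r : ℝ) ≠ 0 := by exact_mod_cast h0
  have h5 : √2 = ((ψ (√2 * r) / ψ r : ℚ) : ℝ) := by
    push_cast
    field_simp
    field_simp at h1
    linarith
  exact (Nat.Prime.irrational_sqrt Nat.prime_two) ⟨_, by exact_mod_cast h5.symm⟩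

end conj

section trans

variable {n : ℕ} (X : Set (EuclideanSpace ℝ (Fin n)))

def isoGroup : Subgroup (Equiv.Perm X) where
  carrier := {σ | ∀ a b : X, dist (σ a : EuclideanSpace ℝ (Fin n)) (σ b) = dist (a : EuclideanSpace ℝ (Fin n)) b}
  mul_mem' := by
    intro σ τ hσ hτ a b
    rw [Equiv.Perm.mul_apply, Equiv.Perm.mul_apply, hσ, hτ]
  one_mem' := by
    intro a b
    rfl
  inv_mem' := by
    intro σ hσ a b
    have h := hσ (σ⁻¹ a) (σ⁻¹ b)
    rw [← h]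
    have e : ∀ c : X, σ (σ⁻¹ c) = c := fun c => Equiv.apply_symm_apply σ c
    rw [e, e]

theorem isoGroup_trans (hX : X.Finite) (hT : IsTransitive X) (a b : X) :
    ∃ τ ∈ isoGroup X, τ a = b := by
  obtain ⟨g, hg, hgab⟩ := hT a a.2 b b.2
  have : Finite X := hX
  have hmem : ∀ x : X, g x ∈ X := fun x => hg.subset (Set.mem_image_of_mem g x.2)
  let F : X → X := fun x => ⟨g x, hmem x⟩
  have hinj : Function.Injective F := by
    intro x y hxy
    have : g x = g y := congrArg Subtype.val hxy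
    exact Subtype.ext (g.injective this)
  have hbij : Function.Bijective F := Finite.injective_iff_bijective.mp hinj
  refine ⟨Equiv.ofBijective F hbij, ?_, ?_⟩
  · intro x y
    exact g.dist_eq x y
  · exact Subtype.ext hgab

theorem sum_trans (hX : X.Finite) (hT : IsTransitive X) [Fintype (isoGroup X)] (φ : X → ℝ) (a b : X) :
    ∑ σ : isoGroup X, φ ((σ : Equiv.Perm X) a) = ∑ σ : isoGroup X, φ ((σ : Equiv.Perm X) b) := by
  obtain ⟨τ, hτ, hab⟩ := isoGroup_trans X hX hT a b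
  refine (Fintype.sum_equiv (Equiv.mulRight (⟨τ, hτ⟩ : isoGroup X)) _ _ ?_).symm
  intro σ
  simp only [Equiv.coe_mulRight, Subgroup.coe_mul, Equiv.Perm.mul_apply]
  rw [hab]

end trans

section final

theorem quad_id (u1 u2 u3 : ℝ) :
    let c : ℝ := -2 * √2 - 1
    let u0 := u3 - c * (u2 - u1)
    let u4 := c * (u3 - u2) + u1
    (u0 ^ 2 + u4 ^ 2) + 2 * √2 * (u1 ^ 2 + u3 ^ 2) + (-2 - 4 * √2) * u2 ^ 2 =
      (4 + √2) * (u3 + u1 - 2 * u2) ^ 2 + (6 + 5 * √2) * (u3 - u1) ^ 2 := by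
  intro c u0 u4
  have h := sqrt2_sq
  simp only [c, u0, u4]
  linear_combination (4 * u3 ^ 2 + 4 * u1 ^ 2 + 8 * u2 ^ 2 - 8 * u3 * u2 - 8 * u2 * u1) * h

theorem pt_rel_a : pt 3 - pt 0 = (2 * √2 - 1) • (pt 2 - pt 1) := by
  have h := sqrt2_sq
  ext i
  fin_cases i <;> simp [pt, cc, uu, ca, cb, ua, ub]
  · linear_combination (10 : ℝ) * h
  · linear_combination (-4 * ss : ℝ) * h

theorem pt_rel_b : pt 4 - pt 1 = (2 * √2 - 1) • (pt 3 - pt 2) := by
  have h := sqrt2_sq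
  ext i
  fin_cases i <;> simp [pt, cc, uu, ca, cb, ua, ub]
  · linear_combination (-42 : ℝ) * h
  · linear_combination (20 * ss : ℝ) * h

theorem pt_ne : pt 0 ≠ pt 1 := by
  intro h
  have h1 : ss * uu 0 = ss * uu 1 := congrFun (congrArg (WithLp.ofLp) h) 1
  have h2 := mul_left_cancel₀ ss_pos.ne' h1
  unfold uu at h2
  simp [ua, ub] at h2

theorem not_subtransitive : ¬ IsSubtransitive (Set.range pt) := by
  rintro ⟨n, X, hX, hT, f, hf, hfX⟩
  let a : Fin 5 → Set.range pt := fun j => ⟨pt j, j, rfl⟩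
  let x : Fin 5 → X := fun j => ⟨f (a j), hfX (a j)⟩
  have hdist : ∀ i j, dist (x i : EuclideanSpace ℝ (Fin n)) (x j) = dist (pt i) (pt j) :=
    fun i j => hf.dist_eq (a i) (a j)
  have : Finite X := hX
  have : Fintype (isoGroup X) := Fintype.ofFinite _
  let y : isoGroup X → Fin 5 → EuclideanSpace ℝ (Fin n) := fun σ j => ((σ : Equiv.Perm X) (x j))
  have hy : ∀ σ i j, dist (y σ i) (y σ j) = dist (pt i) (pt j) := by
    intro σ i j
    rw [← hdist]
    exact σ.2 (x i) (x j)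
  have hra : ∀ σ, y σ 3 - y σ 0 = (2 * √2 - 1) • (y σ 2 - y σ 1) := fun σ =>
    copy_rel (fun i => pt (![0, 1, 2, 3] i)) (fun i => y σ (![0, 1, 2, 3] i))
      (fun i j => hy σ _ _) _ pt_rel_a
  have hrb : ∀ σ, y σ 4 - y σ 1 = (2 * √2 - 1) • (y σ 3 - y σ 2) := fun σ =>
    copy_rel (fun i => pt (![1, 2, 3, 4] i)) (fun i => y σ (![1, 2, 3, 4] i))
      (fun i j => hy σ _ _) _ pt_rel_b
  have key : ∀ (i : Fin n) (ψ : ℝ →ₗ[ℚ] ℚ), gg ψ ((y 1 1) i - (y 1 0) i) = 0 := by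
    intro i ψ
    let u : isoGroup X → Fin 5 → ℝ := fun σ j => gg ψ ((y σ j) i)
    have hua : ∀ σ, u σ 3 - u σ 0 = (-2 * √2 - 1) * (u σ 2 - u σ 1) := by
      intro σ
      have h1 := congrArg (fun v : EuclideanSpace ℝ (Fin n) => gg ψ (v i)) (hra σ)
      simp only [PiLp.sub_apply, PiLp.smul_apply, smul_eq_mul] at h1
      rw [gg_conj, gg_sub, gg_sub] at h1
      exact h1
    have hub : ∀ σ, u σ 4 - u σ 1 = (-2 * √2 - 1) * (u σ 3 - u σ 2) := by
      intro σ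
      have h1 := congrArg (fun v : EuclideanSpace ℝ (Fin n) => gg ψ (v i)) (hrb σ)
      simp only [PiLp.sub_apply, PiLp.smul_apply, smul_eq_mul] at h1
      rw [gg_conj, gg_sub, gg_sub] at h1
      exact h1
    have hF : ∀ j, ∑ σ, u σ j ^ 2 = ∑ σ, u σ 0 ^ 2 := by
      intro j
      exact sum_trans X hX hT (fun z => gg ψ ((z : EuclideanSpace ℝ (Fin n)) i) ^ 2) (x j) (x 0)
    have hq : ∀ σ, (u σ 0 ^ 2 + u σ 4 ^ 2) + 2 * √2 * (u σ 1 ^ 2 + u σ 3 ^ 2) +
        (-2 - 4 * √2) * u σ 2 ^ 2 =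
        (4 + √2) * (u σ 3 + u σ 1 - 2 * u σ 2) ^ 2 + (6 + 5 * √2) * (u σ 3 - u σ 1) ^ 2 := by
      intro σ
      have h1 := quad_id (u σ 1) (u σ 2) (u σ 3)
      have h2 : u σ 0 = u σ 3 - (-2 * √2 - 1) * (u σ 2 - u σ 1) := by linarith [hua σ]
      have h3 : u σ 4 = (-2 * √2 - 1) * (u σ 3 - u σ 2) + u σ 1 := by linarith [hub σ]
      rw [h2, h3]
      exact h1
    have hsum : ∑ σ, ((4 + √2) * (u σ 3 + u σ 1 - 2 * u σ 2) ^ 2 +
        (6 + 5 * √2) * (u σ 3 - u σ 1) ^ 2) = 0 := by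
      rw [← Finset.sum_congr rfl (fun σ _ => hq σ)]
      simp only [Finset.sum_add_distrib, ← Finset.mul_sum, hF]
      ring
    have hs0 : (0 : ℝ) ≤ √2 := Real.sqrt_nonneg 2
    have hpos : ∀ σ ∈ (Finset.univ : Finset (isoGroup X)), 0 ≤ (4 + √2) * (u σ 3 + u σ 1 - 2 * u σ 2) ^ 2 +
        (6 + 5 * √2) * (u σ 3 - u σ 1) ^ 2 := fun σ _ => by positivity
    have h1 := (Finset.sum_eq_zero_iff_of_nonneg hpos).mp hsum 1 (Finset.mem_univ _)
    have h2 : u 1 3 - u 1 1 = 0 := by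
      have h3 : (6 + 5 * √2) * (u 1 3 - u 1 1) ^ 2 = 0 := by
        have h4 : 0 ≤ (4 + √2) * (u 1 3 + u 1 1 - 2 * u 1 2) ^ 2 := by positivity
        have h5 : 0 ≤ (6 + 5 * √2) * (u 1 3 - u 1 1) ^ 2 := by positivity
        linarith
      have h6 : (6 + 5 * √2) ≠ 0 := by positivity
      exact pow_eq_zero_iff (two_ne_zero) |>.mp ((mul_eq_zero.mp h3).resolve_left h6)
    have h7 : u 1 3 + u 1 1 - 2 * u 1 2 = 0 := by
      rw [h2] at h1
      have h3 : (4 + √2) * (u 1 3 + u 1 1 - 2 * u 1 2) ^ 2 = 0 := by linarith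
      have h6 : (4 + √2) ≠ 0 := by positivity
      exact pow_eq_zero_iff (two_ne_zero) |>.mp ((mul_eq_zero.mp h3).resolve_left h6)
    have h8 := hua 1
    have h9 : u 1 2 - u 1 1 = 0 := by linarith
    rw [h9] at h8
    rw [gg_sub]
    change u 1 1 - u 1 0 = 0
    linarith
  have hxy : y 1 1 = y 1 0 := by
    ext i
    have := gg_zero _ (key i)
    linarith
  have h0 := hy 1 1 0
  rw [hxy, dist_self] at h0
  exact pt_ne (dist_eq_zero.mp h0.symm).symm

theorem exists_not_subtransitive : ∃ A : Set (EuclideanSpace ℝ (Fin 2)),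
    A.Finite ∧ A.Nonempty ∧ QSpherical A ∧ ¬ IsSubtransitive A :=
  ⟨Set.range pt, Set.finite_range pt, ⟨pt 0, 0, rfl⟩, qspherical_pt, not_subtransitive⟩

end final

end Vale.Agent.P058.Penta
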