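import Vale.Agent.P058.Quadrics

set_option autoImplicit false

namespace Vale.Agent.P058.Alg

theorem exists_matrix_of_polynomial {d : ℕ} (f : MvPolynomial (Fin d) ℝ)
    (hf : f.totalDegree ≤ 2) :
    ∃ M : Option (Fin d) → Option (Fin d) → ℝ, ∀ b : EuclideanSpace ℝ (Fin d),
      ∑ k, ∑ l, hat b k * hat b l * M k l = MvPolynomial.eval (fun i => b i) f := by
  classical
  have hmon : ∀ m : Fin d →₀ ℕ, m.degree ≤ 2 → ∃ k l : Option (Fin d),
      ∀ b : EuclideanSpace ℝ (Fin d), ∏ i, b i ^ m i = hat b k * hat b l := by
    intro m hm
    have hsum : ∑ i, m i = m.degree := by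
      rw [Finsupp.degree_eq_sum]
    by_cases h0 : m = 0
    · subst h0
      exact ⟨none, none, fun b => by simp [hat]⟩
    · obtain ⟨i, hi⟩ : ∃ i, m i ≠ 0 := by
        by_contra hcon
        push Not at hcon
        exact h0 (Finsupp.ext hcon)
      by_cases h1 : m = Finsupp.single i 1
      · subst h1
        refine ⟨none, some i, fun b => ?_⟩
        rw [Finset.prod_eq_single i]
        · simp [hat]
        · intro j _ hj
          simp [Finsupp.single_apply, Ne.symm hj]
        · simp
      · obtain ⟨j, hj⟩ : ∃ j, m j ≠ Finsupp.single i 1 j := by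
          by_contra hcon
          push Not at hcon
          exact h1 (Finsupp.ext hcon)
        have hm2 : m = Finsupp.single i 1 + Finsupp.single j 1 := by
          have hle : Finsupp.single i 1 + Finsupp.single j 1 ≤ m := by
            intro x
            rw [Finsupp.add_apply, Finsupp.single_apply, Finsupp.single_apply]
            by_cases hij : i = j
            · subst hij
              rw [Finsupp.single_eq_same] at hj
              split_ifs with hx
              · subst hx
                omega
              · omega
            · rw [Finsupp.single_apply, if_neg hij] at hj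
              split_ifs with hx hy hy
              · exact absurd (hx.trans hy.symm) hij
              · subst hx
                omega
              · subst hy
                omega
              · omega
          obtain ⟨r, hr⟩ := exists_add_of_le hle
          have hdr : m.degree = 2 + r.degree := by
            rw [hr, map_add, map_add, Finsupp.degree_single, Finsupp.degree_single]
          have hr0 : r.degree = 0 := by omega
          rw [Finsupp.degree_eq_zero_iff] at hr0
          rw [hr, hr0, add_zero]
        refine ⟨some i, some j, fun b => ?_⟩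
        rw [hm2]
        simp only [Finsupp.add_apply, pow_add, Finset.prod_mul_distrib, hat]
        congr 1
        · rw [Finset.prod_eq_single i]
          · simp
          · intro x _ hx
            simp [Finsupp.single_apply, Ne.symm hx]
          · simp
        · rw [Finset.prod_eq_single j]
          · simp
          · intro x _ hx
            simp [Finsupp.single_apply, Ne.symm hx]
          · simp
  have hk : ∀ m : Fin d →₀ ℕ, ∃ kl : Option (Fin d) × Option (Fin d), m ∈ f.support →
      ∀ b : EuclideanSpace ℝ (Fin d), ∏ i, b i ^ m i = hat b kl.1 * hat b kl.2 := by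
    intro m
    by_cases hm : m ∈ f.support
    · obtain ⟨k, l, h⟩ := hmon m ((MvPolynomial.le_totalDegree hm).trans hf)
      exact ⟨(k, l), fun _ => h⟩
    · exact ⟨(none, none), fun h => absurd h hm⟩
  choose g hg using hk
  refine ⟨fun k l => ∑ m ∈ f.support, if g m = (k, l) then f.coeff m else 0, fun b => ?_⟩
  rw [MvPolynomial.eval_eq']
  have h1 : ∀ k l, hat b k * hat b l * (∑ m ∈ f.support, if g m = (k, l) then f.coeff m else 0) =
      ∑ m ∈ f.support, if g m = (k, l) then f.coeff m * (hat b k * hat b l) else 0 := by
    intro k l
    rw [Finset.mul_sum]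
    apply Finset.sum_congr rfl
    intro m _
    split_ifs
    · ring
    · ring
  simp only [h1]
  rw [← Fintype.sum_prod_type' (f := fun k l => ∑ m ∈ f.support,
    if g m = (k, l) then f.coeff m * (hat b k * hat b l) else 0), Finset.sum_comm]
  apply Finset.sum_congr rfl
  intro m hm
  rw [hg m hm b]
  rw [Finset.sum_eq_single (g m)]
  · simp
  · intro x _ hx
    rw [if_neg (Ne.symm hx)]
  · intro h
    exact absurd (Finset.mem_univ _) h

theorem qspherical_of_polynomials {d : ℕ} (A : Set (EuclideanSpace ℝ (Fin d))) (hA : A.Finite)
    (hs : IsSpherical A)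
    (hq : ∀ a ∈ A, ∃ f : MvPolynomial (Fin d) ℝ, f.totalDegree ≤ 2 ∧
      MvPolynomial.eval (fun i => a i) f ≠ 0 ∧
      ∀ b ∈ A, b ≠ a → MvPolynomial.eval (fun i => b i) f = 0) : QSpherical A := by
  apply qspherical_of_matrices A hA hs
  intro a ha
  obtain ⟨f, hf2, hfa, hfb⟩ := hq a ha
  obtain ⟨M, hM⟩ := exists_matrix_of_polynomial f hf2
  have key : ∀ b : EuclideanSpace ℝ (Fin d), ∀ c : ℝ,
      ∑ k, ∑ l, hat b k * hat b l * (c * M k l) = c * MvPolynomial.eval (fun i => b i) f := by
    intro b c
    rw [← hM b, Finset.mul_sum]
    apply Finset.sum_congr rfl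
    intro k _
    rw [Finset.mul_sum]
    apply Finset.sum_congr rfl
    intro l _
    ring
  refine ⟨fun k l => (MvPolynomial.eval (fun i => a i) f)⁻¹ * M k l, ?_, ?_⟩
  · rw [key]
    exact inv_mul_cancel₀ hfa
  · intro b hb hba
    rw [key, hfb b hb hba, mul_zero]

end Vale.Agent.P058.Alg
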