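import Vale.Agent.P058.Coord

set_option autoImplicit false

namespace Vale.Agent.P058.Alg

open scoped TensorProduct

theorem IsSpherical.sum_eq {d : ℕ} {A : Set (EuclideanSpace ℝ (Fin d))} {z : EuclideanSpace ℝ (Fin d)}
    {ρ : ℝ} (hz : ∀ a ∈ A, dist a z = ρ) {a : EuclideanSpace ℝ (Fin d)} (ha : a ∈ A) :
    ∑ i, a i * a i + ∑ i, (-2 * z i) * a i + (∑ i, z i * z i - ρ ^ 2) = 0 := by
  have h := hz a ha
  have h2 : dist a z ^ 2 = ρ ^ 2 := by rw [h]
  rw [EuclideanSpace.dist_eq, Real.sq_sqrt (Finset.sum_nonneg fun _ _ => sq_nonneg _)] at h2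
  rw [← h2, ← Finset.sum_add_distrib, ← Finset.sum_sub_distrib, ← Finset.sum_add_distrib]
  apply Finset.sum_eq_zero
  intro i _
  rw [Real.dist_eq, sq_abs]
  ring

theorem exists_real_coord {d : ℕ} {A : Set (EuclideanSpace ℝ (Fin d))} (hs : IsSpherical A) :
    ∃ τ : Option (Fin d) → Option (Fin d) → ℝ,
      (∀ a ∈ A, ∑ k, ∑ l, hat a k * hat a l * τ k l = 0) ∧
      ∀ i j, τ (some i) (some j) = if i = j then 1 else 0 := by
  obtain ⟨z, ρ, hz⟩ := hs
  let τ : Option (Fin d) → Option (Fin d) → ℝ := fun k l => match k, l with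
    | none, none => ∑ i, z i * z i - ρ ^ 2
    | none, some i => -2 * z i
    | some _, none => 0
    | some i, some j => if i = j then 1 else 0
  refine ⟨τ, ?_, fun _ _ => rfl⟩
  intro a ha
  have h := IsSpherical.sum_eq hz ha
  rw [Fintype.sum_option]
  simp only [Fintype.sum_option, hat, τ, one_mul, mul_one, mul_zero, zero_add]
  have h4 : ∀ i : Fin d, ∑ j, a i * a j * (if i = j then (1 : ℝ) else 0) = a i * a i := by
    intro i
    rw [Finset.sum_eq_single i]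
    · simp
    · intro j _ hj
      simp [Ne.symm hj]
    · simp
  simp only [h4]
  have h5 : ∑ x : Fin d, a x * (-2 * z x) = ∑ x : Fin d, (-2 * z x) * a x :=
    Finset.sum_congr rfl fun _ _ => mul_comm _ _
  rw [h5]
  linarith

theorem qspherical_of_matrices {d : ℕ} (A : Set (EuclideanSpace ℝ (Fin d))) (hA : A.Finite)
    (hs : IsSpherical A)
    (hq : ∀ a ∈ A, ∃ M : Option (Fin d) → Option (Fin d) → ℝ,
      (∑ k, ∑ l, hat a k * hat a l * M k l = 1) ∧
      ∀ b ∈ A, b ≠ a → ∑ k, ∑ l, hat b k * hat b l * M k l = 0) : QSpherical A := by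
  classical
  have hft : Fintype A := hA.fintype
  obtain ⟨τ, hτ, hτ1⟩ := exists_real_coord hs
  have hq' : ∀ a : A, ∃ M : Option (Fin d) → Option (Fin d) → ℝ,
      ∀ b : A, ∑ k, ∑ l, hat b.1 k * hat b.1 l * M k l = if b = a then 1 else 0 := by
    intro a
    obtain ⟨M, h1, h2⟩ := hq a.1 a.2
    refine ⟨M, fun b => ?_⟩
    by_cases hb : b = a
    · rw [if_pos hb, hb, h1]
    · rw [if_neg hb]
      exact h2 b.1 b.2 fun h => hb (Subtype.ext h)
  choose M hM using hq'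
  let μ : ℝ ⊗[ℚ] ℝ →+* ℝ := (Algebra.TensorProduct.lmul' (S := ℝ) ℚ).toRingHom
  have hμ : ∀ x y : ℝ, μ (x ⊗ₜ[ℚ] y) = x * y := fun x y =>
    Algebra.TensorProduct.lmul'_apply_tmul x y
  let E : A → (Option (Fin d) → Option (Fin d) → ℝ ⊗[ℚ] ℝ) → ℝ ⊗[ℚ] ℝ :=
    fun b T => ∑ k, ∑ l, (hat b.1 k ⊗ₜ[ℚ] hat b.1 l : ℝ ⊗[ℚ] ℝ) * T k l
  let N : Matrix A A (ℝ ⊗[ℚ] ℝ) := fun b a => E b (fun k l => M a k l ⊗ₜ[ℚ] (1 : ℝ))
  let y : A → ℝ ⊗[ℚ] ℝ := fun b => E b (fun k l => τ k l ⊗ₜ[ℚ] (1 : ℝ))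
  have hμE : ∀ b T, μ (E b T) = ∑ k, ∑ l, hat b.1 k * hat b.1 l * μ (T k l) := by
    intro b T
    simp only [E, map_sum, map_mul, hμ]
  have hμN : μ.mapMatrix N = 1 := by
    ext b a
    rw [RingHom.mapMatrix_apply, Matrix.map_apply, Matrix.one_apply]
    simp only [N, hμE, hμ, mul_one]
    exact hM a b
  have hμdet : μ N.det = 1 := by
    rw [RingHom.map_det, hμN, Matrix.det_one]
  have hμy : ∀ b, μ (y b) = 0 := by
    intro b
    simp only [y, hμE, hμ, mul_one]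
    exact hτ b.1 b.2
  let x : A → ℝ ⊗[ℚ] ℝ := N.adjugate.mulVec y
  have hμx : ∀ a, μ (x a) = 0 := by
    intro a
    simp only [x, Matrix.mulVec, dotProduct, map_sum, map_mul, hμy, mul_zero,
      Finset.sum_const_zero]
  have hNx : ∀ b, ∑ a, N b a * x a = N.det * y b := by
    intro b
    have h : N.mulVec x = N.det • y := by
      simp only [x]
      rw [Matrix.mulVec_mulVec, Matrix.mul_adjugate, Matrix.smul_mulVec, Matrix.one_mulVec]
    exact congrFun h b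
  apply qspherical_of_coord (fun k l => N.det * (τ k l ⊗ₜ[ℚ] (1 : ℝ)) -
    ∑ a, x a * (M a k l ⊗ₜ[ℚ] (1 : ℝ)))
  · intro b hb
    have h1 : ∑ k, ∑ l, (hat b k ⊗ₜ[ℚ] hat b l : ℝ ⊗[ℚ] ℝ) *
        (N.det * (τ k l ⊗ₜ[ℚ] (1 : ℝ)) - ∑ a, x a * (M a k l ⊗ₜ[ℚ] (1 : ℝ))) =
        N.det * y ⟨b, hb⟩ - ∑ a, N ⟨b, hb⟩ a * x a := by
      simp only [mul_sub, Finset.sum_sub_distrib]
      congr 1
      · simp only [y, E, Finset.mul_sum]
        apply Finset.sum_congr rfl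
        intro k _
        apply Finset.sum_congr rfl
        intro l _
        rw [mul_left_comm]
      · simp only [N, E, Finset.mul_sum, Finset.sum_mul]
        rw [Finset.sum_comm' (t' := Finset.univ) (s' := fun _ => Finset.univ) (by simp)]
        rw [show (∑ l, ∑ k, ∑ a, (hat b k ⊗ₜ[ℚ] hat b l : ℝ ⊗[ℚ] ℝ) *
          (x a * (M a k l ⊗ₜ[ℚ] (1 : ℝ)))) = ∑ l, ∑ a, ∑ k,
          (hat b k ⊗ₜ[ℚ] hat b l : ℝ ⊗[ℚ] ℝ) * (x a * (M a k l ⊗ₜ[ℚ] (1 : ℝ))) from
          Finset.sum_congr rfl fun l _ => Finset.sum_comm]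
        rw [Finset.sum_comm]
        apply Finset.sum_congr rfl
        intro a _
        rw [Finset.sum_comm]
        apply Finset.sum_congr rfl
        intro k _
        apply Finset.sum_congr rfl
        intro l _
        ring
    rw [h1, hNx, sub_self]
  · intro i j
    show μ _ = _
    rw [map_sub, map_mul, hμdet, hμ, map_sum, one_mul, mul_one, hτ1]
    simp only [map_mul, hμx, zero_mul, Finset.sum_const_zero, sub_zero]

end Vale.Agent.P058.Alg
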