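import Vale.Agent.P058.Sym

set_option autoImplicit false

namespace Vale.Agent.P058

open Equiv

theorem exists_word_action {X : Type*} [Finite X] [Nonempty X] (G : Subgroup (Perm X))
    (htr : ∀ x y : X, ∃ g ∈ G, g x = y) :
    ∃ m, 1 ≤ m ∧ ∀ (Q : Type*) [Group Q] (ψ : X → Q), ∃ c : Q,
      PW {f | ∃ g ∈ G, f = fun x => ψ (g x)} m (fun _ => c) := by
  classical
  have : Fintype X := Fintype.ofFinite X
  have : Fintype G := Fintype.ofFinite G
  obtain ⟨x₀⟩ := ‹Nonempty X›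
  obtain ⟨m, c, hm, hc⟩ := exists_constant_word (ι := G)
    (fun x : Perm G => FreeGroup.of (((x 1 : G) : Perm X) x₀))
  choose y hyG hy using htr x₀
  have hpull := hc.pull (F' := {f | ∃ g ∈ G, f = fun x => FreeGroup.of (g x)})
    (fun z : X => Equiv.mulRight (⟨y z, hyG z⟩ : G)) (by
      rintro f ⟨k, rfl⟩
      refine ⟨((k 1 : G) : Perm X), (k 1).2, ?_⟩
      funext z
      simp [hy])
  refine ⟨m, hm, ?_⟩
  intro Q _ ψ
  refine ⟨FreeGroup.lift ψ c, ?_⟩
  exact hpull.push (FreeGroup.lift ψ) (by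
    rintro f ⟨g, hg, rfl⟩
    refine ⟨g, hg, ?_⟩
    funext x
    simp)

theorem exists_minimal_idempotent {S : Type*} [Semigroup S] [TopologicalSpace S] [CompactSpace S]
    [T2Space S] [Nonempty S] (hc : ∀ r : S, Continuous (· * r)) :
    ∃ e : S, e * e = e ∧ ∀ a : S, e * a = a → a * e = a →
      ∃ b : S, e * b = b ∧ b * e = b ∧ b * a = e := by
  let 𝓛 : Set (Set S) := {L | IsClosed L ∧ L.Nonempty ∧ ∀ s : S, ∀ x ∈ L, s * x ∈ L}
  obtain ⟨L, hL⟩ : ∃ L', Minimal (· ∈ 𝓛) L' := by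
    refine zorn_superset _ fun c hcs hch => ?_
    refine ⟨⋂₀ c, ⟨isClosed_sInter fun t ht => (hcs ht).1, ?_, fun s x hx => ?_⟩, fun s hs =>
      Set.sInter_subset_of_mem hs⟩
    · obtain rfl | hcnemp := c.eq_empty_or_nonempty
      · rw [Set.sInter_empty]
        apply Set.univ_nonempty
      convert!
        @IsCompact.nonempty_iInter_of_directed_nonempty_isCompact_isClosed _ _ _ hcnemp.coe_sort
          ((↑) : c → Set S) ?_ ?_ ?_ ?_
      · exact Set.sInter_eq_iInter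
      · refine DirectedOn.directed_val (IsChain.directedOn hch.symm)
      exacts [fun i => (hcs i.prop).2.1, fun i => (hcs i.prop).1.isCompact,
        fun i => (hcs i.prop).1]
    · rw [Set.mem_sInter]
      exact fun t ht => (hcs ht).2.2 s x (Set.mem_sInter.mp hx t ht)
  obtain ⟨hLc, hLne, hLs⟩ := hL.prop
  have hmin : ∀ v ∈ L, Set.range (· * v) = L := by
    intro v hv
    apply hL.eq_of_subset
    · refine ⟨?_, ⟨v * v, v, rfl⟩, ?_⟩
      · rw [← Set.image_univ]
        exact (isCompact_univ.image (hc v)).isClosed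
      · rintro s _ ⟨t, rfl⟩
        exact ⟨s * t, mul_assoc _ _ _⟩
    · rintro _ ⟨t, rfl⟩
      exact hLs t v hv
  obtain ⟨e, heL, hee⟩ := exists_idempotent_in_compact_subsemigroup hc L hLne hLc.isCompact
    (fun x _ y hy => hLs x y hy)
  refine ⟨e, hee, ?_⟩
  intro a hea hae
  have haL : a ∈ L := by
    rw [← hae]
    exact hLs a e heL
  have : e ∈ Set.range (· * a) := by
    rw [hmin a haL]
    exact heL
  obtain ⟨s, hs⟩ := this
  refine ⟨e * s * e, ?_, ?_, ?_⟩
  · rw [← mul_assoc, ← mul_assoc, hee]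
  · rw [mul_assoc, hee]
  · have hs' : s * a = e := hs
    rw [mul_assoc, hea, mul_assoc, hs', hee]

@[reducible]
noncomputable def localGroup {S : Type*} [Semigroup S] (e : S) (hee : e * e = e)
    (hinv : ∀ a : S, e * a = a → a * e = a → ∃ b : S, e * b = b ∧ b * e = b ∧ b * a = e) :
    Group {a : S // e * a = a ∧ a * e = a} :=
  letI : Mul {a : S // e * a = a ∧ a * e = a} :=
    ⟨fun a b => ⟨a.1 * b.1, by rw [← mul_assoc, a.2.1], by rw [mul_assoc, b.2.2]⟩⟩
  letI : One {a : S // e * a = a ∧ a * e = a} := ⟨⟨e, hee, hee⟩⟩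
  letI : Inv {a : S // e * a = a ∧ a * e = a} :=
    ⟨fun a => ⟨(hinv a.1 a.2.1 a.2.2).choose, (hinv a.1 a.2.1 a.2.2).choose_spec.1,
      (hinv a.1 a.2.1 a.2.2).choose_spec.2.1⟩⟩
  Group.ofLeftAxioms (fun a b c => Subtype.ext (mul_assoc _ _ _))
    (fun a => Subtype.ext a.2.1)
    (fun a => Subtype.ext (hinv a.1 a.2.1 a.2.2).choose_spec.2.2)

inductive RW {X : Type*} (K : Set (X → X)) : ℕ → (X → FreeMonoid X) → Prop
  | const (v : FreeMonoid X) : RW K 0 (fun _ => v)
  | col {k : X → X} (hk : k ∈ K) : RW K 1 (fun x => FreeMonoid.of (k x))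
  | mul {m n : ℕ} {u v : X → FreeMonoid X} (hu : RW K m u) (hv : RW K n v) :
      RW K (m + n) (fun x => u x * v x)

attribute [local instance] Ultrafilter.mul Ultrafilter.semigroup

theorem realize {X : Type*} [Finite X] (K : Set (X → X)) (e : Ultrafilter (FreeMonoid X))
    (u : X → Ultrafilter (FreeMonoid X)) (m : ℕ)
    (P : ℕ → (X → Ultrafilter (FreeMonoid X)) → Prop)
    (hP : P m u)
    (hind : ∀ (R : ℕ → (X → Ultrafilter (FreeMonoid X)) → Prop),
      (∀ c, R 0 (fun _ => c)) → (∀ k ∈ K, R 1 (fun x => e * pure (FreeMonoid.of (k x)) * e)) →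
      (∀ m n u v, R m u → R n v → R (m + n) (fun x => u x * v x)) → P m u → R m u) :
    ∀ A : X → Set (FreeMonoid X), (∀ x, A x ∈ u x) → ∃ w, RW K m w ∧ ∀ x, w x ∈ A x := by
  have hconst : ∀ (c : Ultrafilter (FreeMonoid X)) (A : X → Set (FreeMonoid X)),
      (∀ x, A x ∈ c) → ∃ v : FreeMonoid X, ∀ x, v ∈ A x := by
    intro c A hA
    have h1 : (⋂ x, A x) ∈ c := by
      have := (Filter.iInter_mem (f := (c : Filter (FreeMonoid X))) (s := A)).2 hA
      exact this
    obtain ⟨v, hv⟩ := c.nonempty_of_mem h1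
    exact ⟨v, fun x => Set.mem_iInter.1 hv x⟩
  refine hind (fun m u => ∀ A : X → Set (FreeMonoid X), (∀ x, A x ∈ u x) →
    ∃ w, RW K m w ∧ ∀ x, w x ∈ A x) ?_ ?_ ?_ hP
  · intro c A hA
    obtain ⟨v, hv⟩ := hconst c A hA
    exact ⟨fun _ => v, RW.const v, hv⟩
  · intro k hk A hA
    obtain ⟨v, hv⟩ := hconst e (fun x => {v | {t | {s | v * t * s ∈ A x} ∈ e} ∈
      (pure (FreeMonoid.of (k x)) : Ultrafilter (FreeMonoid X))}) (by
        intro x
        have h1 := hA x
        have h2 : ∀ᶠ z in (e * pure (FreeMonoid.of (k x)) * e : Ultrafilter (FreeMonoid X)),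
          z ∈ A x := h1
        rw [Ultrafilter.eventually_mul, Ultrafilter.eventually_mul] at h2
        exact h2)
    obtain ⟨v', hv'⟩ := hconst e (fun x => {s | v * FreeMonoid.of (k x) * s ∈ A x}) (by
        intro x
        exact hv x)
    refine ⟨fun x => v * FreeMonoid.of (k x) * v', ?_, hv'⟩
    exact RW.mul (RW.mul (RW.const v) (RW.col hk)) (RW.const v')
  · intro m n u v hu hv A hA
    obtain ⟨w1, hw1, hw1'⟩ := hu (fun x => {s | {t | s * t ∈ A x} ∈ v x}) (by
      intro x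
      have h2 : ∀ᶠ z in (u x * v x : Ultrafilter (FreeMonoid X)), z ∈ A x := hA x
      rw [Ultrafilter.eventually_mul] at h2
      exact h2)
    obtain ⟨w2, hw2, hw2'⟩ := hv (fun x => {t | w1 x * t ∈ A x}) hw1'
    exact ⟨fun x => w1 x * w2 x, RW.mul hw1 hw2, hw2'⟩

theorem exists_mono_word {X : Type*} [Finite X] [Nonempty X] (G : Subgroup (Perm X))
    (htr : ∀ x y : X, ∃ g ∈ G, g x = y) :
    ∃ m, 1 ≤ m ∧ ∀ (κ : Type*) [Finite κ] (χ : FreeMonoid X → κ),
      ∃ w : X → FreeMonoid X, RW {k | ∃ g ∈ G, k = fun x => g x} m w ∧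
        ∀ x y, χ (w x) = χ (w y) := by
  classical
  obtain ⟨m, hm, H⟩ := exists_word_action G htr
  refine ⟨m, hm, ?_⟩
  intro κ _ χ
  obtain ⟨e, hee, hinv⟩ := exists_minimal_idempotent
    (S := Ultrafilter (FreeMonoid X)) (fun r => Ultrafilter.continuous_mul_left r)
  let _ : Group {a : Ultrafilter (FreeMonoid X) // e * a = a ∧ a * e = a} :=
    localGroup e hee hinv
  obtain ⟨c, hc⟩ := H {a : Ultrafilter (FreeMonoid X) // e * a = a ∧ a * e = a}
    (fun x => ⟨e * pure (FreeMonoid.of x) * e, by rw [← mul_assoc, ← mul_assoc, hee],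
      by rw [mul_assoc, hee]⟩)
  obtain ⟨κ₀, hκ₀⟩ : ∃ κ₀ : κ, {w | χ w = κ₀} ∈ (c.1 : Ultrafilter (FreeMonoid X)) := by
    have h1 : (⋃ k : κ, {w | χ w = k}) ∈ (c.1 : Ultrafilter (FreeMonoid X)) := by
      have : (⋃ k : κ, {w | χ w = k}) = Set.univ := by
        ext w; simp
      rw [this]
      exact Filter.univ_mem
    have h2 := (Ultrafilter.finite_sUnion_mem_iff (f := c.1)
      (s := Set.range (fun k : κ => {w | χ w = k})) (Set.finite_range _)).1 (by
        rw [Set.sUnion_range]; exact h1)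
    obtain ⟨t, ⟨k, rfl⟩, ht⟩ := h2
    exact ⟨k, ht⟩
  obtain ⟨w, hw, hw'⟩ := realize {k | ∃ g ∈ G, k = fun x => g x} e (fun _ => c.1) m
    (fun m u => ∃ v : X → {a : Ultrafilter (FreeMonoid X) // e * a = a ∧ a * e = a},
      (∀ x, (v x).1 = u x) ∧ PW {f | ∃ g ∈ G, f = fun x =>
        (⟨e * pure (FreeMonoid.of (g x)) * e, by rw [← mul_assoc, ← mul_assoc, hee],
      by rw [mul_assoc, hee]⟩ : {a : Ultrafilter (FreeMonoid X) // e * a = a ∧ a * e = a})} m v)
    ⟨fun _ => c, fun _ => rfl, hc⟩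
    (by
      intro R h1 h2 h3 hP
      obtain ⟨v, hv, hv'⟩ := hP
      have hv2 : (fun _ => c.1) = fun x => (v x).1 := by
        funext x; exact (hv x).symm
      rw [hv2]
      clear hv hv2 hc hm H
      induction hv' with
      | const c => exact h1 _
      | col hf =>
        obtain ⟨g, hg, rfl⟩ := hf
        exact h2 _ ⟨g, hg, rfl⟩
      | mul _ _ ih1 ih2 => exact h3 _ _ _ _ ih1 ih2)
    (fun _ => {w | χ w = κ₀}) (fun _ => hκ₀)
  refine ⟨w, hw, ?_⟩
  intro x y
  have h1 : χ (w x) = κ₀ := hw' x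
  have h2 : χ (w y) = κ₀ := hw' y
  rw [h1, h2]

end Vale.Agent.P058
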