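import Vale.Agent.P058.SymWord
import Vale.Agent.P058.Ultra

set_option autoImplicit false

namespace Vale.Agent.P058

open Equiv

inductive RD {α : Type*} : (α → α → ℝ) → (α → FreeMonoid ℝ) → Prop
  | const (v : FreeMonoid ℝ) : RD (fun _ _ => 0) (fun _ => v)
  | col (g : α → ℝ) : RD (fun a b => (g a - g b) ^ 2) (fun a => FreeMonoid.of (g a))
  | mul {e e' : α → α → ℝ} {u v : α → FreeMonoid ℝ} (hu : RD e u) (hv : RD e' v) :
      RD (fun a b => e a b + e' a b) (fun a => u a * v a)

theorem RD.cast {α : Type*} {e e' : α → α → ℝ} {u v : α → FreeMonoid ℝ}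
    (h : RD e u) (he : ∀ a b, e a b = e' a b) (hu : ∀ a, u a = v a) : RD e' v := by
  have h1 : e = e' := by
    funext a b
    exact he a b
  have h2 : u = v := funext hu
  rw [← h1, ← h2]
  exact h

attribute [local instance] Ultrafilter.mul Ultrafilter.semigroup

theorem mem_const_aux {α : Type*} [Finite α] (c : Ultrafilter (FreeMonoid ℝ))
    (A : α → Set (FreeMonoid ℝ)) (hA : ∀ x, A x ∈ c) : ∃ v : FreeMonoid ℝ, ∀ x, v ∈ A x := by
  have h1 : (⋂ x, A x) ∈ c := by
    have := (Filter.iInter_mem (f := (c : Filter (FreeMonoid ℝ))) (s := A)).2 hA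
    exact this
  obtain ⟨v, hv⟩ := c.nonempty_of_mem h1
  exact ⟨v, fun x => Set.mem_iInter.1 hv x⟩

theorem realizeD {α : Type*} [Finite α] (e : Ultrafilter (FreeMonoid ℝ)) (hee : e * e = e)
    (hinv : ∀ a : Ultrafilter (FreeMonoid ℝ), e * a = a → a * e = a →
      ∃ b : Ultrafilter (FreeMonoid ℝ), e * b = b ∧ b * e = b ∧ b * a = e)
    (E : α → α → ℝ) (u : α → {a : Ultrafilter (FreeMonoid ℝ) // e * a = a ∧ a * e = a})
    (h : @PD α {a : Ultrafilter (FreeMonoid ℝ) // e * a = a ∧ a * e = a}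
      (localGroup e hee hinv)
      (fun x => ⟨e * pure (FreeMonoid.of x) * e, by rw [← mul_assoc, ← mul_assoc, hee],
        by rw [mul_assoc, hee]⟩) E u) :
    ∀ A : α → Set (FreeMonoid ℝ), (∀ a, A a ∈ (u a).1) →
      ∃ w, RD E w ∧ ∀ a, w a ∈ A a := by
  let _ : Group {a : Ultrafilter (FreeMonoid ℝ) // e * a = a ∧ a * e = a} :=
    localGroup e hee hinv
  induction h with
  | const c =>
    intro A hA
    obtain ⟨v, hv⟩ := mem_const_aux c.1 A hA
    exact ⟨fun _ => v, RD.const v, hv⟩
  | col g =>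
    intro A hA
    obtain ⟨v, hv⟩ := mem_const_aux e (fun x => {v | {t | {s | v * t * s ∈ A x} ∈ e} ∈
      (pure (FreeMonoid.of (g x)) : Ultrafilter (FreeMonoid ℝ))}) (by
        intro x
        have h1 := hA x
        have h2 : ∀ᶠ z in (e * pure (FreeMonoid.of (g x)) * e : Ultrafilter (FreeMonoid ℝ)),
          z ∈ A x := h1
        rw [Ultrafilter.eventually_mul, Ultrafilter.eventually_mul] at h2
        exact h2)
    obtain ⟨v', hv'⟩ := mem_const_aux e (fun x => {s | v * FreeMonoid.of (g x) * s ∈ A x}) (by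
        intro x
        exact hv x)
    refine ⟨fun x => v * FreeMonoid.of (g x) * v', ?_, hv'⟩
    exact (RD.mul (RD.mul (RD.const v) (RD.col g)) (RD.const v')).cast
      (fun a b => by ring) (fun a => rfl)
  | @mul e1 e2 u v _ _ hu hv =>
    intro A hA
    obtain ⟨w1, hw1, hw1'⟩ := hu (fun x => {s | {t | s * t ∈ A x} ∈ (v x).1}) (by
      intro x
      have h2 : ∀ᶠ z in ((u x).1 * (v x).1 : Ultrafilter (FreeMonoid ℝ)), z ∈ A x := hA x
      rw [Ultrafilter.eventually_mul] at h2
      exact h2)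
    obtain ⟨w2, hw2, hw2'⟩ := hv (fun x => {t | w1 x * t ∈ A x}) hw1'
    exact ⟨fun x => w1 x * w2 x, RD.mul hw1 hw2, hw2'⟩

theorem exists_colour {κ W : Type*} [Finite κ] (χ : W → κ) (c : Ultrafilter W) :
    ∃ k : κ, {w | χ w = k} ∈ c := by
  have h1 : (⋃ k : κ, {w | χ w = k}) ∈ c := by
    have : (⋃ k : κ, {w | χ w = k}) = Set.univ := by
      ext w; simp
    rw [this]
    exact Filter.univ_mem
  have h2 := (Ultrafilter.finite_sUnion_mem_iff (f := c)
    (s := Set.range (fun k : κ => {w | χ w = k})) (Set.finite_range _)).1 (by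
      rw [Set.sUnion_range]; exact h1)
  obtain ⟨t, ⟨k, rfl⟩, ht⟩ := h2
  exact ⟨k, ht⟩

theorem line_word {α J Q : Type*} [Group Q] (φ : ℝ → Q) (q : α → Q) (e : α → α → ℝ)
    (hq : PD φ e q) (l : Combinatorics.Line α J) [DecidablePred fun j => l.idxFun j = none]
    (L : List J) :
    PD φ (fun a b => ((L.filter (fun j => l.idxFun j = none)).length : ℝ) * e a b)
      (fun a => (L.map (fun j => q (l a j))).prod) := by
  induction L with
  | nil => exact (PD.const 1).cast (fun _ _ => by simp) (fun _ => by simp)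
  | cons j L ih =>
    by_cases hj : l.idxFun j = none
    · refine (PD.mul hq ih).cast (fun a b => ?_) (fun a => ?_)
      · rw [List.filter_cons_of_pos (by simpa using hj), List.length_cons]
        push_cast
        ring
      · rw [List.map_cons, List.prod_cons]
        congr 2
        rw [Combinatorics.Line.apply_none _ _ _ hj]
    · obtain ⟨b₀, hb₀⟩ := Option.ne_none_iff_exists'.1 hj
      refine (PD.mul (PD.const (q b₀)) ih).cast (fun a b => ?_) (fun a => ?_)
      · rw [List.filter_cons_of_neg (by simpa using hj)]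
        ring
      · rw [List.map_cons, List.prod_cons]
        congr 2
        simp [hb₀]

theorem exists_mono_family {α κ ι J : Type*} [Fintype α] [DecidableEq α] [Finite κ]
    [Fintype ι] [DecidableEq ι] [Nonempty ι] [Fintype J]
    (hJ : ∀ C : (J → α) → κ, ∃ l : Combinatorics.Line α J, l.IsMono C)
    (f : ℕ → ι → α → ℝ) (E : α → α → ℝ)
    (hf : ∀ s, 1 ≤ s → s ≤ Fintype.card J → ∀ a, ∃ σ : Perm ι, ∀ i, f s i a = f 1 (σ i) a)
    (hE : ∀ s, 1 ≤ s → s ≤ Fintype.card J → ∀ a b,
      (s : ℝ) * ∑ i, (f s i a - f s i b) ^ 2 = E a b) :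
    ∃ M : ℝ, 0 < M ∧ ∀ χ : FreeMonoid ℝ → κ, ∃ w : α → FreeMonoid ℝ,
      RD (fun a b => M * E a b) w ∧ ∀ a b, χ (w a) = χ (w b) := by
  classical
  obtain ⟨M, q, hM, hq⟩ := sym_word (f 1)
  refine ⟨M, hM, ?_⟩
  intro χ
  obtain ⟨e, hee, hinv⟩ := exists_minimal_idempotent
    (S := Ultrafilter (FreeMonoid ℝ)) (fun r => Ultrafilter.continuous_mul_left r)
  let _ : Group {a : Ultrafilter (FreeMonoid ℝ) // e * a = a ∧ a * e = a} :=
    localGroup e hee hinv
  let φ : ℝ → {a : Ultrafilter (FreeMonoid ℝ) // e * a = a ∧ a * e = a} :=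
    fun x => ⟨e * pure (FreeMonoid.of x) * e, by rw [← mul_assoc, ← mul_assoc, hee],
        by rw [mul_assoc, hee]⟩
  let qh : α → {a : Ultrafilter (FreeMonoid ℝ) // e * a = a ∧ a * e = a} :=
    fun a => FreeGroup.lift φ (q a)
  let P : (J → α) → {a : Ultrafilter (FreeMonoid ℝ) // e * a = a ∧ a * e = a} :=
    fun x => ((Finset.univ : Finset J).toList.map (fun j => qh (x j))).prod
  choose C hC using fun x : J → α => exists_colour χ (P x).1
  obtain ⟨l, k₀, hl⟩ := hJ C
  set s := ((Finset.univ : Finset J).toList.filter (fun j => l.idxFun j = none)).length with hs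
  have hs1 : 1 ≤ s := by
    obtain ⟨j, hj⟩ := l.proper
    rw [hs]
    apply List.length_pos_of_mem (a := j)
    rw [List.mem_filter]
    exact ⟨Finset.mem_toList.2 (Finset.mem_univ j), by simpa using hj⟩
  have hs2 : s ≤ Fintype.card J := by
    rw [hs]
    refine (List.length_filter_le _ _).trans ?_
    rw [Finset.length_toList, Finset.card_univ]
  have h1 : PD φ (fun a b => M * ∑ i, (f s i a - f s i b) ^ 2) qh := by
    have h0 := (hq (f s) (hf s hs1 hs2)).push (FreeGroup.lift φ)
    have e1 : (fun x => FreeGroup.lift φ (FreeGroup.of x)) = φ := by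
      funext x
      exact FreeGroup.lift_apply_of
    rw [e1] at h0
    exact h0
  have h2 := line_word φ qh _ h1 l (Finset.univ : Finset J).toList
  have h3 : PD φ (fun a b => M * E a b) (fun a => P (l a)) := by
    refine h2.cast (fun a b => ?_) (fun a => rfl)
    rw [← hE s hs1 hs2 a b]
    ring
  obtain ⟨w, hw, hw'⟩ := realizeD e hee hinv _ _ h3 (fun _ => {w | χ w = k₀}) (by
    intro a
    have := hC (l a)
    rw [hl a] at this
    exact this)
  refine ⟨w, hw, ?_⟩
  intro a b
  have h1 : χ (w a) = k₀ := hw' a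
  have h2 : χ (w b) = k₀ := hw' b
  rw [h1, h2]

end Vale.Agent.P058
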