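import Vale.Agent.P058.Quadrics

set_option autoImplicit false

namespace Vale.Agent.P058.Alg

open scoped TensorProduct

theorem linear_eq_sum {d : ℕ} (f : EuclideanSpace ℝ (Fin d) →ₗ[ℝ] ℝ)
    (x : EuclideanSpace ℝ (Fin d)) :
    f x = ∑ i, f (EuclideanSpace.single i 1) * x i := by
  have h : x = ∑ i, x i • EuclideanSpace.single i (1 : ℝ) := by
    ext j
    simp [Finset.sum_apply, Pi.single_apply]
  conv_lhs => rw [h]
  rw [map_sum]
  apply Finset.sum_congr rfl
  intro i _
  rw [map_smul, smul_eq_mul, mul_comm]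

theorem exists_affine_functional {d : ℕ} {S : Set (EuclideanSpace ℝ (Fin d))}
    {a : EuclideanSpace ℝ (Fin d)} (ha : a ∉ affineSpan ℝ S) :
    ∃ u : Option (Fin d) → ℝ, (∑ k, u k * hat a k ≠ 0) ∧ ∀ b ∈ S, ∑ k, u k * hat b k = 0 := by
  rcases S.eq_empty_or_nonempty with rfl | ⟨s₀, hs₀⟩
  · refine ⟨fun k => k.elim 1 fun _ => 0, ?_, fun b hb => absurd hb (Set.notMem_empty b)⟩
    rw [Fintype.sum_option]
    simp [hat]
  · have hv : a - s₀ ∉ vectorSpan ℝ S := by
      intro h
      apply ha
      rw [← direction_affineSpan] at h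
      have := AffineSubspace.vadd_mem_of_mem_direction h (subset_affineSpan ℝ S hs₀)
      simpa using this
    obtain ⟨f, hf, hker⟩ := Submodule.exists_le_ker_of_notMem hv
    refine ⟨fun k => k.elim (-f s₀) fun i => f (EuclideanSpace.single i 1), ?_, ?_⟩
    · rw [Fintype.sum_option]
      simp only [Option.elim, hat, mul_one]
      rw [← linear_eq_sum f a]
      rw [map_sub] at hf
      intro h
      apply hf
      linarith
    · intro b hb
      rw [Fintype.sum_option]
      simp only [Option.elim, hat, mul_one]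
      rw [← linear_eq_sum f b]
      have : f (b - s₀) = 0 := hker (vsub_mem_vectorSpan ℝ hb hs₀)
      rw [map_sub] at this
      linarith

theorem qspherical_of_two_cover {d : ℕ} (A : Set (EuclideanSpace ℝ (Fin d))) (hA : A.Finite)
    (hs : IsSpherical A)
    (hq : ∀ a ∈ A, ∃ S₁ S₂ : Set (EuclideanSpace ℝ (Fin d)), A \ {a} ⊆ S₁ ∪ S₂ ∧
      a ∉ affineSpan ℝ S₁ ∧ a ∉ affineSpan ℝ S₂) : QSpherical A := by
  apply qspherical_of_matrices A hA hs
  intro a ha
  obtain ⟨S₁, S₂, hcov, h1, h2⟩ := hq a ha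
  obtain ⟨u, hu, hu'⟩ := exists_affine_functional h1
  obtain ⟨v, hv, hv'⟩ := exists_affine_functional h2
  have key : ∀ b : EuclideanSpace ℝ (Fin d), ∀ c : ℝ,
      ∑ k, ∑ l, hat b k * hat b l * (c * (u k * v l)) =
        c * ((∑ k, u k * hat b k) * ∑ l, v l * hat b l) := by
    intro b c
    rw [Finset.sum_mul_sum, Finset.mul_sum]
    apply Finset.sum_congr rfl
    intro k _
    rw [Finset.mul_sum]
    apply Finset.sum_congr rfl
    intro l _
    ring
  refine ⟨fun k l => ((∑ k, u k * hat a k) * ∑ l, v l * hat a l)⁻¹ * (u k * v l), ?_, ?_⟩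
  · rw [key]
    exact inv_mul_cancel₀ (mul_ne_zero hu hv)
  · intro b hb hba
    rw [key]
    rcases hcov ⟨hb, hba⟩ with h | h
    · rw [hu' b h, zero_mul, mul_zero]
    · rw [hv' b h, mul_zero, mul_zero]

theorem qspherical_of_general_position {d : ℕ} (k : ℕ) (A : Set (EuclideanSpace ℝ (Fin d)))
    (hA : A.Finite) (hs : IsSpherical A)
    (hgp : ∀ s ⊆ A, s.ncard ≤ k + 1 → AffineIndependent ℝ (fun x : s => (x : EuclideanSpace ℝ (Fin d))))
    (hcard : A.ncard ≤ 2 * k + 1) : QSpherical A := by
  classical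
  apply qspherical_of_two_cover A hA hs
  intro a ha
  have hfin : (A \ {a}).Finite := hA.subset Set.sdiff_subset
  have hc : (A \ {a}).ncard ≤ 2 * k := by
    rw [Set.ncard_sdiff_singleton_of_mem ha]
    omega
  have hc' : hfin.toFinset.card ≤ 2 * k := by
    rwa [← Set.ncard_eq_toFinset_card _ hfin]
  obtain ⟨t, ht, htc⟩ := Finset.exists_subset_card_eq (s := hfin.toFinset)
    (n := min k hfin.toFinset.card) (min_le_right _ _)
  have hspan : ∀ S : Finset (EuclideanSpace ℝ (Fin d)), S ⊆ hfin.toFinset → S.card ≤ k →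
      a ∉ affineSpan ℝ (S : Set (EuclideanSpace ℝ (Fin d))) := by
    intro S hS hSk hmem
    have haS : a ∉ S := by
      intro h
      have := hS h
      rw [Set.Finite.mem_toFinset] at this
      exact this.2 rfl
    have hsub : (↑(insert a S) : Set (EuclideanSpace ℝ (Fin d))) ⊆ A := by
      intro x hx
      rw [Finset.coe_insert] at hx
      rcases hx with rfl | hx
      · exact ha
      · have := hS hx
        rw [Set.Finite.mem_toFinset] at this
        exact this.1
    have hind := hgp _ hsub (by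
      rw [Set.ncard_coe_finset, Finset.card_insert_of_notMem haS]
      omega)
    let a' : (↑(insert a S) : Set (EuclideanSpace ℝ (Fin d))) := ⟨a, by simp⟩
    have himg : (fun x : (↑(insert a S) : Set (EuclideanSpace ℝ (Fin d))) =>
        (x : EuclideanSpace ℝ (Fin d))) '' {x | (x : EuclideanSpace ℝ (Fin d)) ∈ S} =
        (S : Set (EuclideanSpace ℝ (Fin d))) := by
      ext y
      constructor
      · rintro ⟨x, hx, rfl⟩
        exact hx
      · intro hy
        exact ⟨⟨y, by rw [Finset.coe_insert]; exact Or.inr hy⟩, hy, rfl⟩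
    have h := (hind.mem_affineSpan_iff a' {x | (x : EuclideanSpace ℝ (Fin d)) ∈ S}).1 (by
      rw [himg]
      exact hmem)
    exact haS h
  refine ⟨t, ↑(hfin.toFinset \ t), ?_, ?_, ?_⟩
  · intro x hx
    by_cases hxt : x ∈ t
    · exact Or.inl hxt
    · right
      rw [Finset.mem_coe, Finset.mem_sdiff, Set.Finite.mem_toFinset]
      exact ⟨hx, hxt⟩
  · exact hspan t ht (by omega)
  · apply hspan _ Finset.sdiff_subset
    rw [Finset.card_sdiff_of_subset ht]
    omega

theorem IsSpherical.cospherical {d : ℕ} {A : Set (EuclideanSpace ℝ (Fin d))}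
    (hs : IsSpherical A) : EuclideanGeometry.Cospherical A := by
  obtain ⟨z, ρ, h⟩ := hs
  exact ⟨z, ρ, h⟩

theorem qspherical_of_ncard_le_five {d : ℕ} (A : Set (EuclideanSpace ℝ (Fin d)))
    (hA : A.Finite) (hcard : A.ncard ≤ 5) (hs : IsSpherical A) : QSpherical A := by
  classical
  apply qspherical_of_general_position 2 A hA hs _ (by omega)
  intro s hsA hsc
  have hsfin : s.Finite := hA.subset hsA
  have hcos := (IsSpherical.cospherical hs).subset hsA
  rcases Nat.lt_or_ge s.ncard 3 with h | h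
  · have h' : s.ncard = 0 ∨ s.ncard = 1 ∨ s.ncard = 2 := by omega
    rcases h' with h0 | h1 | h2
    · rw [Set.ncard_eq_zero hsfin] at h0
      subst h0
      exact affineIndependent_of_subsingleton ℝ _
    · rw [Set.ncard_eq_one] at h1
      obtain ⟨x, rfl⟩ := h1
      exact affineIndependent_of_subsingleton ℝ _
    · rw [Set.ncard_eq_two] at h2
      obtain ⟨x, y, hxy, rfl⟩ := h2
      have h3 : AffineIndependent ℝ ![x, y] := affineIndependent_of_ne ℝ hxy
      have h4 := h3.range
      have h5 : Set.range ![x, y] = {x, y} := by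
        simp only [Matrix.range_cons, Matrix.range_empty, Set.union_empty, Set.singleton_union]
      rwa [h5] at h4
  · have h3 : s.ncard = 3 := by omega
    rw [Set.ncard_eq_three] at h3
    obtain ⟨x, y, z, hxy, hxz, hyz, rfl⟩ := h3
    have h4 := (hcos.affineIndependent_of_ne hxy hxz hyz).range
    have h5 : Set.range ![x, y, z] = {x, y, z} := by
      simp only [Matrix.range_cons, Matrix.range_empty, Set.union_empty, Set.singleton_union]
    rwa [h5] at h4

theorem qspherical_of_ncard_le_finrank {d : ℕ} (A : Set (EuclideanSpace ℝ (Fin d)))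
    (hA : A.Finite) (hcard : A.ncard ≤ Module.finrank ℝ (vectorSpan ℝ A) + 2)
    (hs : IsSpherical A) : QSpherical A := by
  classical
  apply qspherical_of_two_cover A hA hs
  intro a ha
  by_cases hmem : a ∈ affineSpan ℝ (A \ {a})
  · have hfin : (A \ {a}).Finite := hA.subset Set.sdiff_subset
    have hspan : affineSpan ℝ (A \ {a}) = affineSpan ℝ A := by
      apply le_antisymm (affineSpan_mono ℝ Set.sdiff_subset)
      rw [affineSpan_le]
      intro x hx
      by_cases hxa : x = a
      · rw [hxa]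
        exact hmem
      · exact subset_affineSpan ℝ _ ⟨hx, hxa⟩
    have hdir : vectorSpan ℝ (A \ {a}) = vectorSpan ℝ A := by
      rw [← direction_affineSpan, hspan, direction_affineSpan]
    have hne : (A \ {a}).Nonempty := by
      rw [← affineSpan_nonempty ℝ]
      exact ⟨a, hmem⟩
    have hpos : 0 < (A \ {a}).ncard := (Set.ncard_pos hfin).2 hne
    have hft : Fintype ↥(A \ {a}) := hfin.fintype
    have hcd : Fintype.card ↥(A \ {a}) = (A \ {a}).ncard := by
      rw [← Nat.card_eq_fintype_card]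
      rfl
    have hind : AffineIndependent ℝ (fun x : ↥(A \ {a}) => (x : EuclideanSpace ℝ (Fin d))) := by
      rw [affineIndependent_iff_le_finrank_vectorSpan ℝ _ (n := (A \ {a}).ncard - 1)
        (by rw [hcd]; omega)]
      rw [Subtype.range_coe, hdir]
      have := Set.ncard_sdiff_singleton_of_mem ha
      omega
    have hex : ∃ s : Finset (EuclideanSpace ℝ (Fin d)), (s : Set (EuclideanSpace ℝ (Fin d))) ⊆ A \ {a} ∧
        a ∈ affineSpan ℝ (s : Set (EuclideanSpace ℝ (Fin d))) :=
      ⟨hfin.toFinset, by simp, by simpa using hmem⟩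
    obtain ⟨s, ⟨hsA, hsa⟩, hmin⟩ :
        ∃ s : Finset (EuclideanSpace ℝ (Fin d)), ((s : Set (EuclideanSpace ℝ (Fin d))) ⊆ A \ {a} ∧
        a ∈ affineSpan ℝ (s : Set (EuclideanSpace ℝ (Fin d)))) ∧
        ∀ b ∈ s, a ∉ affineSpan ℝ ((s.erase b : Finset _) : Set (EuclideanSpace ℝ (Fin d))) := by
      obtain ⟨s, hs1, hs2⟩ := exists_minimal_of_wellFoundedLT
        (fun s : Finset (EuclideanSpace ℝ (Fin d)) =>
          (s : Set (EuclideanSpace ℝ (Fin d))) ⊆ A \ {a} ∧
          a ∈ affineSpan ℝ (s : Set (EuclideanSpace ℝ (Fin d)))) hex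
      refine ⟨s, hs1, ?_⟩
      intro b hb hab
      have hle : s.erase b ≤ s := Finset.erase_subset b s
      have := hs2 ⟨(Finset.coe_subset.2 hle).trans hs1.1, hab⟩ hle
      exact Finset.notMem_erase b s (this hb)
    have hcard2 : 2 ≤ s.card := by
      by_contra hlt
      have : s.card = 0 ∨ s.card = 1 := by omega
      rcases this with h0 | h1
      · rw [Finset.card_eq_zero] at h0
        subst h0
        rw [Finset.coe_empty, AffineSubspace.span_empty] at hsa
        exact AffineSubspace.notMem_bot ℝ _ a hsa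
      · rw [Finset.card_eq_one] at h1
        obtain ⟨b, rfl⟩ := h1
        rw [Finset.coe_singleton, AffineSubspace.mem_affineSpan_singleton] at hsa
        have hb := hsA (Finset.mem_coe.2 (Finset.mem_singleton_self b))
        exact hb.2 hsa.symm
    obtain ⟨b, hb, c, hc, hbc⟩ := Finset.one_lt_card.1 (by omega : 1 < s.card)
    have himg : ∀ t : Set (EuclideanSpace ℝ (Fin d)), t ⊆ A \ {a} →
        (fun x : ↥(A \ {a}) => (x : EuclideanSpace ℝ (Fin d))) '' {x | (x : EuclideanSpace ℝ (Fin d)) ∈ t} = t := by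
      intro t ht
      ext y
      constructor
      · rintro ⟨x, hx, rfl⟩
        exact hx
      · intro hy
        exact ⟨⟨y, ht hy⟩, hy, rfl⟩
    have hout : ∀ b ∈ s, a ∉ affineSpan ℝ ((A \ {a}) \ {b}) := by
      intro b hb hab
      apply hmin b hb
      have h1 := hind.inf_affineSpan_eq_affineSpan_inter
        {x | (x : EuclideanSpace ℝ (Fin d)) ∈ (s : Set (EuclideanSpace ℝ (Fin d)))}
        {x | (x : EuclideanSpace ℝ (Fin d)) ∈ (A \ {a}) \ {b}}
      rw [himg _ hsA, himg _ Set.sdiff_subset] at h1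
      have h2 : a ∈ affineSpan ℝ (s : Set (EuclideanSpace ℝ (Fin d))) ⊓
          affineSpan ℝ ((A \ {a}) \ {b}) := ⟨hsa, hab⟩
      rw [h1] at h2
      refine affineSpan_mono ℝ ?_ h2
      rintro y ⟨x, ⟨hx1, hx2⟩, rfl⟩
      rw [Finset.coe_erase]
      exact ⟨hx1, hx2.2⟩
    refine ⟨(A \ {a}) \ {b}, (A \ {a}) \ {c}, ?_, hout b hb, hout c hc⟩
    intro x hx
    by_cases hxb : x = b
    · right
      exact ⟨hx, fun h => hbc (hxb.symm.trans h)⟩
    · exact Or.inl ⟨hx, hxb⟩
  · refine ⟨A \ {a}, ∅, Set.subset_union_left, hmem, ?_⟩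
    rw [AffineSubspace.span_empty]
    exact AffineSubspace.notMem_bot ℝ _ a

end Vale.Agent.P058.Alg
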