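import Vale.Agent.P058.Base

set_option autoImplicit false

namespace Vale.Agent.P058.SA

open scoped TensorProduct

section killed

variable {d : ℕ}

abbrev VV (d : ℕ) := ℝ × EuclideanSpace ℝ (Fin d)

theorem ev_add (a : EuclideanSpace ℝ (Fin d)) (u v : VV d) : ev a (u + v) = ev a u + ev a v := by
  simp only [ev, Prod.fst_add, Prod.snd_add, inner_add_left]
  ring

theorem ev_smul (a : EuclideanSpace ℝ (Fin d)) (c : ℝ) (v : VV d) :
    ev a (c • v) = c * ev a v := by
  simp only [ev, Prod.smul_fst, Prod.smul_snd, smul_eq_mul, real_inner_smul_left]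
  ring

theorem Dif_comp_ev (a : EuclideanSpace ℝ (Fin d)) (h : ℝ → ℝ) (v : VV d) :
    Dif v (fun w => h (ev a w)) = fun w => Dif (ev a v) h (ev a w) := by
  funext w
  simp only [Dif, ev_add]

theorem killed_of_comp_ev (a : EuclideanSpace ℝ (Fin d)) :
    ∀ (m : ℕ) (h : ℝ → ℝ), Killed m (fun w : VV d => h (ev a w)) → Killed m h
  | 0, h, hh => by
    have h1 : (fun w : VV d => h (ev a w)) = 0 := hh
    show h = 0
    funext x
    have := congrFun h1 (x, 0)
    simpa [ev] using this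
  | m + 1, h, hh => fun l => by
    apply killed_of_comp_ev a m
    have := hh (l, 0)
    rw [Dif_comp_ev] at this
    simpa [ev] using this

theorem exists_ev {a b : EuclideanSpace ℝ (Fin d)} (hab : a ≠ b) (l : ℝ) :
    ∃ v : VV d, ev b v = 0 ∧ ev a v = l := by
  have hne : ‖a - b‖ ^ 2 ≠ 0 := by
    have : ‖a - b‖ ≠ 0 := by rwa [norm_ne_zero_iff, sub_ne_zero]
    positivity
  refine ⟨(-(inner ℝ ((l / ‖a - b‖ ^ 2) • (a - b)) b), (l / ‖a - b‖ ^ 2) • (a - b)), ?_, ?_⟩
  · simp [ev]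
  · have h1 : ev a (-(inner ℝ ((l / ‖a - b‖ ^ 2) • (a - b)) b), (l / ‖a - b‖ ^ 2) • (a - b)) =
        (l / ‖a - b‖ ^ 2) * inner ℝ (a - b) (a - b) := by
      simp only [ev, real_inner_smul_left, inner_sub_right]
      ring
    rw [h1, real_inner_self_eq_norm_sq]
    exact div_mul_cancel₀ l hne

theorem killed_sum (m : ℕ) (S : Finset (EuclideanSpace ℝ (Fin d))) :
    ∀ (F : VV d → ℝ) (h : EuclideanSpace ℝ (Fin d) → ℝ → ℝ) (a : EuclideanSpace ℝ (Fin d)),
      a ∉ S → Killed m F → (∀ v, F v = ∑ b ∈ S, h b (ev b v) + h a (ev a v)) →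
      Killed (m + S.card) (h a) := by
  classical
  induction S using Finset.induction_on with
  | empty =>
    intro F h a _ hF hs
    apply killed_of_comp_ev a
    have : (fun w => h a (ev a w)) = F := by
      funext w
      rw [hs w]; simp
    rw [this]
    exact hF.mono (by simp)
  | insert b S hb ih =>
    intro F h a ha hF hs
    rw [Finset.card_insert_of_notMem hb, ← add_assoc]
    intro l
    have hab : a ≠ b := fun h' => ha (h' ▸ Finset.mem_insert_self _ _)
    obtain ⟨v, hv1, hv2⟩ := exists_ev hab l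
    have key := ih (Dif v F) (fun c => Dif (ev c v) (h c)) a
      (fun h' => ha (Finset.mem_insert_of_mem h')) (hF.dif v) (by
        intro w
        simp only [Dif, hs, ← ev_add]
        rw [Finset.sum_insert hb, Finset.sum_insert hb, ev_add b, hv1, add_zero,
          Finset.sum_sub_distrib]
        ring)
    rw [hv2] at key
    exact key

theorem descend (A : Finset (EuclideanSpace ℝ (Fin d))) (F : VV d → ℝ)
    (hF : ∀ v, F ((2 : ℝ) • v) = 4 * F v) :
    ∀ (n : ℕ), (∃ h : EuclideanSpace ℝ (Fin d) → ℝ → ℝ, (∀ a ∈ A, Killed (n + 3) (h a)) ∧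
      ∀ v, F v = ∑ a ∈ A, h a (ev a v)) →
      ∃ h : EuclideanSpace ℝ (Fin d) → ℝ → ℝ, (∀ a ∈ A, Killed 3 (h a)) ∧
        ∀ v, F v = ∑ a ∈ A, h a (ev a v)
  | 0, H => H
  | n + 1, ⟨h, hk, hs⟩ => by
    apply descend A F hF n
    have hne : (4 : ℝ) - 2 ^ (n + 3) ≠ 0 := by
      have h1 : (2 : ℝ) ^ 3 ≤ 2 ^ (n + 3) := pow_le_pow_right₀ (by norm_num) (by omega)
      norm_num at h1
      linarith
    refine ⟨fun a => ((4 : ℝ) - 2 ^ (n + 3))⁻¹ • (Dbl (h a) - (2 : ℝ) ^ (n + 3) • h a), ?_, ?_⟩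
    · intro a ha
      exact (Killed.dbl_sub (hk a ha)).smul _
    · intro v
      simp only [Pi.smul_apply, Pi.sub_apply, smul_eq_mul, Dbl]
      rw [← Finset.mul_sum, Finset.sum_sub_distrib, ← Finset.mul_sum, ← hs v]
      have h2 : ∑ a ∈ A, h a (ev a v + ev a v) = 4 * F v := by
        rw [← hF v, hs]
        refine Finset.sum_congr rfl fun a _ => ?_
        rw [ev_smul, two_mul]
      rw [h2]
      field_simp

end killed

section biadd

theorem killed_three_const {h : ℝ → ℝ} (hh : Killed 3 h) (x y l : ℝ) :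
    Dif x (Dif y h) l = Dif x (Dif y h) 0 := by
  have h1 : Dif l (Dif x (Dif y h)) = 0 := hh y x l
  have h2 := congrFun h1 0
  simp only [Pi.zero_apply] at h2
  have h3 : Dif x (Dif y h) (0 + l) - Dif x (Dif y h) 0 = 0 := h2
  rw [zero_add] at h3
  linarith

noncomputable def biad (h : ℝ → ℝ) (x y : ℝ) : ℝ := h (x + y) - h x - h y + h 0

theorem biad_eq (h : ℝ → ℝ) (x y : ℝ) : biad h x y = Dif x (Dif y h) 0 := by
  simp only [biad, Dif, zero_add]
  ring

theorem biad_comm (h : ℝ → ℝ) (x y : ℝ) : biad h x y = biad h y x := by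
  simp only [biad]
  rw [add_comm x y]
  ring

theorem biad_add_left {h : ℝ → ℝ} (hh : Killed 3 h) (x x' y : ℝ) :
    biad h (x + x') y = biad h x y + biad h x' y := by
  rw [biad_eq, biad_eq, biad_eq, ← killed_three_const hh x y x']
  simp only [Dif, zero_add]
  rw [add_comm x' x]
  ring

theorem biad_add_right {h : ℝ → ℝ} (hh : Killed 3 h) (x y y' : ℝ) :
    biad h x (y + y') = biad h x y + biad h x y' := by
  rw [biad_comm, biad_add_left hh, biad_comm h y, biad_comm h y']

noncomputable def biadL {h : ℝ → ℝ} (hh : Killed 3 h) : ℝ ⊗[ℚ] ℝ →ₗ[ℚ] ℝ :=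
  TensorProduct.lift (AddMonoidHom.toRatLinearMap
    { toFun := fun x => AddMonoidHom.toRatLinearMap
        { toFun := fun y => biad h x y
          map_zero' := by
            have := biad_add_right hh x 0 0
            simp only [add_zero] at this
            linarith
          map_add' := biad_add_right hh x }
      map_zero' := by
        ext y
        have := biad_add_left hh 0 0 y
        simp only [add_zero] at this
        show biad h 0 y = 0
        linarith
      map_add' := by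
        intro x x'
        ext y
        exact biad_add_left hh x x' y })

theorem biadL_apply {h : ℝ → ℝ} (hh : Killed 3 h) (x y : ℝ) :
    biadL hh (x ⊗ₜ y) = biad h x y := rfl

end biadd

section main

variable {d : ℕ}

def outer (x y : EuclideanSpace ℝ (Fin d)) : Matrix (Fin d) (Fin d) ℝ :=
  Matrix.of fun i j => x i * y j

theorem outer_add_left (x x' y : EuclideanSpace ℝ (Fin d)) :
    outer (x + x') y = outer x y + outer x' y := by
  ext i j; simp [outer, add_mul]

theorem outer_add_right (x y y' : EuclideanSpace ℝ (Fin d)) :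
    outer x (y + y') = outer x y + outer x y' := by
  ext i j; simp [outer, mul_add]

theorem outer_smul (c : ℝ) (x : EuclideanSpace ℝ (Fin d)) :
    outer (c • x) (c • x) = (c ^ 2) • outer x x := by
  ext i j; simp [outer]; ring

noncomputable def en : (VV d →₀ ℚ) →ₗ[ℚ] Matrix (Fin d) (Fin d) ℝ :=
  Finsupp.linearCombination ℚ fun v => outer v.2 v.2

theorem en_dil (c : ℝ) (ω : VV d →₀ ℚ) :
    en (ω.mapDomain (fun v => c • v)) = (c ^ 2) • en ω := by
  unfold en
  rw [Finsupp.linearCombination_mapDomain]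
  have h1 : ((fun v : VV d => outer v.2 v.2) ∘ fun v => c • v) =
      fun v : VV d => (c ^ 2) • outer v.2 v.2 := by
    funext v
    exact outer_smul c v.2
  rw [h1]
  have h2 := Finsupp.apply_linearCombination ℚ
    ((LinearMap.lsmul ℝ (Matrix (Fin d) (Fin d) ℝ) (c ^ 2)).restrictScalars ℚ)
    (fun v : VV d => outer v.2 v.2) ω
  exact h2.symm

noncomputable def ZZ (A : Finset (EuclideanSpace ℝ (Fin d))) : Submodule ℚ (VV d →₀ ℚ) :=
  ⨅ a : A, LinearMap.ker (Finsupp.lmapDomain ℚ ℚ (ev (a : EuclideanSpace ℝ (Fin d))))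

theorem mem_ZZ {A : Finset (EuclideanSpace ℝ (Fin d))} {ω : VV d →₀ ℚ} :
    ω ∈ ZZ A ↔ ∀ a ∈ A, ω.mapDomain (ev a) = 0 := by
  simp only [ZZ, Submodule.mem_iInf, LinearMap.mem_ker, Finsupp.lmapDomain_apply, Subtype.forall]

theorem dil_ZZ {A : Finset (EuclideanSpace ℝ (Fin d))} {ω : VV d →₀ ℚ} (h : ω ∈ ZZ A) (c : ℝ) :
    ω.mapDomain (fun v => c • v) ∈ ZZ A := by
  rw [mem_ZZ] at h ⊢
  intro a ha
  rw [← Finsupp.mapDomain_comp]
  have h1 : (ev a ∘ fun v : VV d => c • v) = (fun r => c * r) ∘ ev a := by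
    funext v
    exact ev_smul a c v
  rw [h1, Finsupp.mapDomain_comp, h a ha, Finsupp.mapDomain_zero]

noncomputable def enR (A : Finset (EuclideanSpace ℝ (Fin d))) :
    Submodule ℝ (Matrix (Fin d) (Fin d) ℝ) where
  carrier := {X | ∃ ω ∈ ZZ A, en ω = X}
  zero_mem' := ⟨0, Submodule.zero_mem _, map_zero _⟩
  add_mem' := by
    rintro _ _ ⟨ω, hω, rfl⟩ ⟨ω', hω', rfl⟩
    exact ⟨ω + ω', Submodule.add_mem _ hω hω', map_add _ _ _⟩
  smul_mem' := by
    rintro c _ ⟨ω, hω, rfl⟩
    rcases le_total 0 c with hc | hc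
    · refine ⟨_, dil_ZZ hω (Real.sqrt c), ?_⟩
      rw [en_dil, Real.sq_sqrt hc]
    · refine ⟨_, Submodule.neg_mem _ (dil_ZZ hω (Real.sqrt (-c))), ?_⟩
      rw [map_neg, en_dil, Real.sq_sqrt (by linarith), neg_smul, neg_neg]

theorem exists_split (A : Finset (EuclideanSpace ℝ (Fin d))) (f : (VV d →₀ ℚ) →ₗ[ℚ] ℝ)
    (hf : ∀ ω ∈ ZZ A, f ω = 0) :
    ∃ h : EuclideanSpace ℝ (Fin d) → ℝ → ℝ, ∀ v : VV d,
      f (Finsupp.single v 1) = ∑ a ∈ A, h a (ev a v) := by
  classical
  let P : (VV d →₀ ℚ) →ₗ[ℚ] (A → (ℝ →₀ ℚ)) :=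
    LinearMap.pi fun a => Finsupp.lmapDomain ℚ ℚ (ev (a : EuclideanSpace ℝ (Fin d)))
  have hker : LinearMap.ker P ≤ LinearMap.ker f := by
    intro ω hω
    rw [LinearMap.mem_ker] at hω ⊢
    apply hf
    rw [mem_ZZ]
    intro a ha
    exact congrFun hω ⟨a, ha⟩
  obtain ⟨g, hg⟩ : ∃ g : (A → (ℝ →₀ ℚ)) →ₗ[ℚ] ℝ, g.comp P = f := by
    let g0 : LinearMap.range P →ₗ[ℚ] ℝ :=
      ((LinearMap.ker P).liftQ f hker).comp P.quotKerEquivRange.symm.toLinearMap
    obtain ⟨g, hg⟩ := g0.exists_extend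
    refine ⟨g, LinearMap.ext fun ω => ?_⟩
    have h1 : g (P ω) = g0 ⟨P ω, ω, rfl⟩ := by
      rw [← hg]; rfl
    rw [LinearMap.comp_apply, h1]
    show (LinearMap.ker P).liftQ f hker (P.quotKerEquivRange.symm ⟨P ω, ω, rfl⟩) = f ω
    have h2 : P.quotKerEquivRange.symm ⟨P ω, ω, rfl⟩ = Submodule.Quotient.mk ω := by
      rw [LinearEquiv.symm_apply_eq]
      rfl
    rw [h2]
    rfl
  refine ⟨fun a r => if ha : a ∈ A then g (Pi.single ⟨a, ha⟩ (Finsupp.single r 1)) else 0, ?_⟩
  intro v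
  rw [← hg, LinearMap.comp_apply]
  have h1 : P (Finsupp.single v 1) = ∑ a : A, Pi.single a (Finsupp.single (ev (a : _) v) 1) := by
    funext a
    rw [Finset.sum_apply, Finset.sum_eq_single a]
    · simp [P]
    · intro b _ hb
      rw [Pi.single_eq_of_ne (Ne.symm hb)]
    · simp
  rw [h1, map_sum, ← Finset.sum_coe_sort A]
  refine Finset.sum_congr rfl fun a _ => ?_
  simp

theorem stepA_rat (A : Finset (EuclideanSpace ℝ (Fin d)))
    (h : QSpherical (A : Set (EuclideanSpace ℝ (Fin d)))) :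
    ∃ ω ∈ ZZ A, en ω = 1 := by
  classical
  obtain ⟨N, s, t, p, q, h1, h2⟩ := h
  by_contra hno
  have hnot : (1 : Matrix (Fin d) (Fin d) ℝ) ∉ enR A := fun hmem => hno hmem
  obtain ⟨Q, hQ1, hQ⟩ := Submodule.exists_le_ker_of_notMem hnot
  let f : (VV d →₀ ℚ) →ₗ[ℚ] ℝ := (Q.restrictScalars ℚ).comp en
  have hf : ∀ ω ∈ ZZ A, f ω = 0 := fun ω hω => hQ ⟨ω, hω, rfl⟩
  obtain ⟨h0, hh0⟩ := exists_split A f hf
  let F : VV d → ℝ := fun v => Q (outer v.2 v.2)
  have hfF : ∀ v, f (Finsupp.single v 1) = F v := by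
    intro v
    show Q (en (Finsupp.single v 1)) = _
    simp [en, F]
  have hFs : ∀ v, F v = ∑ a ∈ A, h0 a (ev a v) := fun v => by rw [← hfF, hh0]
  have hF3 : Killed 3 F := by
    intro l l' l''
    show Dif l'' (Dif l' (Dif l F)) = 0
    funext x
    simp only [Dif, F, Prod.snd_add, outer_add_left, outer_add_right, map_add, Pi.zero_apply]
    ring
  have hF4 : ∀ v, F ((2 : ℝ) • v) = 4 * F v := by
    intro v
    show Q (outer ((2 : ℝ) • v.2) ((2 : ℝ) • v.2)) = _
    rw [outer_smul, map_smul, smul_eq_mul]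
    norm_num
    rfl
  have hk : ∀ a ∈ A, Killed (A.card + 3) (h0 a) := by
    intro a ha
    have := killed_sum 3 (A.erase a) F h0 a (Finset.notMem_erase a A) hF3 (by
      intro v
      rw [hFs, Finset.sum_erase_add _ _ ha])
    refine this.mono ?_
    rw [Finset.card_erase_of_mem ha]
    omega
  obtain ⟨h3, hk3, hs3⟩ := descend A F hF4 A.card ⟨h0, hk, hFs⟩
  have hbi : ∀ u v : VV d, ∑ a ∈ A, biad (h3 a) (ev a u) (ev a v) =
      Q (outer u.2 v.2) + Q (outer v.2 u.2) := by
    intro u v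
    simp only [biad, Finset.sum_add_distrib, Finset.sum_sub_distrib, ← ev_add]
    rw [← hs3, ← hs3, ← hs3]
    have e0 : ∑ a ∈ A, h3 a 0 = F 0 := by
      rw [hs3]
      refine Finset.sum_congr rfl fun a _ => ?_
      congr 1
      simp [ev]
    rw [e0]
    simp only [F, Prod.snd_add, outer_add_left, outer_add_right, map_add, Prod.snd_zero]
    have e1 : outer (0 : EuclideanSpace ℝ (Fin d)) 0 = 0 := by ext i j; simp [outer]
    rw [e1, map_zero]
    ring
  have hzero : ∀ a ∈ A, ∑ i, biad (h3 a) (ev a (s i, p i)) (ev a (t i, q i)) = 0 := by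
    intro a ha
    have e1 := congrArg (biadL (hk3 a ha)) (h1 a ha)
    rw [map_sum, map_zero] at e1
    exact e1
  have htot : ∑ i, (Q (outer (p i) (q i)) + Q (outer (q i) (p i))) = 0 := by
    have e1 : ∑ i, ∑ a ∈ A, biad (h3 a) (ev a (s i, p i)) (ev a (t i, q i)) = 0 := by
      rw [Finset.sum_comm]
      exact Finset.sum_eq_zero hzero
    rw [← e1]
    exact Finset.sum_congr rfl fun i _ => (hbi (s i, p i) (t i, q i)).symm
  have hmat : ∑ i, outer (p i) (q i) = 1 := by
    ext j k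
    have e1 := h2 (EuclideanSpace.single j 1) (EuclideanSpace.single k 1)
    simp only [EuclideanSpace.inner_single_right] at e1
    rw [Matrix.sum_apply]
    simp only [outer, Matrix.of_apply]
    simp only [one_mul, conj_trivial] at e1
    rw [e1]
    by_cases hjk : j = k
    · subst hjk; simp
    · simp [hjk, Ne.symm hjk]
  have hmat2 : ∑ i, outer (q i) (p i) = 1 := by
    have e1 : ∀ i, outer (q i) (p i) = (outer (p i) (q i)).transpose := by
      intro i; ext j k; simp [outer, mul_comm]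
    simp only [e1]
    rw [← Matrix.transpose_sum, hmat, Matrix.transpose_one]
  rw [Finset.sum_add_distrib, ← map_sum, ← map_sum, hmat, hmat2] at htot
  apply hQ1
  linarith

theorem stepA (A : Finset (EuclideanSpace ℝ (Fin d)))
    (h : QSpherical (A : Set (EuclideanSpace ℝ (Fin d)))) :
    ∃ (ω : (ℝ × EuclideanSpace ℝ (Fin d)) →₀ ℤ) (n : ℕ), IntCombo A ω n := by
  classical
  obtain ⟨ω, hω, hen⟩ := stepA_rat A h
  rw [mem_ZZ] at hω
  let D : ℕ := ∏ v ∈ ω.support, (ω v).den
  have hD : 1 ≤ D := Nat.one_le_iff_ne_zero.mpr (Finset.prod_ne_zero_iff.mpr fun v _ => (ω v).den_nz)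
  have hint : ∀ v, ∃ z : ℤ, (z : ℚ) = D * ω v := by
    intro v
    by_cases hv : v ∈ ω.support
    · obtain ⟨c, hc⟩ := Finset.dvd_prod_of_mem (fun v => (ω v).den) hv
      refine ⟨c * (ω v).num, ?_⟩
      have h1 : (ω v) * (ω v).den = (ω v).num := Rat.mul_den_eq_num _
      have h2 : (D : ℚ) = (ω v).den * c := by
        show ((∏ v ∈ ω.support, (ω v).den : ℕ) : ℚ) = _
        rw [hc]; push_cast; rfl
      rw [h2]
      push_cast
      rw [← h1]; ring
    · refine ⟨0, ?_⟩
      rw [Finsupp.notMem_support_iff.mp hv]; simp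
  choose z hz using hint
  have hz0 : ∀ v, z v ≠ 0 → v ∈ ω.support := by
    intro v hv
    rw [Finsupp.mem_support_iff]
    intro h0
    apply hv
    have := hz v
    rw [h0, mul_zero] at this
    exact_mod_cast this
  let ω' : (VV d) →₀ ℤ := Finsupp.onFinset ω.support z hz0
  have hcast : ω'.mapRange (fun n : ℤ => (n : ℚ)) (by simp) = (D : ℚ) • ω := by
    ext v
    simp [ω', hz]
  refine ⟨ω', D, hD, ?_, ?_⟩
  · intro a ha
    have e1 : (ω'.mapDomain (ev a)).mapRange (fun n : ℤ => (n : ℚ)) (by simp) = 0 := by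
      have e2 : (ω'.mapDomain (ev a)).mapRange (fun n : ℤ => (n : ℚ)) (by simp) =
          (ω'.mapRange (fun n : ℤ => (n : ℚ)) (by simp)).mapDomain (ev a) :=
        (Finsupp.mapDomain_mapRange (ev a) ω' (fun n : ℤ => (n : ℚ)) (by simp)
          (by intro x y; push_cast; rfl)).symm
      rw [e2, hcast, Finsupp.mapDomain_smul, hω a ha, smul_zero]
    ext r
    have e3 := DFunLike.congr_fun e1 r
    simpa using e3
  · intro x
    have e1 : (ω'.sum fun v c => (c : ℝ) * inner ℝ v.2 x ^ 2) =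
        ∑ v ∈ ω.support, (D : ℝ) * ((ω v : ℝ) * inner ℝ v.2 x ^ 2) := by
      rw [Finsupp.sum_of_support_subset ω' (s := ω.support) Finsupp.support_onFinset_subset]
      · refine Finset.sum_congr rfl fun v _ => ?_
        have e2 : ((z v : ℤ) : ℝ) = D * (ω v : ℝ) := by
          have := congrArg (fun q : ℚ => (q : ℝ)) (hz v)
          push_cast at this
          exact this
        show ((z v : ℤ) : ℝ) * _ = _
        rw [e2]; ring
      · intro v _; simp
    rw [e1, ← Finset.mul_sum]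
    congr 1
    have e3 : ∀ i j, ∑ v ∈ ω.support, (ω v : ℝ) * (v.2 i * v.2 j) = (1 : Matrix (Fin d) (Fin d) ℝ) i j := by
      intro i j
      rw [← hen]
      unfold en
      rw [Finsupp.linearCombination_apply, Finsupp.sum, Matrix.sum_apply]
      refine Finset.sum_congr rfl fun v _ => ?_
      rw [Matrix.smul_apply, Rat.smul_def]
      rfl
    have e4 : ∀ v : VV d, inner ℝ v.2 x ^ 2 = ∑ i, ∑ j, (v.2 i * v.2 j) * (x i * x j) := by
      intro v
      rw [PiLp.inner_apply, sq, Finset.sum_mul_sum]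
      refine Finset.sum_congr rfl fun i _ => Finset.sum_congr rfl fun j _ => ?_
      simp
      ring
    have e5 : ∑ v ∈ ω.support, (ω v : ℝ) * inner ℝ v.2 x ^ 2 =
        ∑ i, ∑ j, (∑ v ∈ ω.support, (ω v : ℝ) * (v.2 i * v.2 j)) * (x i * x j) := by
      simp only [e4, Finset.mul_sum, Finset.sum_mul]
      rw [Finset.sum_comm]
      refine Finset.sum_congr rfl fun i _ => ?_
      rw [Finset.sum_comm]
      refine Finset.sum_congr rfl fun j _ => Finset.sum_congr rfl fun v _ => ?_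
      ring
    rw [e5]
    simp only [e3]
    rw [EuclideanSpace.norm_sq_eq]
    refine Finset.sum_congr rfl fun i _ => ?_
    rw [Finset.sum_eq_single i]
    · rw [Matrix.one_apply_eq, one_mul, Real.norm_eq_abs, sq_abs, sq]
    · intro j _ hj
      rw [Matrix.one_apply_ne (Ne.symm hj), zero_mul]
    · simp

end main

end Vale.Agent.P058.SA
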