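import Vale.Agent.P058.Growth
import Vale.Agent.P058.AbsHB

set_option autoImplicit false

namespace Vale.Agent.P058.SB

variable {d : ℕ}

abbrev VV (d : ℕ) : Type := ℝ × EuclideanSpace ℝ (Fin d)

abbrev WW (d : ℕ) : Type := VV d →₀ ℝ

noncomputable def gg (w : WW d) : ℝ := w.sum (fun v c => max (-c) 0 * ‖v.2‖ ^ 2)

noncomputable def GG (w : WW d) : ℝ := w.sum (fun v c => |c| * ‖v.2‖ ^ 2)

theorem gg_eq (w : WW d) (S : Finset (VV d)) (hS : w.support ⊆ S) :
    gg w = ∑ v ∈ S, max (-w v) 0 * ‖v.2‖ ^ 2 :=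
  Finsupp.sum_of_support_subset w hS _ (by simp)

theorem GG_eq (w : WW d) (S : Finset (VV d)) (hS : w.support ⊆ S) :
    GG w = ∑ v ∈ S, |w v| * ‖v.2‖ ^ 2 :=
  Finsupp.sum_of_support_subset w hS _ (by simp)

theorem gg_nonneg (w : WW d) : 0 ≤ gg w :=
  Finset.sum_nonneg fun _ _ => mul_nonneg (le_max_right _ _) (sq_nonneg _)

theorem GG_nonneg (w : WW d) : 0 ≤ GG w :=
  Finset.sum_nonneg fun _ _ => mul_nonneg (abs_nonneg _) (sq_nonneg _)

theorem gg_add (w w' : WW d) : gg (w + w') ≤ gg w + gg w' := by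
  classical
  rw [gg_eq (w + w') (w.support ∪ w'.support) Finsupp.support_add,
    gg_eq w (w.support ∪ w'.support) Finset.subset_union_left,
    gg_eq w' (w.support ∪ w'.support) Finset.subset_union_right, ← Finset.sum_add_distrib]
  apply Finset.sum_le_sum
  intro v _
  rw [← add_mul]
  apply mul_le_mul_of_nonneg_right _ (sq_nonneg _)
  rw [Finsupp.add_apply]
  apply max_le
  · have h1 := le_max_left (-w v) 0
    have h2 := le_max_left (-w' v) 0
    linarith
  · have h1 := le_max_right (-w v) 0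
    have h2 := le_max_right (-w' v) 0
    linarith

theorem GG_add (w w' : WW d) : GG (w + w') ≤ GG w + GG w' := by
  classical
  rw [GG_eq (w + w') (w.support ∪ w'.support) Finsupp.support_add,
    GG_eq w (w.support ∪ w'.support) Finset.subset_union_left,
    GG_eq w' (w.support ∪ w'.support) Finset.subset_union_right, ← Finset.sum_add_distrib]
  apply Finset.sum_le_sum
  intro v _
  rw [← add_mul]
  apply mul_le_mul_of_nonneg_right _ (sq_nonneg _)
  rw [Finsupp.add_apply]
  exact abs_add_le _ _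

theorem gg_smul (c : ℝ) (hc : 0 ≤ c) (w : WW d) : gg (c • w) = c * gg w := by
  rw [gg_eq (c • w) w.support Finsupp.support_smul, gg_eq w w.support subset_rfl, Finset.mul_sum]
  apply Finset.sum_congr rfl
  intro v _
  rw [Finsupp.smul_apply, smul_eq_mul, ← mul_assoc]
  congr 1
  rw [← mul_neg, mul_max_of_nonneg _ _ hc, mul_zero]

theorem GG_smul (c : ℝ) (w : WW d) : GG (c • w) = |c| * GG w := by
  rw [GG_eq (c • w) w.support Finsupp.support_smul, GG_eq w w.support subset_rfl, Finset.mul_sum]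
  apply Finset.sum_congr rfl
  intro v _
  rw [Finsupp.smul_apply, smul_eq_mul, abs_mul, mul_assoc]

theorem gg_le_GG (w : WW d) : gg w ≤ GG w := by
  apply Finset.sum_le_sum
  intro v _
  apply mul_le_mul_of_nonneg_right _ (sq_nonneg _)
  exact max_le (neg_le_abs _) (abs_nonneg _)

theorem GG_neg (w : WW d) : GG (-w) = GG w := by
  have := GG_smul (-1) w
  rw [neg_smul, one_smul, abs_neg, abs_one, one_mul] at this
  exact this

def shf (t : ℝ) (v : VV d) : VV d := (v.1 + t, v.2)

theorem shf_injective (t : ℝ) : Function.Injective (shf (d := d) t) := by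
  intro u v h
  obtain ⟨h1, h2⟩ := Prod.mk.inj h
  exact Prod.ext (add_right_cancel h1) h2

noncomputable def sh (t : ℝ) : WW d →ₗ[ℝ] WW d := Finsupp.lmapDomain ℝ ℝ (shf t)

theorem sh_single (t : ℝ) (v : VV d) (c : ℝ) :
    sh t (Finsupp.single v c) = Finsupp.single (shf t v) c :=
  Finsupp.mapDomain_single

theorem sh_sh (s t : ℝ) (w : WW d) : sh s (sh t w) = sh (t + s) w := by
  show Finsupp.mapDomain _ (Finsupp.mapDomain _ w) = Finsupp.mapDomain _ w
  rw [← Finsupp.mapDomain_comp]
  congr 1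
  funext v
  simp [shf, add_assoc]

theorem sh_zero (w : WW d) : sh 0 w = w := by
  show Finsupp.mapDomain _ w = w
  have : shf (d := d) 0 = id := by
    funext v
    simp [shf]
  rw [this, Finsupp.mapDomain_id]

theorem gg_sh (t : ℝ) (w : WW d) : gg (sh t w) = gg w :=
  Finsupp.sum_mapDomain_index_inj (shf_injective t)

theorem GG_sh (t : ℝ) (w : WW d) : GG (sh t w) = GG w :=
  Finsupp.sum_mapDomain_index_inj (shf_injective t)

noncomputable def av : List ℝ → WW d → WW d
  | [], _ => 0
  | t :: T, w => sh t w + av T w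

theorem av_add : ∀ (T : List ℝ) (w w' : WW d), av T (w + w') = av T w + av T w'
  | [], _, _ => (add_zero _).symm
  | t :: T, w, w' => by
    simp only [av, map_add, av_add T]
    abel

theorem av_smul : ∀ (T : List ℝ) (c : ℝ) (w : WW d), av T (c • w) = c • av T w
  | [], _, _ => (smul_zero _).symm
  | t :: T, c, w => by
    simp only [av, map_smul, av_smul T, smul_add]

theorem av_zero (T : List ℝ) : av T (0 : WW d) = 0 := by
  have := av_smul T 0 (0 : WW d)
  simpa using this

theorem sh_av : ∀ (T : List ℝ) (s : ℝ) (w : WW d), sh s (av T w) = av T (sh s w)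
  | [], s, w => map_zero _
  | t :: T, s, w => by
    simp only [av, map_add, sh_sh, sh_av T]
    rw [add_comm t s]

theorem av_comm : ∀ (T T' : List ℝ) (w : WW d), av T (av T' w) = av T' (av T w)
  | [], T', w => by
    simp only [av]
    rw [av_zero]
  | t :: T, T', w => by
    simp only [av]
    rw [av_add, sh_av, av_comm T T' w]

theorem gg_av : ∀ (T : List ℝ) (w : WW d), gg (av T w) ≤ T.length * gg w
  | [], w => by simp [av, gg]
  | t :: T, w => by
    have h1 := gg_add (sh t w) (av T w)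
    have h2 := gg_av T w
    rw [gg_sh] at h1
    simp only [av, List.length_cons]
    push_cast
    linarith

theorem GG_av : ∀ (T : List ℝ) (w : WW d), GG (av T w) ≤ T.length * GG w
  | [], w => by simp [av, GG]
  | t :: T, w => by
    have h1 := GG_add (sh t w) (av T w)
    have h2 := GG_av T w
    rw [GG_sh] at h1
    simp only [av, List.length_cons]
    push_cast
    linarith

theorem av_append : ∀ (T T' : List ℝ) (w : WW d), av (T ++ T') w = av T w + av T' w
  | [], T', w => by simp [av]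
  | t :: T, T', w => by
    simp only [List.cons_append, av]
    rw [av_append T T' w, add_assoc]

theorem av_map_add : ∀ (T : List ℝ) (s : ℝ) (w : WW d), av (T.map (fun t => t + s)) w = sh s (av T w)
  | [], s, w => (map_zero _).symm
  | t :: T, s, w => by
    simp only [List.map_cons, av, map_add, sh_sh]
    rw [av_map_add T s w]

def pr : List ℝ → List ℝ → List ℝ
  | [], _ => []
  | t :: T, T' => T'.map (fun x => x + t) ++ pr T T'

theorem pr_length : ∀ T T' : List ℝ, (pr T T').length = T.length * T'.length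
  | [], T' => by simp [pr]
  | t :: T, T' => by
    simp only [pr, List.length_append, List.length_map, List.length_cons, pr_length T T']
    ring

theorem av_pr : ∀ (T T' : List ℝ) (w : WW d), av (pr T T') w = av T (av T' w)
  | [], T', w => rfl
  | t :: T, T', w => by
    simp only [pr, av]
    rw [av_append, av_map_add, av_pr T T' w]

noncomputable def nL (t : ℝ) : ℕ → List ℝ
  | 0 => []
  | n + 1 => (n * t) :: nL t n

theorem nL_length (t : ℝ) : ∀ n, (nL t n).length = n
  | 0 => rfl
  | n + 1 => by simp [nL, nL_length t n]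

theorem av_nL (t : ℝ) (w : WW d) : ∀ n : ℕ, av (nL t n) (sh t w - w) = sh (n * t) w - w
  | 0 => by simp [nL, av, sh_zero]
  | n + 1 => by
    simp only [nL, av]
    rw [av_nL t w n, map_sub, sh_sh]
    have : t + n * t = ((n + 1 : ℕ) : ℝ) * t := by
      push_cast
      ring
    rw [this]
    abel

noncomputable def intW : (VV d →₀ ℤ) →+ WW d := Finsupp.mapRange.addMonoidHom (Int.castAddHom ℝ)

theorem intW_apply (ω : VV d →₀ ℤ) (v : VV d) : intW ω v = (ω v : ℝ) := by
  simp [intW]

theorem intW_single (v : VV d) (n : ℤ) : intW (Finsupp.single v n) = Finsupp.single v (n : ℝ) := by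
  simp [intW]

noncomputable def en (x : EuclideanSpace ℝ (Fin d)) : WW d →ₗ[ℝ] ℝ :=
  Finsupp.linearCombination ℝ (fun v : VV d => (inner ℝ v.2 x : ℝ) ^ 2)

theorem en_apply (x : EuclideanSpace ℝ (Fin d)) (w : WW d) :
    en x w = w.sum (fun v c => c * inner ℝ v.2 x ^ 2) := rfl

theorem en_single (x : EuclideanSpace ℝ (Fin d)) (v : VV d) (c : ℝ) :
    en x (Finsupp.single v c) = c * inner ℝ v.2 x ^ 2 := by
  simp [en]

theorem en_intW (x : EuclideanSpace ℝ (Fin d)) (ω : VV d →₀ ℤ) :
    en x (intW ω) = ω.sum (fun v c => (c : ℝ) * inner ℝ v.2 x ^ 2) := by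
  rw [en_apply]
  exact Finsupp.sum_mapRange_index (f := fun n : ℤ => (n : ℝ)) (hf := Int.cast_zero) (by simp)

theorem gg_intW (ω : VV d →₀ ℤ) :
    gg (intW ω) = ω.sum (fun v c => max (-(c : ℝ)) 0 * ‖v.2‖ ^ 2) :=
  Finsupp.sum_mapRange_index (f := fun n : ℤ => (n : ℝ)) (hf := Int.cast_zero) (by simp)

theorem en_sh (x : EuclideanSpace ℝ (Fin d)) (t : ℝ) (w : WW d) : en x (sh t w) = en x w := by
  rw [en_apply, en_apply]
  exact Finsupp.sum_mapDomain_index_inj (shf_injective t)

theorem en_av (x : EuclideanSpace ℝ (Fin d)) : ∀ (T : List ℝ) (w : WW d),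
    en x (av T w) = T.length * en x w
  | [], w => by simp [av]
  | t :: T, w => by
    simp only [av, map_add, en_sh, en_av x T w, List.length_cons]
    push_cast
    ring

def AdmZ (A : Finset (EuclideanSpace ℝ (Fin d))) : AddSubgroup (WW d) where
  carrier := {w | ∃ ω : VV d →₀ ℤ, intW ω = w ∧ (∀ a ∈ A, ω.mapDomain (ev a) = 0) ∧
    ∀ x, en x w = 0}
  zero_mem' := ⟨0, map_zero _, fun _ _ => Finsupp.mapDomain_zero, fun x => map_zero _⟩
  add_mem' := by
    rintro w w' ⟨ω, h1, h2, h3⟩ ⟨ω', h1', h2', h3'⟩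
    refine ⟨ω + ω', by rw [map_add, h1, h1'], fun a ha => ?_, fun x => ?_⟩
    · rw [Finsupp.mapDomain_add, h2 a ha, h2' a ha, add_zero]
    · rw [map_add, h3, h3', add_zero]
  neg_mem' := by
    rintro w ⟨ω, h1, h2, h3⟩
    refine ⟨-ω, by rw [map_neg, h1], fun a ha => ?_, fun x => ?_⟩
    · have := h2 a ha
      have e : (-ω).mapDomain (ev a) = -(ω.mapDomain (ev a)) := by
        have := map_neg (Finsupp.mapDomain.addMonoidHom (M := ℤ) (ev a)) ω
        exact this
      rw [e, h2 a ha, neg_zero]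
    · rw [map_neg, h3, neg_zero]

theorem approx (A : Finset (EuclideanSpace ℝ (Fin d))) (z : WW d)
    (hz : z ∈ Submodule.span ℝ (AdmZ A : Set (WW d))) :
    ∀ δ : ℝ, 0 < δ → ∃ z' ∈ AdmZ A, ∃ m : ℕ, 1 ≤ m ∧ GG (z - (m : ℝ)⁻¹ • z') < δ := by
  induction hz using Submodule.span_induction with
  | mem x hx =>
    intro δ hδ
    refine ⟨x, hx, 1, le_rfl, ?_⟩
    have : x - ((1 : ℕ) : ℝ)⁻¹ • x = 0 := by simp
    rw [this]
    simpa [GG] using hδ
  | zero =>
    intro δ hδ
    refine ⟨0, zero_mem _, 1, le_rfl, ?_⟩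
    simpa [GG] using hδ
  | add x y _ _ ihx ihy =>
    intro δ hδ
    obtain ⟨x', hx', m, hm, h1⟩ := ihx (δ / 2) (by positivity)
    obtain ⟨y', hy', n, hn, h2⟩ := ihy (δ / 2) (by positivity)
    refine ⟨n • x' + m • y', add_mem (nsmul_mem hx' _) (nsmul_mem hy' _), m * n,
      Nat.mul_pos hm hn, ?_⟩
    have hm' : (m : ℝ) ≠ 0 := by positivity
    have hn' : (n : ℝ) ≠ 0 := by positivity
    have e : x + y - ((m * n : ℕ) : ℝ)⁻¹ • (n • x' + m • y') =
        (x - (m : ℝ)⁻¹ • x') + (y - (n : ℝ)⁻¹ • y') := by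
      rw [← Nat.cast_smul_eq_nsmul ℝ, ← Nat.cast_smul_eq_nsmul ℝ, smul_add, smul_smul, smul_smul]
      have e1 : ((m * n : ℕ) : ℝ)⁻¹ * (n : ℝ) = (m : ℝ)⁻¹ := by
        push_cast
        field_simp
      have e2 : ((m * n : ℕ) : ℝ)⁻¹ * (m : ℝ) = (n : ℝ)⁻¹ := by
        push_cast
        field_simp
      rw [e1, e2]
      abel
    rw [e]
    have := GG_add (x - (m : ℝ)⁻¹ • x') (y - (n : ℝ)⁻¹ • y')
    linarith
  | smul c x _ ih =>
    intro δ hδ
    obtain ⟨x', hx', m, hm, h1⟩ := ih (δ / 2 / (|c| + 1)) (by positivity)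
    have hm' : (0 : ℝ) < m := by exact_mod_cast hm
    have hG := GG_nonneg x'
    obtain ⟨r, hr1, hr2⟩ := exists_rat_btwn
      (show c - δ / 2 / (GG x' + 1) < c by
        have : 0 < δ / 2 / (GG x' + 1) := by positivity
        linarith)
    have hrd : (0 : ℝ) < r.den := by exact_mod_cast r.pos
    refine ⟨r.num • x', zsmul_mem hx' _, m * r.den, Nat.mul_pos hm r.pos, ?_⟩
    have e : c • x - ((m * r.den : ℕ) : ℝ)⁻¹ • (r.num • x') =
        c • (x - (m : ℝ)⁻¹ • x') + ((c - r) * (m : ℝ)⁻¹) • x' := by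
      rw [← Int.cast_smul_eq_zsmul ℝ, smul_smul, smul_sub, smul_smul, sub_mul, sub_smul]
      have e1 : ((m * r.den : ℕ) : ℝ)⁻¹ * (r.num : ℝ) = (r : ℝ) * (m : ℝ)⁻¹ := by
        have : (r : ℝ) = r.num / r.den := by exact_mod_cast (Rat.num_div_den r).symm
        rw [this]
        push_cast
        field_simp
      rw [e1]
      abel
    rw [e]
    have h2 := GG_add (c • (x - (m : ℝ)⁻¹ • x')) (((c - r) * (m : ℝ)⁻¹) • x')
    rw [GG_smul, GG_smul] at h2
    have h3 : |c| * GG (x - (m : ℝ)⁻¹ • x') < δ / 2 := by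
      calc |c| * GG (x - (m : ℝ)⁻¹ • x') ≤ (|c| + 1) * GG (x - (m : ℝ)⁻¹ • x') := by
            apply mul_le_mul_of_nonneg_right _ (GG_nonneg _)
            linarith
        _ < (|c| + 1) * (δ / 2 / (|c| + 1)) := by
            apply mul_lt_mul_of_pos_left h1
            positivity
        _ = δ / 2 := by
            field_simp
    have h4 : |(c - r) * (m : ℝ)⁻¹| * GG x' ≤ δ / 2 := by
      have h5 : |(c - r) * (m : ℝ)⁻¹| ≤ δ / 2 / (GG x' + 1) := by
        rw [abs_mul]
        have h6 : |c - r| ≤ δ / 2 / (GG x' + 1) := by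
          rw [abs_of_nonneg (by linarith)]
          linarith
        have h7 : |(m : ℝ)⁻¹| ≤ 1 := by
          rw [abs_of_nonneg (by positivity)]
          apply inv_le_one_of_one_le₀
          exact_mod_cast hm
        calc |c - ↑r| * |(m : ℝ)⁻¹| ≤ |c - ↑r| * 1 := by gcongr
          _ ≤ _ := by rw [mul_one]; exact h6
      calc |(c - r) * (m : ℝ)⁻¹| * GG x' ≤ δ / 2 / (GG x' + 1) * (GG x' + 1) := by
            gcongr
            linarith
        _ = δ / 2 := by
            field_simp
    linarith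

section dl

variable {G : Type*} [AddCommGroup G]

noncomputable def dl : List G → G → (G →₀ ℤ)
  | [], v => Finsupp.single v 1
  | u :: L, v => dl L (v + u) - dl L v

def difL : List G → (G → ℝ) → (G → ℝ)
  | [], h => h
  | u :: L, h => Dif u (difL L h)

theorem dl_map {G' : Type*} [AddCommGroup G'] (f : G → G') (hf : ∀ u v, f (u + v) = f u + f v) :
    ∀ (L : List G) (v : G), (dl L v).mapDomain f = dl (L.map f) (f v)
  | [], v => by simp [dl]
  | u :: L, v => by
    have e : ∀ x y : G →₀ ℤ, (x - y).mapDomain f = x.mapDomain f - y.mapDomain f := by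
      intro x y
      exact map_sub (Finsupp.mapDomain.addMonoidHom (M := ℤ) f) x y
    simp only [dl, List.map_cons]
    rw [e, dl_map f hf L, dl_map f hf L, hf]

theorem dl_zero : ∀ (L : List G) (v : G), (0 : G) ∈ L → dl L v = 0
  | [], v, h => by simp at h
  | u :: L, v, h => by
    rcases List.mem_cons.1 h with h | h
    · simp [dl, ← h]
    · simp [dl, dl_zero L _ h]

theorem Dif_difL : ∀ (L : List G) (u : G) (h : G → ℝ), Dif u (difL L h) = difL L (Dif u h)
  | [], _, _ => rfl
  | v :: L, u, h => by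
    simp only [difL]
    rw [Dif_comm, Dif_difL L u h]

theorem Killed.difL_eq : ∀ (L : List G) {m : ℕ} {h : G → ℝ}, Killed (L.length + m) h →
    Killed m (difL L h)
  | [], m, h, hh => by
    rw [List.length_nil, zero_add] at hh
    exact hh
  | u :: L, m, h, hh => by
    have h1 : Killed (L.length + (m + 1)) h := by
      have : (u :: L).length + m = L.length + (m + 1) := by
        simp only [List.length_cons]
        ring
      rwa [this] at hh
    exact (Killed.difL_eq L h1) u

theorem killed_of_difL : ∀ (n : ℕ) (h : G → ℝ), (∀ L : List G, L.length = n → difL L h = 0) →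
    Killed n h
  | 0, h, H => H [] rfl
  | n + 1, h, H => fun u => by
    apply killed_of_difL n
    intro L hL
    have := H (u :: L) (by simp [hL])
    simp only [difL] at this
    rwa [Dif_difL] at this

end dl

theorem H_dl (H : WW d →ₗ[ℝ] ℝ) : ∀ (L : List (VV d)) (v : VV d),
    H (intW (dl L v)) = difL L (fun v => H (Finsupp.single v 1)) v
  | [], v => by simp [dl, difL, intW_single]
  | u :: L, v => by
    simp only [dl, difL, Dif, map_sub]
    rw [H_dl H L, H_dl H L]

theorem difL_snd (h : EuclideanSpace ℝ (Fin d) → ℝ) : ∀ (L : List (VV d)) (v : VV d),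
    difL L (fun v : VV d => h v.2) v = difL (L.map Prod.snd) h v.2
  | [], v => rfl
  | u :: L, v => by
    simp only [difL, Dif, List.map_cons]
    rw [difL_snd h L, difL_snd h L]
    rfl

theorem ev_add (a : EuclideanSpace ℝ (Fin d)) (u v : VV d) : ev a (u + v) = ev a u + ev a v := by
  simp only [ev, Prod.fst_add, Prod.snd_add, inner_add_left]
  ring

theorem killed_sq (x : EuclideanSpace ℝ (Fin d)) :
    Killed 3 (fun v : VV d => (inner ℝ v.2 x : ℝ) ^ 2) := by
  intro u v w
  show Dif w (Dif v (Dif u _)) = 0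
  funext y
  simp only [Dif, Prod.snd_add, inner_add_left, Pi.zero_apply]
  ring

theorem dl_mem_AdmZ (A : Finset (EuclideanSpace ℝ (Fin d))) (L : List (VV d)) (v : VV d)
    (hL : 3 ≤ L.length) (hA : ∀ a ∈ A, ∃ u ∈ L, ev a u = 0) : intW (dl L v) ∈ AdmZ A := by
  refine ⟨dl L v, rfl, ?_, ?_⟩
  · intro a ha
    rw [dl_map (ev a) (ev_add a)]
    apply dl_zero
    obtain ⟨u, hu, hu'⟩ := hA a ha
    rw [← hu']
    exact List.mem_map_of_mem hu
  · intro x
    rw [H_dl]
    have h1 : (fun v : VV d => en x (Finsupp.single v 1)) =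
        fun v : VV d => (inner ℝ v.2 x : ℝ) ^ 2 := by
      funext v
      rw [en_single, one_mul]
    rw [h1]
    have h2 : Killed (L.length + 0) (fun v : VV d => (inner ℝ v.2 x : ℝ) ^ 2) :=
      (killed_sq x).mono (by omega)
    exact congrFun (Killed.difL_eq L h2) v

theorem exists_list (A : Finset (EuclideanSpace ℝ (Fin d)))
    (Lp : List (EuclideanSpace ℝ (Fin d))) (hLp : Lp.length = A.card + 3) :
    ∃ L : List (VV d), L.map Prod.snd = Lp ∧ ∀ a ∈ A, ∃ u ∈ L, ev a u = 0 := by
  have key : ∀ (La Lp : List (EuclideanSpace ℝ (Fin d))), La.length ≤ Lp.length →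
      ∃ L : List (VV d), L.map Prod.snd = Lp ∧ ∀ a ∈ La, ∃ u ∈ L, ev a u = 0 := by
    intro La
    induction La with
    | nil =>
      intro Lp _
      refine ⟨Lp.map (fun p => ((0 : ℝ), p)), ?_, by simp⟩
      rw [List.map_map]
      exact List.map_id' _
    | cons a La ih =>
      intro Lp h
      cases Lp with
      | nil => simp at h
      | cons p Lp =>
        obtain ⟨L, h1, h2⟩ := ih Lp (by simpa using h)
        refine ⟨(-inner ℝ p a, p) :: L, by simp [h1], ?_⟩
        intro a' ha'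
        rcases List.mem_cons.1 ha' with rfl | ha'
        · exact ⟨_, List.mem_cons_self, by simp [ev]⟩
        · obtain ⟨u, hu, hu'⟩ := h2 a' ha'
          exact ⟨u, List.mem_cons_of_mem _ hu, hu'⟩
  obtain ⟨L, h1, h2⟩ := key A.toList Lp (by rw [Finset.length_toList]; omega)
  exact ⟨L, h1, fun a ha => h2 a (Finset.mem_toList.2 ha)⟩

theorem H_killed (A : Finset (EuclideanSpace ℝ (Fin d))) (H : WW d →ₗ[ℝ] ℝ)
    (hZ : ∀ z ∈ AdmZ A, H z = 0) (hs : ∀ s p, H (Finsupp.single (s, p) 1) =
      H (Finsupp.single (0, p) 1)) :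
    Killed (A.card + 3) (fun p => H (Finsupp.single (0, p) 1)) := by
  apply killed_of_difL
  intro Lp hLp
  obtain ⟨L, hL, hA⟩ := exists_list A Lp hLp
  funext p
  have h1 := hZ _ (dl_mem_AdmZ A L (0, p) (by
    have := congrArg List.length hL
    rw [List.length_map, hLp] at this
    omega) hA)
  rw [H_dl] at h1
  have h2 : (fun v : VV d => H (Finsupp.single v 1)) =
      fun v : VV d => (fun p => H (Finsupp.single (0, p) 1)) v.2 := by
    funext v
    exact hs v.1 v.2
  rw [h2] at h1
  have h3 := difL_snd (fun p => H (Finsupp.single ((0 : ℝ), p) 1)) L (0, p)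
  have h4 := h3.symm.trans h1
  rw [hL] at h4
  exact h4

theorem quad_sum {E : Type*} [NormedAddCommGroup E] [InnerProductSpace ℝ E]
    [FiniteDimensional ℝ E] (B : E →ₗ[ℝ] E →ₗ[ℝ] ℝ) (w : (ℝ × E) →₀ ℝ) (n : ℝ)
    (hE : ∀ x, w.sum (fun v c => c * inner ℝ v.2 x ^ 2) = n * ‖x‖ ^ 2) :
    w.sum (fun v c => c * B v.2 v.2) =
      n * ∑ i, B (stdOrthonormalBasis ℝ E i) (stdOrthonormalBasis ℝ E i) := by
  set b := stdOrthonormalBasis ℝ E with hb
  have hpol : ∀ x y, w.sum (fun v c => c * (inner ℝ v.2 x * inner ℝ v.2 y)) = n * inner ℝ x y := by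
    intro x y
    have h1 := hE (x + y)
    have h2 := hE x
    have h3 := hE y
    have h4 : w.sum (fun v c => c * inner ℝ v.2 (x + y) ^ 2) =
        w.sum (fun v c => c * inner ℝ v.2 x ^ 2) + w.sum (fun v c => c * inner ℝ v.2 y ^ 2) +
          2 * w.sum (fun v c => c * (inner ℝ v.2 x * inner ℝ v.2 y)) := by
      simp only [Finsupp.sum]
      rw [Finset.mul_sum, ← Finset.sum_add_distrib, ← Finset.sum_add_distrib]
      apply Finset.sum_congr rfl
      intro v _
      rw [inner_add_right]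
      ring
    have h5 : ‖x + y‖ ^ 2 = ‖x‖ ^ 2 + 2 * inner ℝ x y + ‖y‖ ^ 2 := norm_add_sq_real x y
    rw [h1, h2, h3, h5] at h4
    linarith
  have hB : ∀ p : E, B p p = ∑ i, ∑ j, (inner ℝ p (b i) * inner ℝ p (b j)) * B (b i) (b j) := by
    intro p
    conv_lhs => rw [← b.sum_repr' p]
    simp only [map_sum, LinearMap.sum_apply, map_smul, LinearMap.smul_apply, smul_eq_mul]
    rw [Finset.sum_comm]
    apply Finset.sum_congr rfl
    intro i _
    rw [Finset.mul_sum]
    apply Finset.sum_congr rfl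
    intro j _
    rw [real_inner_comm p (b i), real_inner_comm p (b j)]
    ring
  calc w.sum (fun v c => c * B v.2 v.2)
      = ∑ i, ∑ j, w.sum (fun v c => c * (inner ℝ v.2 (b i) * inner ℝ v.2 (b j))) *
          B (b i) (b j) := by
        simp only [Finsupp.sum]
        rw [Finset.sum_congr rfl (fun v _ => by rw [hB v.2, Finset.mul_sum])]
        rw [Finset.sum_comm]
        apply Finset.sum_congr rfl
        intro i _
        rw [Finset.sum_congr rfl (fun v _ => by rw [Finset.mul_sum])]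
        rw [Finset.sum_comm]
        apply Finset.sum_congr rfl
        intro j _
        rw [Finset.sum_mul]
        apply Finset.sum_congr rfl
        intro v _
        ring
    _ = n * ∑ i, B (b i) (b i) := by
        rw [Finset.mul_sum]
        apply Finset.sum_congr rfl
        intro i _
        rw [Finset.sum_eq_single i]
        · rw [hpol, real_inner_self_eq_norm_sq, b.norm_eq_one]
          ring
        · intro j _ hj
          rw [hpol, b.inner_eq_zero hj.symm]
          ring
        · intro h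
          exact absurd (Finset.mem_univ i) h

theorem H_nonpos (A : Finset (EuclideanSpace ℝ (Fin d))) (w₀ : WW d) (n₀ : ℝ) (hn₀ : 0 ≤ n₀)
    (hE : ∀ x, en x w₀ = n₀ * ‖x‖ ^ 2) (H : WW d →ₗ[ℝ] ℝ)
    (hH : ∀ (T : List ℝ), T ≠ [] → ∀ z ∈ Submodule.span ℝ (AdmZ A : Set (WW d)), ∀ w,
      H w ≤ gg (av T (w + z)) / T.length) : H w₀ ≤ 0 := by
  have hgg : ∀ w, H w ≤ gg w := by
    intro w
    have := hH [0] (by simp) 0 (zero_mem _) w
    simpa [av, sh_zero] using this
  have hZ : ∀ z ∈ Submodule.span ℝ (AdmZ A : Set (WW d)), H z = 0 := by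
    have h1 : ∀ z ∈ Submodule.span ℝ (AdmZ A : Set (WW d)), H z ≤ 0 := by
      intro z hz
      have := hH [0] (by simp) (-z) (neg_mem hz) z
      simpa [av, sh_zero, gg] using this
    intro z hz
    apply le_antisymm (h1 z hz)
    have := h1 (-z) (neg_mem hz)
    rw [map_neg] at this
    linarith
  have hsh : ∀ (t : ℝ) (w : WW d), H (sh t w - w) ≤ 0 := by
    intro t w
    have h1 : ∀ n : ℕ, 1 ≤ n → H (sh t w - w) ≤ (gg w + gg (-w)) / n := by
      intro n hn
      have h2 := hH (nL t n) (by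
        intro h
        have := nL_length t n
        rw [h] at this
        simp at this
        omega) 0 (zero_mem _) (sh t w - w)
      rw [add_zero, av_nL, nL_length] at h2
      refine h2.trans ?_
      apply div_le_div_of_nonneg_right _ (Nat.cast_nonneg _)
      have h3 := gg_add (sh (n * t) w) (-w)
      rw [gg_sh, ← sub_eq_add_neg] at h3
      exact h3
    by_contra hc
    push Not at hc
    obtain ⟨n, hn⟩ := exists_nat_gt ((gg w + gg (-w)) / H (sh t w - w))
    rw [div_lt_iff₀ hc] at hn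
    have hn1 : 1 ≤ n := by
      by_contra h0
      have : n = 0 := by omega
      subst this
      have h5 := gg_nonneg w
      have h6 := gg_nonneg (-w)
      simp at hn
      linarith
    have h4 := h1 n hn1
    rw [le_div_iff₀ (by positivity)] at h4
    linarith
  have hsh' : ∀ (t : ℝ) (w : WW d), H (sh t w) = H w := by
    intro t w
    have h1 := hsh t w
    have h2 := hsh t (-w)
    rw [map_sub] at h1
    rw [map_neg, map_sub, map_neg, map_neg] at h2
    linarith
  have hs : ∀ s p, H (Finsupp.single (s, p) 1) = H (Finsupp.single ((0 : ℝ), p) 1) := by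
    intro s p
    rw [← hsh' s (Finsupp.single ((0 : ℝ), p) 1), sh_single]
    simp [shf]
  have hK := H_killed A H (fun z hz => hZ z (Submodule.subset_span hz)) hs
  have hle : ∀ p, H (Finsupp.single ((0 : ℝ), p) 1) ≤ 0 := by
    intro p
    refine (hgg _).trans ?_
    simp [gg]
  have hge : ∀ p, -‖p‖ ^ 2 ≤ H (Finsupp.single ((0 : ℝ), p) 1) := by
    intro p
    have h1 := hgg (Finsupp.single ((0 : ℝ), p) (-1))
    have e1 : (Finsupp.single ((0 : ℝ), p) (-1) : WW d) = -Finsupp.single ((0 : ℝ), p) 1 :=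
      Finsupp.single_neg _ _
    have e2 : gg (Finsupp.single ((0 : ℝ), p) (-1) : WW d) = ‖p‖ ^ 2 := by
      rw [gg, Finsupp.sum_single_index] <;> simp
    rw [e2, e1, map_neg] at h1
    linarith
  obtain ⟨B, hB⟩ := quadratic_of_killed hK (by
    intro p
    rw [abs_le]
    exact ⟨hge p, (hle p).trans (sq_nonneg _)⟩)
  have h1 : H w₀ = w₀.sum (fun v c => c * B v.2 v.2) := by
    conv_lhs => rw [← Finsupp.sum_single w₀]
    rw [Finsupp.sum, map_sum, Finsupp.sum]
    apply Finset.sum_congr rfl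
    intro v _
    have e1 : (Finsupp.single v (w₀ v) : WW d) = w₀ v • Finsupp.single v 1 := by
      rw [Finsupp.smul_single, smul_eq_mul, mul_one]
    rw [e1, map_smul, smul_eq_mul]
    congr 1
    rw [← hB v.2]
    exact hs v.1 v.2
  rw [h1, quad_sum B w₀ n₀ hE]
  apply mul_nonpos_of_nonneg_of_nonpos hn₀
  apply Finset.sum_nonpos
  intro i _
  rw [← hB]
  exact hle _

noncomputable def avZ : List ℝ → (VV d →₀ ℤ) → (VV d →₀ ℤ)
  | [], _ => 0
  | t :: T, ω => ω.mapDomain (shf t) + avZ T ω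

theorem intW_mapDomain (f : VV d → VV d) (ω : VV d →₀ ℤ) :
    intW (ω.mapDomain f) = (intW ω).mapDomain f := by
  induction ω using Finsupp.induction_linear with
  | zero => simp
  | add x y hx hy => rw [Finsupp.mapDomain_add, map_add, hx, hy, map_add, Finsupp.mapDomain_add]
  | single v n => rw [Finsupp.mapDomain_single, intW_single, intW_single, Finsupp.mapDomain_single]

theorem intW_avZ : ∀ (T : List ℝ) (ω : VV d →₀ ℤ), intW (avZ T ω) = av T (intW ω)
  | [], ω => map_zero _
  | t :: T, ω => by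
    simp only [avZ, av, map_add]
    rw [intW_avZ T ω, intW_mapDomain]
    rfl

theorem ev_shf (a : EuclideanSpace ℝ (Fin d)) (t : ℝ) (v : VV d) :
    ev a (shf t v) = ev a v + t := by
  simp only [ev, shf]
  ring

theorem marg_avZ (a : EuclideanSpace ℝ (Fin d)) (ω : VV d →₀ ℤ) (h : ω.mapDomain (ev a) = 0) :
    ∀ (T : List ℝ), (avZ T ω).mapDomain (ev a) = 0
  | [] => Finsupp.mapDomain_zero
  | t :: T => by
    simp only [avZ]
    rw [Finsupp.mapDomain_add, marg_avZ a ω h T, add_zero, ← Finsupp.mapDomain_comp]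
    have : ev a ∘ shf t = (fun x => x + t) ∘ ev a := by
      funext v
      exact ev_shf a t v
    rw [this, Finsupp.mapDomain_comp, h, Finsupp.mapDomain_zero]

theorem stepB (A : Finset (EuclideanSpace ℝ (Fin d)))
    (ω₀ : (ℝ × EuclideanSpace ℝ (Fin d)) →₀ ℤ) (n₀ : ℕ) (h₀ : IntCombo A ω₀ n₀)
    (ε : ℝ) (hε : 0 < ε) :
    ∃ (ω : (ℝ × EuclideanSpace ℝ (Fin d)) →₀ ℤ) (n : ℕ), IntCombo A ω n ∧
      ω.sum (fun v c => max (-(c : ℝ)) 0 * ‖v.2‖ ^ 2) < ε * n := by
  obtain ⟨hn₀, hmarg, hen⟩ := h₀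
  have hn₀' : (0 : ℝ) < n₀ := by exact_mod_cast hn₀
  have hen' : ∀ x, en x (intW ω₀) = n₀ * ‖x‖ ^ 2 := fun x => by rw [en_intW, hen]
  obtain ⟨T, hT, z, hz, hlt⟩ : ∃ T : List ℝ, T ≠ [] ∧
      ∃ z ∈ Submodule.span ℝ (AdmZ A : Set (WW d)),
        gg (av T (intW ω₀ + z)) / T.length < ε * n₀ := by
    by_contra hcon
    push Not at hcon
    have hne : Nonempty ({T : List ℝ // T ≠ []} × Submodule.span ℝ (AdmZ A : Set (WW d))) :=
      ⟨(⟨[0], by simp⟩, 0)⟩
    have hlen : ∀ T : {T : List ℝ // T ≠ []}, (0 : ℝ) < T.1.length := by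
      intro T
      exact_mod_cast List.length_pos_of_ne_nil T.2
    obtain ⟨H, hH1, hH2⟩ := hb_abs
      (ι := {T : List ℝ // T ≠ []} × Submodule.span ℝ (AdmZ A : Set (WW d)))
      (fun i w => gg (av i.1.1 (w + i.2.1)) / i.1.1.length)
      (fun i w => div_nonneg (gg_nonneg _) (Nat.cast_nonneg _))
      (by
        intro i w c hc
        refine ⟨(i.1, c • i.2), ?_⟩
        show gg (av i.1.1 (c • w + c • i.2.1)) / _ ≤ _
        rw [← smul_add, av_smul, gg_smul c hc.le, mul_div_assoc])
      (by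
        intro i j w w'
        have hi := hlen i.1
        have hj := hlen j.1
        refine ⟨(⟨pr i.1.1 j.1.1, ?_⟩, i.2 + j.2), ?_⟩
        · intro h
          have := pr_length i.1.1 j.1.1
          rw [h, List.length_nil] at this
          have h2 : (0 : ℝ) = i.1.1.length * j.1.1.length := by exact_mod_cast this
          have h3 := mul_pos hi hj
          linarith
        · show gg (av (pr i.1.1 j.1.1) (w + w' + (i.2.1 + j.2.1))) / (pr i.1.1 j.1.1).length ≤
            gg (av i.1.1 (w + i.2.1)) / i.1.1.length + gg (av j.1.1 (w' + j.2.1)) / j.1.1.length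
          have e1 : w + w' + (i.2.1 + j.2.1) = (w + i.2.1) + (w' + j.2.1) := by abel
          rw [e1, av_add, pr_length, Nat.cast_mul, av_pr, av_pr, av_comm i.1.1 j.1.1 (w + i.2.1)]
          have h1 := gg_add (av j.1.1 (av i.1.1 (w + i.2.1))) (av i.1.1 (av j.1.1 (w' + j.2.1)))
          have h2 := gg_av j.1.1 (av i.1.1 (w + i.2.1))
          have h3 := gg_av i.1.1 (av j.1.1 (w' + j.2.1))
          rw [div_add_div _ _ hi.ne' hj.ne']
          apply div_le_div_of_nonneg_right _ (mul_pos hi hj).le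
          linarith)
      (intW ω₀) (ε * n₀) (by positivity)
      (fun i => hcon i.1.1 i.1.2 i.2.1 i.2.2)
    have h1 := H_nonpos A (intW ω₀) n₀ hn₀'.le hen' H
      (fun T hT z hz w => hH1 (⟨T, hT⟩, ⟨z, hz⟩) w)
    have h2 : 0 < ε * n₀ := by positivity
    linarith
  have hTl : (0 : ℝ) < T.length := by exact_mod_cast List.length_pos_of_ne_nil hT
  rw [div_lt_iff₀ hTl] at hlt
  obtain ⟨z', ⟨ωz, hωz, hωz1, hωz2⟩, m, hm, hδ⟩ := approx A z hz
    ((ε * n₀ * T.length - gg (av T (intW ω₀ + z))) / T.length)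
    (div_pos (by linarith) hTl)
  have hm' : (0 : ℝ) < m := by exact_mod_cast hm
  rw [lt_div_iff₀ hTl] at hδ
  have hmargT : ∀ a ∈ A, (m • ω₀ + ωz).mapDomain (ev a) = 0 := by
    intro a ha
    rw [Finsupp.mapDomain_add, hωz1 a ha, add_zero]
    have : (m • ω₀).mapDomain (ev a) = m • (ω₀.mapDomain (ev a)) :=
      map_nsmul (Finsupp.mapDomain.addMonoidHom (M := ℤ) (ev a)) m ω₀
    rw [this, hmarg a ha, smul_zero]
  have hW : intW (m • ω₀ + ωz) = (m : ℝ) • (intW ω₀ + (m : ℝ)⁻¹ • z') := by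
    rw [map_add, map_nsmul, hωz, smul_add, smul_smul, mul_inv_cancel₀ hm'.ne', one_smul,
      ← Nat.cast_smul_eq_nsmul ℝ]
  refine ⟨avZ T (m • ω₀ + ωz), n₀ * m * T.length, ⟨?_, ?_, ?_⟩, ?_⟩
  · exact Nat.mul_pos (Nat.mul_pos hn₀ hm) (List.length_pos_of_ne_nil hT)
  · intro a ha
    exact marg_avZ a _ (hmargT a ha) T
  · intro x
    rw [← en_intW, intW_avZ, en_av, map_add, map_add, map_nsmul, map_nsmul, hen', hωz, hωz2]
    simp only [nsmul_eq_mul, add_zero]
    push_cast
    ring
  · rw [← gg_intW, intW_avZ, hW, av_smul, gg_smul _ hm'.le]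
    have h1 : av T (intW ω₀ + (m : ℝ)⁻¹ • z') =
        av T (intW ω₀ + z) + av T (-(z - (m : ℝ)⁻¹ • z')) := by
      rw [← av_add]
      congr 1
      abel
    have h2 := gg_add (av T (intW ω₀ + z)) (av T (-(z - (m : ℝ)⁻¹ • z')))
    have h3 := gg_av T (-(z - (m : ℝ)⁻¹ • z'))
    have h4 := gg_le_GG (-(z - (m : ℝ)⁻¹ • z'))
    rw [GG_neg] at h4
    rw [h1]
    have h5 : (T.length : ℝ) * gg (-(z - (m : ℝ)⁻¹ • z')) ≤
        GG (z - (m : ℝ)⁻¹ • z') * T.length := by
      rw [mul_comm]
      exact mul_le_mul_of_nonneg_right h4 hTl.le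
    have h6 : gg (av T (intW ω₀ + z) + av T (-(z - (m : ℝ)⁻¹ • z'))) < ε * n₀ * T.length := by
      linarith
    push_cast
    calc (m : ℝ) * gg (av T (intW ω₀ + z) + av T (-(z - (m : ℝ)⁻¹ • z')))
        < m * (ε * n₀ * T.length) := mul_lt_mul_of_pos_left h6 hm'
      _ = ε * (n₀ * m * T.length) := by ring

end Vale.Agent.P058.SB
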