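import Vale.Agent.P058.Base

set_option autoImplicit false

namespace Vale.Agent.P058.SC

section StepC

theorem stepC_exists_perm {m : ℕ} (F G : Fin m → ℝ)
    (h : Multiset.map F Finset.univ.val = Multiset.map G Finset.univ.val) :
    ∃ σ : Equiv.Perm (Fin m), ∀ l, F l = G (σ l) := by
  classical
  have hc : ∀ c : ℝ, Nonempty ({a // F a = c} ≃ {b // G b = c}) := by
    intro c
    rw [← Fintype.card_eq]
    have h1 := congrArg (Multiset.count c) h
    rw [Multiset.count_map, Multiset.count_map] at h1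
    rw [Fintype.card_subtype, Fintype.card_subtype]
    have e1 : (Finset.univ.filter fun a => F a = c).card =
        Multiset.card (Multiset.filter (fun a => c = F a) (Finset.univ : Finset (Fin m)).val) := by
      rw [Finset.card_def, Finset.filter_val]
      congr 1
      apply Multiset.filter_congr
      intro x _
      exact eq_comm
    have e2 : (Finset.univ.filter fun a => G a = c).card =
        Multiset.card (Multiset.filter (fun a => c = G a) (Finset.univ : Finset (Fin m)).val) := by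
      rw [Finset.card_def, Finset.filter_val]
      congr 1
      apply Multiset.filter_congr
      intro x _
      exact eq_comm
    rw [e1, e2, h1]
  have e : ∀ c : ℝ, {a // F a = c} ≃ {b // G b = c} := fun c => (hc c).some
  refine ⟨Equiv.ofFiberEquiv e, fun l => ?_⟩
  exact (Equiv.ofFiberEquiv_map e l).symm

variable {d : ℕ}

theorem stepC_psd (L : Multiset (EuclideanSpace ℝ (Fin d))) (c : ℝ)
    (h : ∀ x, (L.map (fun p => inner ℝ p x ^ 2)).sum ≤ c * ‖x‖ ^ 2) :
    ∃ R : Multiset (EuclideanSpace ℝ (Fin d)), ∀ x,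
      (R.map (fun p => inner ℝ p x ^ 2)).sum + (L.map (fun p => inner ℝ p x ^ 2)).sum =
        c * ‖x‖ ^ 2 := by
  classical
  obtain ⟨S, hS⟩ : ∃ S : EuclideanSpace ℝ (Fin d) →ₗ[ℝ] EuclideanSpace ℝ (Fin d),
      ∀ x y, inner ℝ (S x) y = (L.map (fun p => inner ℝ p x * inner ℝ p y)).sum := by
    clear h
    induction L using Multiset.induction with
    | empty => exact ⟨0, fun x y => by simp⟩
    | cons p L ih =>
      obtain ⟨S, hS⟩ := ih
      refine ⟨(innerₛₗ ℝ p).smulRight p + S, fun x y => ?_⟩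
      rw [LinearMap.add_apply, inner_add_left, hS, Multiset.map_cons, Multiset.sum_cons]
      congr 1
      rw [LinearMap.smulRight_apply, inner_smul_left]
      simp
  obtain ⟨T, hT⟩ : ∃ T : EuclideanSpace ℝ (Fin d) →ₗ[ℝ] EuclideanSpace ℝ (Fin d),
      T = c • LinearMap.id - S := ⟨_, rfl⟩
  have hTi : ∀ x y, inner ℝ (T x) y =
      c * inner ℝ x y - (L.map (fun p => inner ℝ p x * inner ℝ p y)).sum := by
    intro x y
    rw [hT, LinearMap.sub_apply, inner_sub_left, hS, LinearMap.smul_apply, LinearMap.id_apply,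
      inner_smul_left]
    simp
  have hTq : ∀ x, inner ℝ (T x) x =
      c * ‖x‖ ^ 2 - (L.map (fun p => inner ℝ p x ^ 2)).sum := by
    intro x
    rw [hTi, real_inner_self_eq_norm_sq]
    congr 3
    funext p
    ring
  have hsym : T.IsSymmetric := by
    intro x y
    rw [real_inner_comm x (T y) |>.symm, hTi, hTi, real_inner_comm x y]
    congr 3
    funext p
    ring
  have hn : Module.finrank ℝ (EuclideanSpace ℝ (Fin d)) = d := by simp
  obtain ⟨b, hb⟩ : ∃ b, b = hsym.eigenvectorBasis hn := ⟨_, rfl⟩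
  obtain ⟨ev', hev⟩ : ∃ ev', ev' = hsym.eigenvalues hn := ⟨_, rfl⟩
  have hTb : ∀ i, T (b i) = (ev' i : ℝ) • b i := by
    intro i
    rw [hb, hev]
    exact hsym.apply_eigenvectorBasis hn i
  have hnn : ∀ i, 0 ≤ ev' i := by
    intro i
    have h1 : inner ℝ (T (b i)) (b i) = ev' i := by
      rw [hTb, inner_smul_left, real_inner_self_eq_norm_sq, b.norm_eq_one i]
      simp
    rw [← h1, hTq]
    linarith [h (b i)]
  refine ⟨(Finset.univ : Finset (Fin d)).val.map (fun i => Real.sqrt (ev' i) • b i),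
    fun x => ?_⟩
  have h2 : ((Finset.univ : Finset (Fin d)).val.map
      (fun i => Real.sqrt (ev' i) • b i)).map (fun p => inner ℝ p x ^ 2) =
      (Finset.univ : Finset (Fin d)).val.map (fun i => ev' i * inner ℝ (b i) x ^ 2) := by
    rw [Multiset.map_map]
    apply Multiset.map_congr rfl
    intro i _
    simp only [Function.comp]
    rw [inner_smul_left, mul_pow]
    simp only [conj_trivial]
    rw [Real.sq_sqrt (hnn i)]
  rw [h2]
  have h3 : ((Finset.univ : Finset (Fin d)).val.map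
      (fun i => ev' i * inner ℝ (b i) x ^ 2)).sum = inner ℝ (T x) x := by
    rw [← b.sum_inner_mul_inner (T x) x]
    show ∑ i, ev' i * inner ℝ (b i) x ^ 2 = _
    apply Finset.sum_congr rfl
    intro i _
    rw [hsym x (b i), hTb, inner_smul_right, real_inner_comm x (b i)]
    ring
  rw [h3, hTq]
  ring

noncomputable def posL (ω : (ℝ × EuclideanSpace ℝ (Fin d)) →₀ ℤ) :
    Multiset (ℝ × EuclideanSpace ℝ (Fin d)) :=
  ω.sum (fun v c => Multiset.replicate c.toNat v)

noncomputable def negL (ω : (ℝ × EuclideanSpace ℝ (Fin d)) →₀ ℤ) :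
    Multiset (ℝ × EuclideanSpace ℝ (Fin d)) :=
  ω.sum (fun v c => Multiset.replicate (-c).toNat v)

theorem posL_sum {R : Type*} [CommRing R] (ω : (ℝ × EuclideanSpace ℝ (Fin d)) →₀ ℤ)
    (F : ℝ × EuclideanSpace ℝ (Fin d) → R) :
    ((posL ω).map F).sum = ω.sum (fun v c => (c.toNat : R) * F v) := by
  have h := map_finsuppSum (Multiset.sumAddMonoidHom.comp (Multiset.mapAddMonoidHom F)) ω
    (fun v c => Multiset.replicate c.toNat v)
  simpa [posL, nsmul_eq_mul] using h

theorem negL_sum {R : Type*} [CommRing R] (ω : (ℝ × EuclideanSpace ℝ (Fin d)) →₀ ℤ)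
    (F : ℝ × EuclideanSpace ℝ (Fin d) → R) :
    ((negL ω).map F).sum = ω.sum (fun v c => ((-c).toNat : R) * F v) := by
  have h := map_finsuppSum (Multiset.sumAddMonoidHom.comp (Multiset.mapAddMonoidHom F)) ω
    (fun v c => Multiset.replicate (-c).toNat v)
  simpa [negL, nsmul_eq_mul] using h

theorem posL_sub_negL {R : Type*} [CommRing R] (ω : (ℝ × EuclideanSpace ℝ (Fin d)) →₀ ℤ)
    (F : ℝ × EuclideanSpace ℝ (Fin d) → R) :
    ((posL ω).map F).sum = ((negL ω).map F).sum + ω.sum (fun v c => (c : R) * F v) := by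
  rw [posL_sum, negL_sum, Finsupp.sum, Finsupp.sum, Finsupp.sum, ← Finset.sum_add_distrib]
  apply Finset.sum_congr rfl
  intro v _
  have h : (((ω v).toNat : ℤ) : ℤ) = ((-(ω v)).toNat : ℤ) + ω v := by omega
  have h' : (((ω v).toNat : ℕ) : R) = (((-(ω v)).toNat : ℕ) : R) + ((ω v : ℤ) : R) := by
    have := congrArg (Int.cast : ℤ → R) h
    push_cast at this
    exact this
  rw [h']
  ring

theorem posL_map_ev (ω : (ℝ × EuclideanSpace ℝ (Fin d)) →₀ ℤ)
    (a : EuclideanSpace ℝ (Fin d)) (h : ω.mapDomain (ev a) = 0) :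
    (posL ω).map (ev a) = (negL ω).map (ev a) := by
  classical
  ext r
  have key : ∀ S : Multiset ℝ, ((S.count r : ℕ) : ℤ) =
      (S.map (fun x => if x = r then (1 : ℤ) else 0)).sum := by
    intro S
    induction S using Multiset.induction with
    | empty => simp
    | cons x S ih =>
      rw [Multiset.count_cons, Multiset.map_cons, Multiset.sum_cons, ← ih]
      by_cases hx : x = r
      · simp [hx]; ring
      · have : ¬ r = x := fun h => hx h.symm
        simp [hx, this]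
  have h0 : ω.sum (fun v c => (c : ℤ) * (if ev a v = r then (1 : ℤ) else 0)) = 0 := by
    have h1 := DFunLike.congr_fun h r
    rw [Finsupp.mapDomain, Finsupp.sum_apply] at h1
    rw [Finsupp.coe_zero, Pi.zero_apply] at h1
    refine Eq.trans ?_ h1
    apply Finsupp.sum_congr
    intro v _
    rw [Finsupp.single_apply]
    by_cases hx : ev a v = r
    · rw [if_pos hx, if_pos hx, mul_one]
    · rw [if_neg hx, if_neg hx, mul_zero]
  have h2 := posL_sub_negL ω (fun v => if ev a v = r then (1 : ℤ) else 0)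
  have h3 : ((((posL ω).map (ev a)).count r : ℕ) : ℤ) = ((((negL ω).map (ev a)).count r : ℕ) : ℤ) := by
    rw [key, key, Multiset.map_map, Multiset.map_map]
    have h4 : ω.sum (fun v c => ((c : ℤ) : ℤ) * (if ev a v = r then (1 : ℤ) else 0)) = 0 := h0
    simp only [Int.cast_id] at h2
    rw [h4, add_zero] at h2
    exact h2
  exact_mod_cast h3

theorem ev_smul (a : EuclideanSpace ℝ (Fin d)) (μ : ℝ) (v : ℝ × EuclideanSpace ℝ (Fin d)) :
    ev a (μ • v) = μ * ev a v := by
  unfold ev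
  rw [Prod.smul_fst, Prod.smul_snd, inner_smul_left]
  simp
  ring

theorem stepC_multiset (A : Finset (EuclideanSpace ℝ (Fin d)))
    (hB : ∀ ε : ℝ, 0 < ε → ∃ (ω : (ℝ × EuclideanSpace ℝ (Fin d)) →₀ ℤ) (n : ℕ),
      IntCombo A ω n ∧ ω.sum (fun v c => max (-(c : ℝ)) 0 * ‖v.2‖ ^ 2) < ε * n)
    (N : ℕ) :
    ∃ κ : ℕ → Multiset (ℝ × EuclideanSpace ℝ (Fin d)),
      (∀ s t, 1 ≤ s → s ≤ N → 1 ≤ t → t ≤ N → ∀ a ∈ A, (κ s).map (ev a) = (κ t).map (ev a)) ∧
      ∀ s, 1 ≤ s → s ≤ N → ∀ x, ((κ s).map (fun v => inner ℝ v.2 x ^ 2)).sum =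
        (s : ℝ)⁻¹ * ‖x‖ ^ 2 := by
  classical
  obtain ⟨e', he'⟩ : ∃ e' : ℝ, e' = 1 / (2 * (N + 1)) := ⟨_, rfl⟩
  have hN0 : (0 : ℝ) < N + 1 := by positivity
  have he'0 : 0 < e' := by rw [he']; positivity
  obtain ⟨ω, n, ⟨hn, hmarg, hen⟩, hneg⟩ := hB (e' / (N + 1)) (by positivity)
  have hn0 : (0 : ℝ) < n := by exact_mod_cast hn
  have hmu : ∀ s : ℕ, 1 ≤ s → s ≤ N → 0 ≤ ((s : ℝ)⁻¹ - e') := by
    intro s hs hsN
    have hs0 : (0 : ℝ) < s := by exact_mod_cast hs
    have hsN' : (s : ℝ) ≤ N := by exact_mod_cast hsN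
    have : e' ≤ (s : ℝ)⁻¹ := by
      rw [he', one_div]
      apply inv_anti₀ hs0
      linarith
    linarith
  obtain ⟨μ, hμ⟩ : ∃ μ : ℕ → ℝ, μ = fun s : ℕ => Real.sqrt (((s : ℝ)⁻¹ - e') / n) := ⟨_, rfl⟩
  have hμ2 : ∀ s : ℕ, 1 ≤ s → s ≤ N → μ s ^ 2 = ((s : ℝ)⁻¹ - e') / n := by
    intro s hs hsN
    rw [hμ]
    exact Real.sq_sqrt (div_nonneg (hmu s hs hsN) hn0.le)
  have hμle : ∀ s : ℕ, 1 ≤ s → s ≤ N → μ s ^ 2 ≤ 1 / n := by
    intro s hs hsN
    rw [hμ2 s hs hsN]
    apply div_le_div_of_nonneg_right _ hn0.le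
    have hs1 : (1 : ℝ) ≤ s := by exact_mod_cast hs
    have : (s : ℝ)⁻¹ ≤ 1 := inv_le_one_of_one_le₀ hs1
    linarith
  obtain ⟨Lp, hLp⟩ : ∃ Lp, Lp = posL ω := ⟨_, rfl⟩
  obtain ⟨Lm, hLm⟩ : ∃ Lm, Lm = negL ω := ⟨_, rfl⟩
  have hev : ∀ a ∈ A, Lp.map (ev a) = Lm.map (ev a) := by
    intro a ha
    rw [hLp, hLm]
    exact posL_map_ev ω a (hmarg a ha)
  have hE : ∀ x, (Lp.map (fun v => inner ℝ v.2 x ^ 2)).sum =
      (Lm.map (fun v => inner ℝ v.2 x ^ 2)).sum + n * ‖x‖ ^ 2 := by
    intro x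
    rw [hLp, hLm, posL_sub_negL, hen x]
  have hG : ∀ x, (Lm.map (fun v => inner ℝ v.2 x ^ 2)).sum ≤
      e' / (N + 1) * n * ‖x‖ ^ 2 := by
    intro x
    have h1 : (Lm.map (fun v => inner ℝ v.2 x ^ 2)).sum ≤
        (Lm.map (fun v => ‖v.2‖ ^ 2 * ‖x‖ ^ 2)).sum := by
      apply Multiset.sum_map_le_sum_map
      intro v _
      have h2 := abs_real_inner_le_norm v.2 x
      calc inner ℝ v.2 x ^ 2 = |inner ℝ v.2 x| ^ 2 := (sq_abs _).symm
        _ ≤ (‖v.2‖ * ‖x‖) ^ 2 := pow_le_pow_left₀ (abs_nonneg _) h2 2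
        _ = ‖v.2‖ ^ 2 * ‖x‖ ^ 2 := by ring
    refine h1.trans ?_
    rw [Multiset.sum_map_mul_right]
    apply mul_le_mul_of_nonneg_right _ (by positivity)
    rw [hLm, negL_sum]
    refine le_trans (le_of_eq ?_) hneg.le
    apply Finsupp.sum_congr
    intro v _
    congr 1
    have h3 : (((-(ω v)).toNat : ℕ) : ℤ) = max (-(ω v)) 0 := Int.toNat_eq_max _
    have h4 := congrArg (Int.cast : ℤ → ℝ) h3
    push_cast at h4
    exact h4
  -- the energy functional
  obtain ⟨Q, hQ⟩ : ∃ Q : EuclideanSpace ℝ (Fin d) →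
      (Multiset (ℝ × EuclideanSpace ℝ (Fin d)) →+ ℝ),
      ∀ x M, Q x M = (M.map (fun v => inner ℝ v.2 x ^ 2)).sum :=
    ⟨fun x => Multiset.sumAddMonoidHom.comp (Multiset.mapAddMonoidHom
      (fun v : ℝ × EuclideanSpace ℝ (Fin d) => (inner ℝ v.2 x : ℝ) ^ 2)), fun x M => rfl⟩
  have hQs : ∀ x (c : ℝ) M, Q x (M.map (fun v => c • v)) = c ^ 2 * Q x M := by
    intro x c M
    rw [hQ, hQ, Multiset.map_map, ← Multiset.sum_map_mul_left]
    congr 1
    apply Multiset.map_congr rfl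
    intro v _
    simp only [Function.comp, Prod.smul_snd]
    rw [inner_smul_left]
    simp only [conj_trivial]
    ring
  have hE' : ∀ x, Q x Lp = Q x Lm + n * ‖x‖ ^ 2 := by
    intro x; rw [hQ, hQ]; exact hE x
  obtain ⟨Bs, hBs⟩ : ∃ Bs : Multiset (ℝ × EuclideanSpace ℝ (Fin d)),
      Bs = ∑ j ∈ Finset.Icc 1 N, Lm.map (fun v => μ j • v) := ⟨_, rfl⟩
  have hQB : ∀ x, Q x Bs = (∑ j ∈ Finset.Icc 1 N, μ j ^ 2) * Q x Lm := by
    intro x
    rw [hBs, map_sum, Finset.sum_mul]
    exact Finset.sum_congr rfl (fun j _ => hQs x (μ j) Lm)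
  have hQLm0 : ∀ x, 0 ≤ Q x Lm := by
    intro x
    rw [hQ]
    apply Multiset.sum_nonneg
    intro y hy
    obtain ⟨v, _, rfl⟩ := Multiset.mem_map.mp hy
    positivity
  have hQBle : ∀ x, Q x Bs ≤ e' * ‖x‖ ^ 2 := by
    intro x
    rw [hQB]
    have h1 : ∑ j ∈ Finset.Icc 1 N, μ j ^ 2 ≤ (N + 1) / n := by
      calc ∑ j ∈ Finset.Icc 1 N, μ j ^ 2 ≤ ∑ j ∈ Finset.Icc 1 N, (1 / n : ℝ) := by
            apply Finset.sum_le_sum
            intro j hj
            rw [Finset.mem_Icc] at hj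
            exact hμle j hj.1 hj.2
        _ = N * (1 / n) := by simp
        _ ≤ (N + 1) / n := by
            rw [mul_one_div]
            apply div_le_div_of_nonneg_right _ hn0.le
            linarith
    have h2 : Q x Lm ≤ e' / (N + 1) * n * ‖x‖ ^ 2 := by rw [hQ]; exact hG x
    calc (∑ j ∈ Finset.Icc 1 N, μ j ^ 2) * Q x Lm ≤ (N + 1) / n * Q x Lm :=
          mul_le_mul_of_nonneg_right h1 (hQLm0 x)
      _ ≤ (N + 1) / n * (e' / (N + 1) * n * ‖x‖ ^ 2) :=
          mul_le_mul_of_nonneg_left h2 (by positivity)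
      _ = e' * ‖x‖ ^ 2 := by field_simp
  obtain ⟨R, hR⟩ := stepC_psd (Bs.map Prod.snd) e' (by
    intro x
    rw [Multiset.map_map]
    have := hQBle x
    rw [hQ] at this
    exact this)
  obtain ⟨R0, hR0⟩ : ∃ R0 : Multiset (ℝ × EuclideanSpace ℝ (Fin d)),
      R0 = R.map (fun p => ((0 : ℝ), p)) := ⟨_, rfl⟩
  have hQR : ∀ x, Q x R0 + Q x Bs = e' * ‖x‖ ^ 2 := by
    intro x
    have := hR x
    rw [Multiset.map_map] at this
    rw [hQ, hQ, hR0, Multiset.map_map]
    exact this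
  refine ⟨fun s => (∑ j ∈ Finset.Icc 1 N, (if j = s then Lp else Lm).map (fun v => μ j • v)) + R0,
    ?_, ?_⟩
  · intro s t _ _ _ _ a ha
    have key : ∀ s : ℕ, Multiset.map (ev a)
        ((∑ j ∈ Finset.Icc 1 N, (if j = s then Lp else Lm).map (fun v => μ j • v)) + R0) =
        (∑ j ∈ Finset.Icc 1 N, (Lm.map (ev a)).map (fun r => μ j * r)) + R0.map (ev a) := by
      intro s
      rw [Multiset.map_add]
      congr 1
      have h1 := map_sum (Multiset.mapAddMonoidHom (ev a))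
        (fun j => (if j = s then Lp else Lm).map (fun v => μ j • v)) (Finset.Icc 1 N)
      refine h1.trans ?_
      apply Finset.sum_congr rfl
      intro j _
      show Multiset.map (ev a) (Multiset.map (fun v => μ j • v) (if j = s then Lp else Lm)) = _
      rw [Multiset.map_map]
      have h2 : ∀ M : Multiset (ℝ × EuclideanSpace ℝ (Fin d)),
          Multiset.map (ev a ∘ fun v => μ j • v) M = (M.map (ev a)).map (fun r => μ j * r) := by
        intro M
        rw [Multiset.map_map]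
        apply Multiset.map_congr rfl
        intro v _
        simp only [Function.comp]
        exact ev_smul a (μ j) v
      rw [h2]
      split_ifs
      · rw [hev a ha]
      · rfl
    show Multiset.map (ev a) _ = Multiset.map (ev a) _
    rw [key s, key t]
  · intro s hs hsN x
    show Multiset.sum (Multiset.map (fun v : ℝ × EuclideanSpace ℝ (Fin d) => (inner ℝ v.2 x : ℝ) ^ 2) _) = _
    rw [← hQ, map_add, map_sum]
    have h1 : ∀ j ∈ Finset.Icc 1 N, Q x ((if j = s then Lp else Lm).map (fun v => μ j • v)) =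
        μ j ^ 2 * Q x Lm + (if j = s then μ j ^ 2 * (n * ‖x‖ ^ 2) else 0) := by
      intro j _
      rw [hQs]
      split_ifs
      · rw [hE']; ring
      · ring
    rw [Finset.sum_congr rfl h1, Finset.sum_add_distrib, ← Finset.sum_mul, ← hQB,
      Finset.sum_ite_eq' (Finset.Icc 1 N) s, if_pos (Finset.mem_Icc.mpr ⟨hs, hsN⟩), hμ2 s hs hsN]
    have h2 := hQR x
    have h3 : ((s : ℝ)⁻¹ - e') / n * (n * ‖x‖ ^ 2) = ((s : ℝ)⁻¹ - e') * ‖x‖ ^ 2 := by
      field_simp
    rw [h3]
    linarith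

theorem stepC (A : Finset (EuclideanSpace ℝ (Fin d)))
    (hB : ∀ ε : ℝ, 0 < ε → ∃ (ω : (ℝ × EuclideanSpace ℝ (Fin d)) →₀ ℤ) (n : ℕ),
      IntCombo A ω n ∧ ω.sum (fun v c => max (-(c : ℝ)) 0 * ‖v.2‖ ^ 2) < ε * n)
    (N : ℕ) :
    ∃ (m : ℕ) (f : ℕ → Fin m → ℝ × EuclideanSpace ℝ (Fin d)), 1 ≤ m ∧
      (∀ s t, 1 ≤ s → s ≤ N → 1 ≤ t → t ≤ N → ∀ a ∈ A, ∃ σ : Equiv.Perm (Fin m),
        ∀ l, ev a (f s l) = ev a (f t (σ l))) ∧
      ∀ s, 1 ≤ s → s ≤ N → ∀ x, ∑ l, inner ℝ (f s l).2 x ^ 2 = (s : ℝ)⁻¹ * ‖x‖ ^ 2 := by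
  classical
  obtain ⟨κ, hκ1, hκ2⟩ := stepC_multiset A hB N
  obtain ⟨m, hm⟩ : ∃ m : ℕ, m = (Finset.range (N + 1)).sup (fun s => Multiset.card (κ s)) + 1 :=
    ⟨_, rfl⟩
  have hcard : ∀ s, s ≤ N → Multiset.card (κ s) ≤ m := by
    intro s hs
    rw [hm]
    have := Finset.le_sup (f := fun s => Multiset.card (κ s)) (Finset.mem_range.mpr (Nat.lt_succ_of_le hs))
    exact Nat.le_succ_of_le this
  have hrep : ∀ s, ∃ g : Fin m → ℝ × EuclideanSpace ℝ (Fin d), s ≤ N →
      Multiset.map g Finset.univ.val =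
        κ s + Multiset.replicate (m - Multiset.card (κ s)) 0 := by
    intro s
    by_cases hs : s ≤ N
    · have hc : Multiset.card (κ s + Multiset.replicate (m - Multiset.card (κ s)) 0) = m := by
        rw [Multiset.card_add, Multiset.card_replicate]
        have := hcard s hs
        omega
      obtain ⟨l, hl⟩ := Quot.exists_rep (κ s + Multiset.replicate (m - Multiset.card (κ s)) 0)
      have hl' : (l : Multiset (ℝ × EuclideanSpace ℝ (Fin d))) =
        κ s + Multiset.replicate (m - Multiset.card (κ s)) 0 := hl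
      have hlen : l.length = m := by
        rw [← hc, ← hl']
        rfl
      subst hlen
      refine ⟨fun i => l.get i, fun _ => ?_⟩
      rw [← hl']
      have : (Finset.univ : Finset (Fin l.length)).val = (List.finRange l.length : Multiset _) := rfl
      rw [this, Multiset.map_coe]
      congr 1
      exact List.map_get_finRange l
    · exact ⟨fun _ => 0, fun h => absurd h hs⟩
  choose f hf using hrep
  refine ⟨m, f, by omega, ?_, ?_⟩
  · intro s t hs hsN ht htN a ha
    have h1 := hκ1 s t hs hsN ht htN a ha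
    apply stepC_exists_perm (fun l => ev a (f s l)) (fun l => ev a (f t l))
    have h2 : ∀ s, s ≤ N → Multiset.map (fun l => ev a (f s l)) Finset.univ.val =
        (κ s).map (ev a) + Multiset.replicate (m - Multiset.card (κ s)) (ev a 0) := by
      intro s hs
      have h3 := congrArg (Multiset.map (ev a)) (hf s hs)
      rw [Multiset.map_map, Multiset.map_add, Multiset.map_replicate] at h3
      exact h3
    rw [h2 s hsN, h2 t htN, h1]
    have h4 := congrArg Multiset.card h1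
    rw [Multiset.card_map, Multiset.card_map] at h4
    rw [h4]
  · intro s hs hsN x
    rw [← hκ2 s hs hsN x]
    show Multiset.sum (Multiset.map (fun l => inner ℝ (f s l).2 x ^ 2) Finset.univ.val) = _
    have h3 := congrArg (Multiset.map (fun v : ℝ × EuclideanSpace ℝ (Fin d) =>
      (inner ℝ v.2 x : ℝ) ^ 2)) (hf s hsN)
    rw [Multiset.map_map, Multiset.map_add, Multiset.map_replicate] at h3
    have h4 := congrArg Multiset.sum h3
    rw [Multiset.sum_add, Multiset.sum_replicate] at h4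
    simpa [Function.comp_def] using h4

end StepC

end Vale.Agent.P058.SC
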