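import Vale.Agent.P058.Realize
import Vale.Agent.P058.Base

set_option autoImplicit false

namespace Vale.Agent.P058

open Equiv

noncomputable def SDr (N : ℕ) (u v : FreeMonoid ℝ) : ℝ :=
  ∑ i ∈ Finset.range N, (u.toList.getD i 0 - v.toList.getD i 0) ^ 2

theorem RD.geom {α : Type*} {E : α → α → ℝ} {w : α → FreeMonoid ℝ} (hw : RD E w) :
    ∃ N : ℕ, (∀ x, (w x).toList.length = N) ∧ ∀ x y, SDr N (w x) (w y) = E x y := by
  induction hw with
  | const v => exact ⟨v.toList.length, fun _ => rfl, fun x y => by simp [SDr]⟩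
  | col g =>
    refine ⟨1, fun _ => rfl, fun x y => ?_⟩
    simp [SDr, FreeMonoid.toList_of]
  | @mul e e' u v _ _ ih1 ih2 =>
    obtain ⟨N1, h1, h1'⟩ := ih1
    obtain ⟨N2, h2, h2'⟩ := ih2
    refine ⟨N1 + N2, fun x => by simp [FreeMonoid.toList_mul, h1, h2], fun x y => ?_⟩
    have e1 := h1' x y
    have e2 := h2' x y
    unfold SDr at e1 e2 ⊢
    rw [Finset.sum_range_add]
    show _ = e x y + e' x y
    rw [← e1, ← e2]
    congr 1
    · apply Finset.sum_congr rfl
      intro i hi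
      have hi' := Finset.mem_range.1 hi
      rw [FreeMonoid.toList_mul, FreeMonoid.toList_mul, List.getD_append _ _ _ _ (by rw [h1]; exact hi'),
        List.getD_append _ _ _ _ (by rw [h1]; exact hi')]
    · apply Finset.sum_congr rfl
      intro i hi
      rw [FreeMonoid.toList_mul, FreeMonoid.toList_mul, List.getD_append_right _ _ _ _ (by rw [h1]; omega),
        List.getD_append_right _ _ _ _ (by rw [h1]; omega), h1, h1, Nat.add_sub_cancel_left]

noncomputable def vecr (s : ℝ) (N : ℕ) (w : FreeMonoid ℝ) :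
    EuclideanSpace ℝ (Option (Fin N)) :=
  WithLp.toLp 2 (fun o => o.elim 0 (fun p => s * w.toList.getD p 0))

theorem dist_vecr (s : ℝ) (N : ℕ) (u v : FreeMonoid ℝ) :
    dist (vecr s N u) (vecr s N v) ^ 2 = s ^ 2 * SDr N u v := by
  rw [EuclideanSpace.dist_eq, Real.sq_sqrt (Finset.sum_nonneg fun _ _ => sq_nonneg _)]
  rw [Fintype.sum_option]
  unfold SDr
  rw [← Fin.sum_univ_eq_sum_range (fun i => (u.toList.getD i 0 - v.toList.getD i 0) ^ 2),
    Finset.mul_sum]
  simp only [vecr, Option.elim, dist_self]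
  rw [zero_pow two_ne_zero, zero_add]
  apply Finset.sum_congr rfl
  intro i _
  rw [Real.dist_eq, ← mul_sub, abs_mul, mul_pow, sq_abs, sq_abs]

theorem ramsey_of_families {d : ℕ} (A : Finset (EuclideanSpace ℝ (Fin d)))
    (hC : ∀ N : ℕ, ∃ (m : ℕ) (f : ℕ → Fin m → ℝ × EuclideanSpace ℝ (Fin d)), 1 ≤ m ∧
      (∀ s t, 1 ≤ s → s ≤ N → 1 ≤ t → t ≤ N → ∀ a ∈ A, ∃ σ : Equiv.Perm (Fin m),
        ∀ l, ev a (f s l) = ev a (f t (σ l))) ∧
      ∀ s, 1 ≤ s → s ≤ N → ∀ x, ∑ l, inner ℝ (f s l).2 x ^ 2 = (s : ℝ)⁻¹ * ‖x‖ ^ 2) :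
    IsRamsey (A : Set (EuclideanSpace ℝ (Fin d))) := by
  classical
  intro r hr
  have hfin : Fintype (A : Set (EuclideanSpace ℝ (Fin d))) := A.finite_toSet.fintype
  obtain ⟨J, hJf, hJ⟩ := Combinatorics.Line.exists_mono_in_high_dimension
    (A : Set (EuclideanSpace ℝ (Fin d))) (Fin r)
  obtain ⟨m, f, hm, hrow, hen⟩ := hC (Fintype.card J)
  have : NeZero m := ⟨by omega⟩
  have hmem : ∀ a : (A : Set (EuclideanSpace ℝ (Fin d))), a.1 ∈ A := fun a => Finset.mem_coe.1 a.2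
  obtain ⟨M, hM, H⟩ := exists_mono_family (κ := Fin r) hJ
    (fun s i (a : (A : Set (EuclideanSpace ℝ (Fin d)))) => ev a.1 (f s i))
    (fun a b => dist a b ^ 2)
    (by
      intro s hs1 hs2 a
      exact hrow s 1 hs1 hs2 le_rfl (hs1.trans hs2) a.1 (hmem a))
    (by
      intro s hs1 hs2 a b
      have h1 := hen s hs1 hs2 (a.1 - b.1)
      have h2 : ∀ i, (ev a.1 (f s i) - ev b.1 (f s i)) = inner ℝ (f s i).2 (a.1 - b.1) := by
        intro i
        simp only [ev]
        rw [inner_sub_right]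
        ring
      rw [Finset.sum_congr rfl (fun i _ => by rw [h2 i]), h1, ← mul_assoc,
        mul_inv_cancel₀ (by positivity), one_mul, Subtype.dist_eq, dist_eq_norm])
  by_contra hcon
  push Not at hcon
  let D : ℕ → ℕ := fun N => Fintype.card (Option (Fin N))
  have hD : ∀ N, 1 ≤ D N := fun N => Fintype.card_pos
  choose c hc using fun N => hcon (D N) (hD N)
  let L : ∀ N, EuclideanSpace ℝ (Option (Fin N)) ≃ₗᵢ[ℝ] EuclideanSpace ℝ (Fin (D N)) :=
    fun N => LinearIsometryEquiv.piLpCongrLeft 2 ℝ ℝ (Fintype.equivFin _)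
  let s : ℝ := (Real.sqrt M)⁻¹
  have hs : s ^ 2 * M = 1 := by
    simp only [s]
    rw [inv_pow, Real.sq_sqrt hM.le, inv_mul_cancel₀ hM.ne']
  let χ : FreeMonoid ℝ → Fin r := fun w =>
    c w.toList.length (L w.toList.length (vecr s w.toList.length w))
  obtain ⟨w, hw, hmono⟩ := H χ
  obtain ⟨N, hN, hSD⟩ := hw.geom
  have hχ : ∀ x, χ (w x) = c N (L N (vecr s N (w x))) := by
    intro x
    have h1 := hN x
    simp only [χ]
    rw [h1]
  have hiso : Isometry (fun a : (A : Set (EuclideanSpace ℝ (Fin d))) => L N (vecr s N (w a))) := by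
    apply Isometry.of_dist_eq
    intro a b
    rw [(L N).dist_map]
    have h2 := dist_vecr s N (w a) (w b)
    rw [hSD, ← mul_assoc, hs, one_mul] at h2
    exact (pow_left_inj₀ dist_nonneg dist_nonneg two_ne_zero).1 h2
  by_cases hne : Nonempty (A : Set (EuclideanSpace ℝ (Fin d)))
  · obtain ⟨a₀⟩ := hne
    obtain ⟨a, ha⟩ := hc N _ hiso (χ (w a₀))
    apply ha
    rw [← hχ]
    exact hmono _ _
  · obtain ⟨a, ha⟩ := hc N _ hiso ⟨0, by omega⟩
    exact hne ⟨a⟩

end Vale.Agent.P058
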