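import Vale.Agent.P058.StepA
import Vale.Agent.P058.StepB
import Vale.Agent.P058.StepC
import Vale.Agent.P058.Suff

set_option autoImplicit false

namespace Vale.Agent.P058

theorem ramsey_of_qspherical {d : ℕ} (A : Set (EuclideanSpace ℝ (Fin d))) (hA : A.Finite)
    (h : QSpherical A) : IsRamsey A := by
  classical
  obtain ⟨B, rfl⟩ := hA.exists_finset_coe
  obtain ⟨ω₀, n₀, h₀⟩ := SA.stepA B h
  exact ramsey_of_families B (SC.stepC B (fun ε hε => SB.stepB B ω₀ n₀ h₀ ε hε))

end Vale.Agent.P058
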