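import Vale.Agent.P058.Words

set_option autoImplicit false

namespace Vale.Agent.P058

open Equiv

variable {ι : Type*} [DecidableEq ι] {Q : Type*} [Group Q]

theorem card_image_lt_aux {α β : Type*} [DecidableEq β] (s : Finset α) (b ζ : α → β)
    (hfac : ∀ p ∈ s, ∀ q ∈ s, b p = b q → ζ p = ζ q) {i j : α} (hi : i ∈ s) (hj : j ∈ s)
    (hb : b i ≠ b j) (hζ : ζ i = ζ j) : (s.image ζ).card < (s.image b).card := by
  classical
  let g : β → β := fun q => if h : ∃ p ∈ s, b p = q then ζ h.choose else q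
  have hg : ∀ p ∈ s, g (b p) = ζ p := by
    intro p hp
    have h : ∃ p' ∈ s, b p' = b p := ⟨p, hp, rfl⟩
    simp only [g, dif_pos h]
    exact hfac _ h.choose_spec.1 _ hp h.choose_spec.2
  have himg : s.image ζ = (s.image b).image g := by
    rw [Finset.image_image]
    apply Finset.image_congr
    intro p hp
    exact (hg p hp).symm
  rw [himg]
  refine lt_of_le_of_ne Finset.card_image_le ?_
  intro hc
  have hinj := Finset.card_image_iff.1 hc
  apply hb
  apply hinj
  · exact Finset.mem_coe.2 (Finset.mem_image_of_mem _ hi)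
  · exact Finset.mem_coe.2 (Finset.mem_image_of_mem _ hj)
  · rw [hg i hi, hg j hj, hζ]

theorem factor_coset {T : Finset ι} {l₀ : ι} (x₀ : Perm ι) (W : Perm ι → Q)
    (hW : ∀ x h, HT T h → W (x * h) = W x) (h : Perm ι) (hh : HT (insert l₀ T) h) :
    W (x₀ * h) = W (x₀ * Equiv.swap l₀ (h l₀)) := by
  have hk : HT T (Equiv.swap l₀ (h l₀) * h) := by
    intro l hl
    by_cases hl0 : l = l₀
    · subst hl0
      simp
    · have hl' : l ∉ insert l₀ T := by
        simp [hl0, hl]
      have h1 := hh l hl'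
      have h2 : h l₀ ∈ insert l₀ T := hh.mem (Finset.mem_insert_self _ _)
      rw [Perm.mul_apply, h1]
      apply Equiv.swap_apply_of_ne_of_ne hl0
      rintro rfl
      exact hl' h2
  have := hW (x₀ * Equiv.swap l₀ (h l₀)) _ hk
  rw [← this]
  congr 1
  rw [mul_assoc, ← mul_assoc (Equiv.swap l₀ (h l₀)), Equiv.swap_mul_self, one_mul]

theorem ustep [Fintype ι] [DecidableEq Q] (T : Finset ι) (l₀ : ι) (hl₀ : l₀ ∉ T) (hInv : InvT Q T)
    (x₀ : Perm ι) : ∀ (n : ℕ) (b : ι → Q) (ψ : Perm ι → Q),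
    ((insert l₀ T).image b).card ≤ n →
    (∀ h, HT (insert l₀ T) h → ψ (x₀ * h) = b (h l₀)) →
    ∃ m u, 1 ≤ m ∧ PW (Orb (insert l₀ T) ψ) m u ∧
      ∀ h, HT (insert l₀ T) h → u (x₀ * h) = u x₀ := by
  intro n
  induction n with
  | zero =>
    intro b ψ hn hψ
    have := hn
    simp at this
  | succ n ih =>
    intro b ψ hn hψ
    set T' := insert l₀ T with hT'
    by_cases hconst : ∀ i ∈ T', ∀ j ∈ T', b i = b j
    · refine ⟨1, ψ, le_rfl, PW.col (self_mem_Orb _ _), ?_⟩
      intro h hh
      have h1 := hψ h hh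
      have h2 := hψ 1 (HT.one _)
      rw [mul_one] at h2
      rw [h1, h2]
      exact hconst _ (hh.mem (Finset.mem_insert_self _ _)) _ (Finset.mem_insert_self _ _)
    · push Not at hconst
      obtain ⟨i, hi, j, hj, hij⟩ := hconst
      have hTne : T.Nonempty := by
        rcases Finset.mem_insert.1 hi with hi0 | hi0
        · rcases Finset.mem_insert.1 hj with hj0 | hj0
          · exact absurd (by rw [hi0, hj0]) hij
          · exact ⟨j, hj0⟩
        · exact ⟨i, hi0⟩
      obtain ⟨l₁, hl₁⟩ := hTne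
      have hl₁' : l₁ ∈ T' := Finset.mem_insert_of_mem hl₁
      have hl₀' : l₀ ∈ T' := Finset.mem_insert_self _ _
      have hTT' : T ⊆ T' := Finset.subset_insert _ _
      obtain ⟨mW, W, hmW, hW, hWinv⟩ := hInv (fun x => ψ (x * Equiv.swap l₀ l₁))
      have hC : ∀ h, HT T' h → W (x₀ * h) = W (x₀ * Equiv.swap l₀ (h l₀)) :=
        fun h hh => factor_coset x₀ W hWinv h hh
      set C : ι → Q := fun p => W (x₀ * Equiv.swap l₀ p) with hCdef
      have hC' : ∀ h, HT T' h → W (x₀ * h) = C (h l₀) := hC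
      have hcol : ∀ (k h : Perm ι), HT T k → HT T' h →
          ψ (x₀ * h * k * Equiv.swap l₀ l₁) = b (h (k l₁)) := by
        intro k h hk hh
        have := hψ (h * k * Equiv.swap l₀ l₁)
          ((hh.mul (hk.mono hTT')).mul (HT.swap hl₀' hl₁'))
        simpa [mul_assoc] using this
      have hCb : ∀ p ∈ T', ∀ q ∈ T', b p = b q → C p = C q := by
        intro p hp q hq hpq
        have h1 : HT T' (Equiv.swap l₀ p) := HT.swap hl₀' hp
        have h2 : HT T' (Equiv.swap p q * Equiv.swap l₀ p) := (HT.swap hp hq).mul h1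
        have e1 : W (x₀ * Equiv.swap l₀ p) = W (x₀ * (Equiv.swap p q * Equiv.swap l₀ p)) := by
          refine hW.eq_of_eq ?_
          rintro f ⟨k, hk, rfl⟩
          show ψ (x₀ * Equiv.swap l₀ p * k * Equiv.swap l₀ l₁) =
            ψ (x₀ * (Equiv.swap p q * Equiv.swap l₀ p) * k * Equiv.swap l₀ l₁)
          rw [hcol k _ hk h1, hcol k _ hk h2, Perm.mul_apply]
          generalize (Equiv.swap l₀ p) (k l₁) = z
          rcases eq_or_ne z p with rfl | hzp
          · rw [Equiv.swap_apply_left, hpq]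
          · rcases eq_or_ne z q with rfl | hzq
            · rw [Equiv.swap_apply_right, hpq]
            · rw [Equiv.swap_apply_of_ne_of_ne hzp hzq]
        rw [hC' _ h1, hC' _ h2] at e1
        simpa using e1
      have hη : (C j)⁻¹ * C i ∈ CP ((b i)⁻¹ * b j) := by
        have h1 : HT T' (Equiv.swap l₀ j) := HT.swap hl₀' hj
        have h2 : HT T' (Equiv.swap i j * Equiv.swap l₀ j) := (HT.swap hi hj).mul h1
        have e1 : (W (x₀ * Equiv.swap l₀ j))⁻¹ * W (x₀ * (Equiv.swap i j * Equiv.swap l₀ j)) ∈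
            CP ((b i)⁻¹ * b j) := by
          refine hW.diff (CP_conj _) ?_
          rintro f ⟨k, hk, rfl⟩
          show (ψ (x₀ * Equiv.swap l₀ j * k * Equiv.swap l₀ l₁))⁻¹ *
            ψ (x₀ * (Equiv.swap i j * Equiv.swap l₀ j) * k * Equiv.swap l₀ l₁) ∈ _
          rw [hcol k _ hk h1, hcol k _ hk h2, Perm.mul_apply]
          have hkl : k l₁ ≠ l₀ := by
            intro h
            exact hl₀ (h ▸ hk.mem hl₁)
          have hzj : (Equiv.swap l₀ j) (k l₁) ≠ j := by
            intro h
            apply hkl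
            have : (Equiv.swap l₀ j) (k l₁) = (Equiv.swap l₀ j) l₀ := by
              rw [h, Equiv.swap_apply_left]
            exact (Equiv.swap l₀ j).injective this
          generalize (Equiv.swap l₀ j) (k l₁) = z at hzj
          rcases eq_or_ne z i with rfl | hzi
          · rw [Equiv.swap_apply_left]
            exact self_mem_CP _
          · rw [Equiv.swap_apply_of_ne_of_ne hzi hzj, inv_mul_cancel]
            exact Submonoid.one_mem _
        rw [hC' _ h1, hC' _ h2] at e1
        simpa using e1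
      obtain ⟨E, hE1, hE2, hE3⟩ := exists_poly (b i) (b j) _ hη
      obtain ⟨mE, hmE⟩ := hE3 (Perm ι) ψ
      have hWZ : PW (Orb T' ψ) mW W := by
        refine hW.mono ?_
        rintro f ⟨k, hk, rfl⟩
        refine ⟨k * Equiv.swap l₀ l₁, (hk.mono hTT').mul (HT.swap hl₀' hl₁'), ?_⟩
        funext x
        simp [mul_assoc]
      have hEZ : PW (Orb T' ψ) mE (fun x => E (ψ x)) := by
        refine hmE.mono ?_
        rintro f rfl
        exact self_mem_Orb _ _
      have hZ : PW (Orb T' ψ) (mW + mE) (W * fun x => E (ψ x)) := PW.mul hWZ hEZ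
      have hcard : ((T'.image (fun p => C p * E (b p)))).card < (T'.image b).card := by
        refine card_image_lt_aux T' b _ ?_ hi hj hij ?_
        · intro p hp q hq hpq
          simp only [hCb p hp q hq hpq, hpq]
        · simp only [hE1, hE2]
          group
      obtain ⟨m, u, hm, hu, hc⟩ := ih (fun p => C p * E (b p)) (W * fun x => E (ψ x))
        (by omega)
        (by
          intro h hh
          simp only [Pi.mul_apply]
          rw [hC' h hh, hψ h hh])
      obtain ⟨k, hk, hk'⟩ := Orb.comp (Finset.Subset.refl T') (by omega) hZ hu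
      exact ⟨k, u, by omega, hk', hc⟩

theorem inv_insert [Fintype ι] (T : Finset ι) (l₀ : ι) (hl₀ : l₀ ∉ T) (hInv : InvT Q T) :
    InvT Q (insert l₀ T) := by
  classical
  apply inv_of_coset
  intro φ x₀
  obtain ⟨m₁, φ₁, hm₁, hφ₁, hinv₁⟩ := hInv φ
  obtain ⟨m, u, hm, hu, hc⟩ := ustep T l₀ hl₀ hInv x₀
    ((insert l₀ T).image (fun p => φ₁ (x₀ * Equiv.swap l₀ p))).card
    (fun p => φ₁ (x₀ * Equiv.swap l₀ p)) φ₁
    le_rfl
    (by
      intro h hh
      exact factor_coset x₀ φ₁ hinv₁ h hh)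
  have hφ₁' : PW (Orb (insert l₀ T) φ) m₁ φ₁ := by
    refine hφ₁.mono ?_
    rintro f ⟨k, hk, rfl⟩
    exact ⟨k, hk.mono (Finset.subset_insert _ _), rfl⟩
  obtain ⟨k, hk, hk'⟩ := Orb.comp (Finset.Subset.refl _) hm₁ hφ₁' hu
  exact ⟨k, u, by omega, hk', hc⟩

theorem inv_all [Fintype ι] (T : Finset ι) : InvT Q T := by
  induction T using Finset.induction_on with
  | empty =>
    intro φ
    refine ⟨1, φ, le_rfl, PW.col (self_mem_Orb _ _), ?_⟩
    intro x h hh
    have : h = 1 := by
      ext l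
      exact hh l (by simp)
    rw [this, mul_one]
  | insert l₀ T hl₀ ih => exact inv_insert T l₀ hl₀ ih

theorem exists_constant_word [Fintype ι] (φ : Perm ι → Q) :
    ∃ m c, 1 ≤ m ∧ PW {f | ∃ k : Perm ι, f = fun x => φ (x * k)} m (fun _ => c) := by
  obtain ⟨m, u, hm, hu, hc⟩ := inv_all (Finset.univ : Finset ι) φ
  refine ⟨m, u 1, hm, ?_⟩
  have : u = fun _ => u 1 := by
    funext x
    have := hc 1 x (fun l hl => absurd (Finset.mem_univ l) hl)
    rw [one_mul] at this
    exact this
  rw [← this]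
  refine hu.mono ?_
  rintro f ⟨k, _, rfl⟩
  exact ⟨k, rfl⟩

end Vale.Agent.P058
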