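import Vale.Agent.P058.Sym

set_option autoImplicit false

namespace Vale.Agent.P058

open Equiv

inductive PN {ι D Q : Type*} [DecidableEq ι] [Group Q] (F : ι → D → Q) :
    (ι → ℕ) → (D → Q) → Prop
  | const (c : Q) : PN F 0 (fun _ => c)
  | col (l : ι) : PN F (Pi.single l 1) (F l)
  | mul {m n : ι → ℕ} {u v : D → Q} (hu : PN F m u) (hv : PN F n v) : PN F (m + n) (u * v)

theorem PW.toPN {ι D Q : Type*} [DecidableEq ι] [Fintype ι] [Group Q] {F : ι → D → Q} {m : ℕ}
    {u : D → Q} (h : PW (Set.range F) m u) : ∃ n : ι → ℕ, ∑ l, n l = m ∧ PN F n u := by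
  induction h with
  | const c => exact ⟨0, by simp, PN.const c⟩
  | col hf =>
    obtain ⟨l, rfl⟩ := hf
    exact ⟨Pi.single l 1, by simp, PN.col l⟩
  | mul _ _ ih1 ih2 =>
    obtain ⟨n1, h1, h1'⟩ := ih1
    obtain ⟨n2, h2, h2'⟩ := ih2
    exact ⟨n1 + n2, by simp [Finset.sum_add_distrib, h1, h2], PN.mul h1' h2'⟩

theorem multi_orbit {α ι Q : Type*} [Fintype α] [DecidableEq α] [Fintype ι] [DecidableEq ι]
    [Nonempty ι] [Group Q] (ψ : α → ι → Q) :
    ∃ (m : ℕ) (q : α → Q), 1 ≤ m ∧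
      PW (Set.range (fun (l : ι) (x : α × Perm ι) => ψ x.1 (x.2 l))) m (fun x => q x.1) := by
  have key : ∀ S : Finset α, ∃ (m : ℕ) (u : α × Perm ι → Q), 1 ≤ m ∧
      PW (Set.range (fun (l : ι) (x : α × Perm ι) => ψ x.1 (x.2 l))) m u ∧
      ∀ a ∈ S, ∀ σ τ, u (a, σ) = u (a, τ) := by
    intro S
    induction S using Finset.induction_on with
    | empty =>
      obtain ⟨l⟩ := ‹Nonempty ι›
      exact ⟨1, _, le_rfl, PW.col ⟨l, rfl⟩, by simp⟩
    | insert a₀ S _ ih =>
      obtain ⟨m, u, hm, hu, hS⟩ := ih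
      obtain ⟨m', c, hm', hc⟩ := exists_constant_word (fun σ : Perm ι => u (a₀, σ))
      have lift : ∀ (k : ℕ) (v : Perm ι → Q),
          PW {f | ∃ k : Perm ι, f = fun x => u (a₀, x * k)} k v →
          ∃ (k' : ℕ) (w : α × Perm ι → Q), k ≤ k' ∧
            PW (Set.range (fun (l : ι) (x : α × Perm ι) => ψ x.1 (x.2 l))) k' w ∧
            (∀ x, w (a₀, x) = v x) ∧ ∀ a ∈ S, ∀ σ τ, w (a, σ) = w (a, τ) := by
        intro k v hv
        induction hv with
        | const c => exact ⟨0, _, le_rfl, PW.const c, fun _ => rfl, fun _ _ _ _ => rfl⟩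
        | col hf =>
          obtain ⟨k, rfl⟩ := hf
          refine ⟨m, _, hm, hu.pull (fun x : α × Perm ι => (x.1, x.2 * k)) ?_, fun x => rfl,
            fun a ha σ τ => hS a ha _ _⟩
          rintro f ⟨l, rfl⟩
          exact ⟨k l, rfl⟩
        | mul _ _ ih1 ih2 =>
          obtain ⟨k1, w1, h1, h1', h1'', h1'''⟩ := ih1
          obtain ⟨k2, w2, h2, h2', h2'', h2'''⟩ := ih2
          refine ⟨k1 + k2, w1 * w2, by omega, PW.mul h1' h2', ?_, ?_⟩
          · intro x
            simp [h1'', h2'']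
          · intro a ha σ τ
            simp only [Pi.mul_apply]
            rw [h1''' a ha σ τ, h2''' a ha σ τ]
      obtain ⟨k', w, hk', hw, hw1, hw2⟩ := lift m' _ hc
      refine ⟨k', w, by omega, hw, ?_⟩
      intro a ha σ τ
      rcases Finset.mem_insert.1 ha with rfl | ha
      · rw [hw1, hw1]
      · exact hw2 a ha σ τ
  obtain ⟨m, u, hm, hu, hS⟩ := key Finset.univ
  refine ⟨m, fun a => u (a, 1), hm, ?_⟩
  have : (fun x : α × Perm ι => u (x.1, 1)) = u := by
    funext x
    exact hS x.1 (Finset.mem_univ _) 1 x.2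
  rw [this]
  exact hu

inductive PD {α Q : Type*} [Group Q] (φ : ℝ → Q) : (α → α → ℝ) → (α → Q) → Prop
  | const (c : Q) : PD φ (fun _ _ => 0) (fun _ => c)
  | col (g : α → ℝ) : PD φ (fun a b => (g a - g b) ^ 2) (fun a => φ (g a))
  | mul {e e' : α → α → ℝ} {u v : α → Q} (hu : PD φ e u) (hv : PD φ e' v) :
      PD φ (fun a b => e a b + e' a b) (fun a => u a * v a)

theorem PD.cast {α Q : Type*} [Group Q] {φ : ℝ → Q} {e e' : α → α → ℝ} {u v : α → Q}
    (h : PD φ e u) (he : ∀ a b, e a b = e' a b) (hu : ∀ a, u a = v a) : PD φ e' v := by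
  have h1 : e = e' := by
    funext a b
    exact he a b
  have h2 : u = v := funext hu
  rw [← h1, ← h2]
  exact h

theorem PD.push {α Q R : Type*} [Group Q] [Group R] (θ : Q →* R) {φ : ℝ → Q}
    {e : α → α → ℝ} {u : α → Q} (h : PD φ e u) :
    PD (fun x => θ (φ x)) e (fun a => θ (u a)) := by
  induction h with
  | const c => exact PD.const _
  | col g => exact PD.col g
  | mul _ _ ih1 ih2 => exact (PD.mul ih1 ih2).cast (fun _ _ => rfl) (fun a => by simp)

theorem PN.toPD {α ι D Q : Type*} [Fintype ι] [DecidableEq ι] [Group Q] {F : ι → D → Q}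
    {n : ι → ℕ} {u : D → Q} (h : PN F n u) (φ : ℝ → Q) (r : α → D) (g : ι → α → ℝ)
    (hg : ∀ l a, F l (r a) = φ (g l a)) :
    PD φ (fun a b => ∑ l, n l * (g l a - g l b) ^ 2) (fun a => u (r a)) := by
  induction h with
  | const c => exact (PD.const c).cast (fun _ _ => by simp) (fun _ => rfl)
  | col l =>
    refine (PD.col (g l)).cast (fun a b => ?_) (fun a => (hg l a).symm)
    rw [Finset.sum_eq_single l]
    · simp
    · intro l' _ hl'
      simp [hl']
    · intro hl
      exact absurd (Finset.mem_univ l) hl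
  | mul _ _ ih1 ih2 =>
    refine (PD.mul ih1 ih2).cast (fun a b => ?_) (fun a => rfl)
    rw [← Finset.sum_add_distrib]
    apply Finset.sum_congr rfl
    intro l _
    simp only [Pi.add_apply, Nat.cast_add]
    ring

theorem PD.listPow {α Q β : Type*} [Group Q] {φ : ℝ → Q} (e : β → α → α → ℝ) {u : α → Q}
    (h : ∀ x, PD φ (e x) u) (L : List β) :
    PD φ (fun a b => (L.map (fun x => e x a b)).sum) (fun a => u a ^ L.length) := by
  induction L with
  | nil => exact (PD.const 1).cast (fun _ _ => by simp) (fun _ => by simp)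
  | cons x L ih =>
    refine (PD.mul (h x) ih).cast (fun a b => by simp) (fun a => ?_)
    rw [List.length_cons, pow_succ']

theorem sum_perm_apply {ι : Type*} [Fintype ι] [DecidableEq ι] (G : ι → ℝ) (l : ι) :
    (Fintype.card ι : ℝ) * ∑ π : Perm ι, G (π l) = (Fintype.card (Perm ι) : ℝ) * ∑ i, G i := by
  have h1 : ∀ l', ∑ π : Perm ι, G (π l') = ∑ π : Perm ι, G (π l) := by
    intro l'
    refine Fintype.sum_equiv (Equiv.mulRight (Equiv.swap l l')) _ _ ?_
    intro π
    simp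
  calc (Fintype.card ι : ℝ) * ∑ π : Perm ι, G (π l)
      = ∑ l', ∑ π : Perm ι, G (π l') := by
        rw [Finset.sum_congr rfl (fun l' _ => h1 l')]
        simp
    _ = ∑ π : Perm ι, ∑ l', G (π l') := Finset.sum_comm
    _ = ∑ π : Perm ι, ∑ i, G i := by
        apply Finset.sum_congr rfl
        intro π _
        exact Equiv.sum_comp π G
    _ = _ := by simp

theorem sym_word {α ι : Type*} [Fintype α] [DecidableEq α] [Fintype ι] [DecidableEq ι]
    [Nonempty ι] (f₀ : ι → α → ℝ) :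
    ∃ (M : ℝ) (q : α → FreeGroup ℝ), 0 < M ∧ ∀ f : ι → α → ℝ,
      (∀ a, ∃ σ : Perm ι, ∀ l, f l a = f₀ (σ l) a) →
      PD FreeGroup.of (fun a b => M * ∑ l, (f l a - f l b) ^ 2) q := by
  obtain ⟨m, q, hm, hq⟩ := multi_orbit (fun (a : α) (l : ι) => FreeGroup.of (f₀ l a))
  obtain ⟨n, hn, hPN⟩ := hq.toPN
  have hc : (0 : ℝ) < Fintype.card ι := by exact_mod_cast Fintype.card_pos
  have hp : (0 : ℝ) < Fintype.card (Perm ι) := by exact_mod_cast Fintype.card_pos
  refine ⟨m * ((Fintype.card (Perm ι) : ℝ) / Fintype.card ι),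
    fun a => q a ^ (Finset.univ : Finset (Perm ι)).toList.length, by positivity, ?_⟩
  intro f hf
  choose σ hσ using hf
  have h1 : ∀ π : Perm ι, PD FreeGroup.of
      (fun a b => ∑ l, (n l : ℝ) * (f (π l) a - f (π l) b) ^ 2) q := by
    intro π
    refine (hPN.toPD FreeGroup.of (fun a => (a, σ a * π)) (fun l a => f (π l) a) ?_).cast
      (fun _ _ => rfl) (fun _ => rfl)
    intro l a
    simp only [Perm.mul_apply]
    rw [hσ a (π l)]
  refine (PD.listPow _ h1 (Finset.univ : Finset (Perm ι)).toList).cast (fun a b => ?_)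
    (fun a => rfl)
  rw [Finset.sum_map_toList, Finset.sum_comm]
  have h2 : ∀ l, ∑ π : Perm ι, (n l : ℝ) * (f (π l) a - f (π l) b) ^ 2 =
      n l * ((Fintype.card (Perm ι) : ℝ) / Fintype.card ι * ∑ i, (f i a - f i b) ^ 2) := by
    intro l
    rw [← Finset.mul_sum]
    congr 1
    have := sum_perm_apply (fun i => (f i a - f i b) ^ 2) l
    rw [div_mul_eq_mul_div, eq_div_iff hc.ne', mul_comm, this]
  rw [Finset.sum_congr rfl (fun l _ => h2 l), ← Finset.sum_mul, ← Nat.cast_sum, hn]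
  ring

end Vale.Agent.P058
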