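import Mathlib

set_option autoImplicit false

namespace Vale.Agent.P058

open Equiv

inductive PW {D Q : Type*} [Group Q] (F : Set (D → Q)) : ℕ → (D → Q) → Prop
  | const (c : Q) : PW F 0 (fun _ => c)
  | col {f : D → Q} (hf : f ∈ F) : PW F 1 f
  | mul {m n : ℕ} {u v : D → Q} (hu : PW F m u) (hv : PW F n v) : PW F (m + n) (u * v)

section basic

variable {D E Q R : Type*} [Group Q] [Group R]

theorem PW.mono {F F' : Set (D → Q)} (h : F ⊆ F') {m : ℕ} {u : D → Q} (hu : PW F m u) :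
    PW F' m u := by
  induction hu with
  | const c => exact PW.const c
  | col hf => exact PW.col (h hf)
  | mul _ _ ih1 ih2 => exact PW.mul ih1 ih2

theorem PW.comp {F F' : Set (D → Q)} (h : ∀ f ∈ F', ∃ k, 1 ≤ k ∧ PW F k f) {m : ℕ} {u : D → Q}
    (hu : PW F' m u) : ∃ k, m ≤ k ∧ PW F k u := by
  induction hu with
  | const c => exact ⟨0, le_rfl, PW.const c⟩
  | col hf => exact h _ hf
  | mul _ _ ih1 ih2 =>
    obtain ⟨k1, hk1, h1⟩ := ih1
    obtain ⟨k2, hk2, h2⟩ := ih2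
    exact ⟨k1 + k2, by omega, PW.mul h1 h2⟩

theorem PW.pull (r : E → D) {F : Set (D → Q)} {F' : Set (E → Q)} (h : ∀ f ∈ F, f ∘ r ∈ F')
    {m : ℕ} {u : D → Q} (hu : PW F m u) : PW F' m (u ∘ r) := by
  induction hu with
  | const c => exact PW.const c
  | col hf => exact PW.col (h _ hf)
  | mul _ _ ih1 ih2 => exact PW.mul ih1 ih2

theorem PW.push (θ : Q →* R) {F : Set (D → Q)} {F' : Set (D → R)}
    (h : ∀ f ∈ F, (fun x => θ (f x)) ∈ F')
    {m : ℕ} {u : D → Q} (hu : PW F m u) : PW F' m (fun x => θ (u x)) := by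
  induction hu with
  | const c => exact PW.const (θ c)
  | col hf => exact PW.col (h _ hf)
  | mul _ _ ih1 ih2 =>
    have := PW.mul ih1 ih2
    convert this using 1
    funext x
    simp

theorem PW.eq_of_eq {F : Set (D → Q)} {y z : D} (h : ∀ f ∈ F, f y = f z)
    {m : ℕ} {u : D → Q} (hu : PW F m u) : u y = u z := by
  induction hu with
  | const c => rfl
  | col hf => exact h _ hf
  | mul _ _ ih1 ih2 => simp [ih1, ih2]

theorem PW.diff {F : Set (D → Q)} {y z : D} {P : Submonoid Q}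
    (hP : ∀ p ∈ P, ∀ d : Q, d⁻¹ * p * d ∈ P)
    (h : ∀ f ∈ F, (f y)⁻¹ * f z ∈ P)
    {m : ℕ} {u : D → Q} (hu : PW F m u) : (u y)⁻¹ * u z ∈ P := by
  induction hu with
  | const c => simp
  | col hf => exact h _ hf
  | @mul _ _ u v _ _ ih1 ih2 =>
    have h1 := hP _ ih1 (v y)
    have h2 := P.mul_mem h1 ih2
    have e : (v y)⁻¹ * ((u y)⁻¹ * u z) * v y * ((v y)⁻¹ * v z) = ((u * v) y)⁻¹ * (u * v) z := by
      simp only [Pi.mul_apply]; group
    rwa [e] at h2

def CP (h : Q) : Submonoid Q := Submonoid.closure {p | ∃ d : Q, p = d⁻¹ * h * d}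

theorem CP_conj (h : Q) : ∀ p ∈ CP h, ∀ d : Q, d⁻¹ * p * d ∈ CP h := by
  intro p hp d
  induction hp using Submonoid.closure_induction with
  | mem x hx =>
    obtain ⟨e, rfl⟩ := hx
    apply Submonoid.subset_closure
    exact ⟨e * d, by group⟩
  | one => simp [Submonoid.one_mem]
  | mul x y _ _ ihx ihy =>
    have := (CP h).mul_mem ihx ihy
    have e : d⁻¹ * x * d * (d⁻¹ * y * d) = d⁻¹ * (x * y) * d := by group
    rwa [e] at this

theorem self_mem_CP (h : Q) : h ∈ CP h := Submonoid.subset_closure ⟨1, by simp⟩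

theorem exists_poly (bi bj : Q) (η : Q) (hη : η ∈ CP (bi⁻¹ * bj)) :
    ∃ E : Q → Q, E bj = 1 ∧ E bi = η⁻¹ ∧
      ∀ (D : Type _) (g : D → Q), ∃ m, PW {g} m (fun x => E (g x)) := by
  induction hη using Submonoid.closure_induction with
  | mem x hx =>
    obtain ⟨d, rfl⟩ := hx
    refine ⟨fun y => (d⁻¹ * bj⁻¹) * y * d, by simp, by group, ?_⟩
    intro D g
    refine ⟨0 + 1 + 0, ?_⟩
    exact PW.mul (PW.mul (PW.const _) (PW.col rfl)) (PW.const _)
  | one =>
    refine ⟨fun _ => 1, rfl, by simp, ?_⟩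
    intro D g
    exact ⟨0, PW.const 1⟩
  | mul x y _ _ ihx ihy =>
    obtain ⟨E1, h11, h12, h13⟩ := ihx
    obtain ⟨E2, h21, h22, h23⟩ := ihy
    refine ⟨fun z => E2 z * E1 z, by simp [h11, h21], by simp [h12, h22], ?_⟩
    intro D g
    obtain ⟨m1, hm1⟩ := h13 D g
    obtain ⟨m2, hm2⟩ := h23 D g
    exact ⟨m2 + m1, PW.mul hm2 hm1⟩

end basic

section perm

variable {ι : Type*} [DecidableEq ι] {Q : Type*} [Group Q]

def HT (T : Finset ι) (h : Perm ι) : Prop := ∀ l, l ∉ T → h l = l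

theorem HT.one (T : Finset ι) : HT T (1 : Perm ι) := fun _ _ => rfl

theorem HT.mul {T : Finset ι} {h k : Perm ι} (hh : HT T h) (hk : HT T k) : HT T (h * k) := by
  intro l hl
  rw [Perm.mul_apply, hk l hl, hh l hl]

theorem HT.mono {T T' : Finset ι} (hT : T ⊆ T') {h : Perm ι} (hh : HT T h) : HT T' h :=
  fun l hl => hh l (fun h => hl (hT h))

theorem HT.mem {T : Finset ι} {h : Perm ι} (hh : HT T h) {l : ι} (hl : l ∈ T) : h l ∈ T := by
  by_contra hc
  have := hh _ hc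
  have := h.injective this
  rw [this] at hc
  exact hc hl

theorem HT.swap {T : Finset ι} {i j : ι} (hi : i ∈ T) (hj : j ∈ T) : HT T (Equiv.swap i j) := by
  intro l hl
  apply Equiv.swap_apply_of_ne_of_ne
  · rintro rfl; exact hl hi
  · rintro rfl; exact hl hj

def Orb (T : Finset ι) (φ : Perm ι → Q) : Set (Perm ι → Q) :=
  {f | ∃ h, HT T h ∧ f = fun x => φ (x * h)}

theorem self_mem_Orb (T : Finset ι) (φ : Perm ι → Q) : φ ∈ Orb T φ :=
  ⟨1, HT.one T, by simp⟩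

theorem Orb.trans {T : Finset ι} {φ : Perm ι → Q} {k : Perm ι} (hk : HT T k) {m : ℕ}
    {u : Perm ι → Q} (hu : PW (Orb T φ) m u) : PW (Orb T φ) m (fun x => u (x * k)) := by
  refine hu.pull (fun x => x * k) ?_
  rintro f ⟨h, hh, rfl⟩
  refine ⟨k * h, hk.mul hh, ?_⟩
  funext x
  simp [mul_assoc]

theorem Orb.comp {T T' : Finset ι} (hT : T ⊆ T') {φ ψ : Perm ι → Q} {k : ℕ} (hk : 1 ≤ k)
    (hψ : PW (Orb T' φ) k ψ) {m : ℕ} {u : Perm ι → Q} (hu : PW (Orb T ψ) m u) :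
    ∃ n, m ≤ n ∧ PW (Orb T' φ) n u := by
  refine hu.comp ?_
  rintro f ⟨h, hh, rfl⟩
  exact ⟨k, hk, Orb.trans (hh.mono hT) hψ⟩

def InvT (Q : Type*) [Group Q] (T : Finset ι) : Prop :=
  ∀ φ : Perm ι → Q, ∃ m u, 1 ≤ m ∧ PW (Orb T φ) m u ∧ ∀ x h, HT T h → u (x * h) = u x

theorem inv_of_coset [Fintype ι] (T : Finset ι)
    (H : ∀ (φ : Perm ι → Q) (x₀ : Perm ι), ∃ m u, 1 ≤ m ∧ PW (Orb T φ) m u ∧
      ∀ h, HT T h → u (x₀ * h) = u x₀) : InvT Q T := by
  intro φ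
  have key : ∀ X : Finset (Perm ι), ∃ m u, 1 ≤ m ∧ PW (Orb T φ) m u ∧
      ∀ x ∈ X, ∀ h, HT T h → u (x * h) = u x := by
    intro X
    induction X using Finset.induction_on with
    | empty => exact ⟨1, φ, le_rfl, PW.col (self_mem_Orb T φ), by simp⟩
    | insert x₁ X _ ih =>
      obtain ⟨m, u, hm, hu, hc⟩ := ih
      obtain ⟨m', u', hm', hu', hc'⟩ := H u x₁
      obtain ⟨n, hn, hn'⟩ := Orb.comp (Finset.Subset.refl T) hm hu hu'
      refine ⟨n, u', by omega, hn', ?_⟩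
      intro x hx h hh
      rcases Finset.mem_insert.1 hx with rfl | hx
      · exact hc' h hh
      · refine hu'.eq_of_eq ?_
        rintro f ⟨k, hk, rfl⟩
        simp only [mul_assoc]
        rw [hc x hx (h * k) (hh.mul hk), hc x hx k hk]
  obtain ⟨m, u, hm, hu, hc⟩ := key Finset.univ
  exact ⟨m, u, hm, hu, fun x h hh => hc x (Finset.mem_univ x) h hh⟩

end perm

end Vale.Agent.P058
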